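import Mathlib

/-! Weighted l1 norms of multivariate power series. -/

open MvPowerSeries Filter Topology
open scoped ENNReal

namespace Vale.Agent.P218GV

variable {σ τ : Type*} {𝕜 : Type*} [NormedField 𝕜]

/-- The weighted l1 norm of a power series. -/
noncomputable def wn (w : (σ →₀ ℕ) → ℝ≥0∞) (F : MvPowerSeries σ 𝕜) : ℝ≥0∞ :=
  ∑' μ, ‖coeff μ F‖ₑ * w μ

/-- Submultiplicative weights. -/
def SubMul (w : (σ →₀ ℕ) → ℝ≥0∞) : Prop := ∀ μ ν, w (μ + ν) ≤ w μ * w ν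

theorem wn_mono {w w' : (σ →₀ ℕ) → ℝ≥0∞} (h : ∀ μ, w μ ≤ w' μ) (F : MvPowerSeries σ 𝕜) :
    wn w F ≤ wn w' F :=
  ENNReal.tsum_le_tsum fun μ => mul_le_mul_right (h μ) _

theorem wn_le_mul {w w' : (σ →₀ ℕ) → ℝ≥0∞} {c : ℝ≥0∞} (h : ∀ μ, w μ ≤ c * w' μ)
    (F : MvPowerSeries σ 𝕜) : wn w F ≤ c * wn w' F := by
  unfold wn
  rw [← ENNReal.tsum_mul_left]
  refine ENNReal.tsum_le_tsum fun μ => ?_
  calc ‖coeff μ F‖ₑ * w μ ≤ ‖coeff μ F‖ₑ * (c * w' μ) := mul_le_mul_right (h μ) _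
    _ = _ := by ring

theorem coeff_le_wn (w : (σ →₀ ℕ) → ℝ≥0∞) (F : MvPowerSeries σ 𝕜) (μ : σ →₀ ℕ) :
    ‖coeff μ F‖ₑ * w μ ≤ wn w F :=
  ENNReal.le_tsum (f := fun μ => ‖coeff μ F‖ₑ * w μ) μ

theorem wn_le_of_coeff {w : (σ →₀ ℕ) → ℝ≥0∞} {F G : MvPowerSeries σ 𝕜}
    (h : ∀ μ, ‖coeff μ F‖ₑ ≤ ‖coeff μ G‖ₑ) : wn w F ≤ wn w G :=
  ENNReal.tsum_le_tsum fun μ => mul_le_mul_left (h μ) _

@[simp] theorem wn_zero (w : (σ →₀ ℕ) → ℝ≥0∞) : wn w (0 : MvPowerSeries σ 𝕜) = 0 := by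
  simp [wn]

theorem wn_add (w : (σ →₀ ℕ) → ℝ≥0∞) (F G : MvPowerSeries σ 𝕜) :
    wn w (F + G) ≤ wn w F + wn w G := by
  unfold wn
  rw [← ENNReal.tsum_add]
  refine ENNReal.tsum_le_tsum fun μ => ?_
  rw [map_add, ← add_mul]
  exact mul_le_mul_left (enorm_add_le _ _) _

@[simp] theorem wn_neg (w : (σ →₀ ℕ) → ℝ≥0∞) (F : MvPowerSeries σ 𝕜) : wn w (-F) = wn w F := by
  simp [wn]

theorem wn_sub (w : (σ →₀ ℕ) → ℝ≥0∞) (F G : MvPowerSeries σ 𝕜) :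
    wn w (F - G) ≤ wn w F + wn w G := by
  rw [sub_eq_add_neg, ← wn_neg w G]
  exact wn_add _ _ _

theorem wn_smul (w : (σ →₀ ℕ) → ℝ≥0∞) (c : 𝕜) (F : MvPowerSeries σ 𝕜) :
    wn w (c • F) = ‖c‖ₑ * wn w F := by
  unfold wn
  rw [← ENNReal.tsum_mul_left]
  refine tsum_congr fun μ => ?_
  rw [map_smul, smul_eq_mul, enorm_mul, mul_assoc]

theorem wn_sum {ι : Type*} (w : (σ →₀ ℕ) → ℝ≥0∞) (s : Finset ι) (F : ι → MvPowerSeries σ 𝕜) :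
    wn w (∑ i ∈ s, F i) ≤ ∑ i ∈ s, wn w (F i) := by
  classical
  induction s using Finset.induction_on with
  | empty => simp
  | insert a s ha ih =>
    rw [Finset.sum_insert ha, Finset.sum_insert ha]
    exact (wn_add _ _ _).trans (add_le_add le_rfl ih)

theorem wn_monomial (w : (σ →₀ ℕ) → ℝ≥0∞) (μ : σ →₀ ℕ) (c : 𝕜) :
    wn w (monomial μ c) = ‖c‖ₑ * w μ := by
  classical
  unfold wn
  rw [tsum_eq_single μ]
  · rw [coeff_monomial_same]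
  · intro ν hν
    rw [coeff_monomial_ne hν]
    simp

theorem wn_C (w : (σ →₀ ℕ) → ℝ≥0∞) (c : 𝕜) : wn w (C c : MvPowerSeries σ 𝕜) = ‖c‖ₑ * w 0 := by
  rw [← monomial_zero_eq_C_apply, wn_monomial]

theorem wn_one (w : (σ →₀ ℕ) → ℝ≥0∞) : wn w (1 : MvPowerSeries σ 𝕜) = w 0 := by
  rw [← map_one (C : 𝕜 →+* MvPowerSeries σ 𝕜), wn_C]
  simp

theorem wn_X_pow (w : (σ →₀ ℕ) → ℝ≥0∞) (i : σ) (n : ℕ) :
    wn w ((X i : MvPowerSeries σ 𝕜) ^ n) = w (Finsupp.single i n) := by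
  rw [X_pow_eq, wn_monomial]
  simp

theorem tsum_antidiag [DecidableEq σ] (f : (σ →₀ ℕ) × (σ →₀ ℕ) → ℝ≥0∞) :
    ∑' μ, ∑ p ∈ Finset.HasAntidiagonal.antidiagonal μ, f p = ∑' p, f p := by
  rw [← (Finset.HasAntidiagonal.sigmaAntidiagonalEquivProd (A := σ →₀ ℕ)).tsum_eq f,
    ENNReal.tsum_sigma']
  refine tsum_congr fun μ => ?_
  rw [← Finset.tsum_subtype]
  rfl

theorem wn_mul {w : (σ →₀ ℕ) → ℝ≥0∞} (hw : SubMul w) (F G : MvPowerSeries σ 𝕜) :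
    wn w (F * G) ≤ wn w F * wn w G := by
  classical
  have h1 : wn w F * wn w G =
      ∑' p : (σ →₀ ℕ) × (σ →₀ ℕ), (‖coeff p.1 F‖ₑ * w p.1) * (‖coeff p.2 G‖ₑ * w p.2) := by
    unfold wn
    rw [ENNReal.tsum_prod', ← ENNReal.tsum_mul_right]
    refine tsum_congr fun μ => ?_
    rw [← ENNReal.tsum_mul_left]
  rw [h1, ← tsum_antidiag]
  refine ENNReal.tsum_le_tsum fun μ => ?_
  rw [coeff_mul]
  refine (mul_le_mul_left (enorm_sum_le _ _) _).trans ?_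
  rw [Finset.sum_mul]
  refine Finset.sum_le_sum fun p hp => ?_
  rw [← Finset.HasAntidiagonal.mem_antidiagonal.1 hp, enorm_mul]
  calc ‖coeff p.1 F‖ₑ * ‖coeff p.2 G‖ₑ * w (p.1 + p.2)
      ≤ ‖coeff p.1 F‖ₑ * ‖coeff p.2 G‖ₑ * (w p.1 * w p.2) := mul_le_mul_right (hw _ _) _
    _ = _ := by ring

theorem wn_prod {ι : Type*} {w : (σ →₀ ℕ) → ℝ≥0∞} (hw : SubMul w) (h0 : w 0 ≤ 1) (s : Finset ι)
    (F : ι → MvPowerSeries σ 𝕜) : wn w (∏ i ∈ s, F i) ≤ ∏ i ∈ s, wn w (F i) := by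
  classical
  induction s using Finset.induction_on with
  | empty => simpa [wn_one] using h0
  | insert a s ha ih =>
    rw [Finset.prod_insert ha, Finset.prod_insert ha]
    exact (wn_mul hw _ _).trans (mul_le_mul_right ih _)

theorem wn_pow {w : (σ →₀ ℕ) → ℝ≥0∞} (hw : SubMul w) (h0 : w 0 ≤ 1) (F : MvPowerSeries σ 𝕜)
    (n : ℕ) : wn w (F ^ n) ≤ wn w F ^ n := by
  have := wn_prod hw h0 (Finset.range n) fun _ => F
  simpa using this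

theorem enorm_finsum_le {ι : Type*} {f : ι → 𝕜} (hf : (Function.support f).Finite) :
    ‖∑ᶠ i, f i‖ₑ ≤ ∑' i, ‖f i‖ₑ := by
  rw [finsum_eq_sum f hf]
  exact (enorm_sum_le _ _).trans (ENNReal.sum_le_tsum _)

/-- The norm of a substitution. -/
theorem wn_subst {w : (σ →₀ ℕ) → ℝ≥0∞} {w' : (τ →₀ ℕ) → ℝ≥0∞} {a : σ → MvPowerSeries τ 𝕜}
    (ha : HasSubst a) (h : ∀ μ : σ →₀ ℕ, wn w' (μ.prod fun i e => a i ^ e) ≤ w μ)
    (F : MvPowerSeries σ 𝕜) : wn w' (subst a F) ≤ wn w F := by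
  calc wn w' (subst a F)
      ≤ ∑' ν, (∑' μ : σ →₀ ℕ, ‖coeff μ F‖ₑ * ‖coeff ν (μ.prod fun i e => a i ^ e)‖ₑ) * w' ν := by
        refine ENNReal.tsum_le_tsum fun ν => mul_le_mul_left ?_ _
        rw [coeff_subst ha]
        refine (enorm_finsum_le (coeff_subst_finite ha F ν)).trans (le_of_eq ?_)
        refine tsum_congr fun μ => ?_
        rw [smul_eq_mul, enorm_mul]
    _ = ∑' μ : σ →₀ ℕ, ‖coeff μ F‖ₑ * wn w' (μ.prod fun i e => a i ^ e) := by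
        simp_rw [← ENNReal.tsum_mul_right]
        rw [ENNReal.tsum_comm]
        refine tsum_congr fun μ => ?_
        unfold wn
        rw [← ENNReal.tsum_mul_left]
        refine tsum_congr fun ν => by ring
    _ ≤ wn w F := ENNReal.tsum_le_tsum fun μ => mul_le_mul_right (h μ) _

/-- Dominated convergence for the norms. -/
theorem tendsto_wn_zero {ι : Type*} {l : Filter ι} {w : ι → (σ →₀ ℕ) → ℝ≥0∞}
    {w0 : (σ →₀ ℕ) → ℝ≥0∞} {F : MvPowerSeries σ 𝕜} (hF : wn w0 F ≠ ∞)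
    (hle : ∀ᶠ k in l, ∀ μ, w k μ ≤ w0 μ)
    (h0 : ∀ μ, coeff μ F ≠ 0 → Tendsto (fun k => w k μ) l (𝓝 0)) :
    Tendsto (fun k => wn (w k) F) l (𝓝 0) := by
  classical
  rw [ENNReal.tendsto_nhds_zero]
  intro ε hε
  have hε2 : 0 < ε / 2 := ENNReal.half_pos hε.ne'
  obtain ⟨s, hs⟩ := ((ENNReal.tendsto_tsum_compl_atTop_zero hF).eventually
    (ge_mem_nhds hε2)).exists
  have h1 : Tendsto (fun k => ∑ μ ∈ s, ‖coeff μ F‖ₑ * w k μ) l (𝓝 0) := by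
    have : Tendsto (fun k => ∑ μ ∈ s, ‖coeff μ F‖ₑ * w k μ) l (𝓝 (∑ μ ∈ s, 0)) := by
      refine tendsto_finsetSum _ fun μ _ => ?_
      by_cases hc : coeff μ F = 0
      · simp [hc, tendsto_const_nhds]
      · have := ENNReal.Tendsto.const_mul (a := ‖coeff μ F‖ₑ) (h0 μ hc) (Or.inr enorm_ne_top)
        simpa using this
    simpa using this
  filter_upwards [h1.eventually (ge_mem_nhds hε2), hle] with k hk1 hk2
  unfold wn
  rw [← ENNReal.sum_add_tsum_compl s, ← ENNReal.add_halves ε]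
  refine add_le_add hk1 (le_trans ?_ hs)
  exact ENNReal.tsum_le_tsum fun μ => mul_le_mul_right (hk2 _) _

/-- Lower semicontinuity of the norm under coefficientwise stabilisation. -/
theorem wn_le_of_eventually {w : (σ →₀ ℕ) → ℝ≥0∞} {F : MvPowerSeries σ 𝕜}
    {G : ℕ → MvPowerSeries σ 𝕜} {c : ℝ≥0∞} (hG : ∀ k, wn w (G k) ≤ c)
    (h : ∀ μ, ∀ᶠ k in atTop, coeff μ (G k) = coeff μ F) : wn w F ≤ c := by
  unfold wn
  rw [ENNReal.tsum_eq_iSup_sum]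
  refine iSup_le fun s => ?_
  obtain ⟨k, hk⟩ := ((Finset.eventually_all s).2 fun μ _ => h μ).exists
  refine le_trans ?_ (hG k)
  calc ∑ μ ∈ s, ‖coeff μ F‖ₑ * w μ = ∑ μ ∈ s, ‖coeff μ (G k)‖ₑ * w μ :=
        Finset.sum_congr rfl fun μ hμ => by rw [hk μ hμ]
    _ ≤ _ := ENNReal.sum_le_tsum _

end Vale.Agent.P218GV
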