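import Vale.Agent.P218GV.GV9

/-! Convergent series, Taylor series of holomorphic functions, derivatives. -/

open MvPowerSeries Filter Topology Metric Asymptotics

namespace Vale.Agent.P218GV

variable {σ : Type*} [Fintype σ]

/-- The sum of a series. -/
noncomputable def ev (c : MvPowerSeries σ ℂ) (z : σ → ℂ) : ℂ :=
  ∑' μ : σ →₀ ℕ, coeff μ c * ∏ i, z i ^ μ i

/-- Cauchy bounds for the coefficients. -/
def CB (c : MvPowerSeries σ ℂ) (R : σ → ℝ) (M : ℝ) : Prop :=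
  ∀ μ : σ →₀ ℕ, ‖coeff μ c‖ * ∏ i, R i ^ μ i ≤ M

theorem CB.nonneg {c : MvPowerSeries σ ℂ} {R : σ → ℝ} {M : ℝ} (h : CB c R M) : 0 ≤ M := by
  have := h 0
  simp only [Finsupp.coe_zero, Pi.zero_apply, pow_zero, Finset.prod_const_one, mul_one] at this
  exact (norm_nonneg _).trans this

theorem CB.term {c : MvPowerSeries σ ℂ} {R : σ → ℝ} {M : ℝ} (h : CB c R M)
    {x : σ → ℝ} (hx : ∀ i, 0 ≤ x i) {z : σ → ℂ} (hz : ∀ i, ‖z i‖ ≤ x i * R i) (μ : σ →₀ ℕ) :
    ‖coeff μ c * ∏ i, z i ^ μ i‖ ≤ M * ∏ i, x i ^ μ i := by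
  have h2 : 0 ≤ ∏ i, x i ^ μ i := Finset.prod_nonneg fun i _ => pow_nonneg (hx i) _
  refine le_trans ?_ (mul_le_mul_of_nonneg_right (h μ) h2)
  rw [norm_mul, norm_prod, mul_assoc, ← Finset.prod_mul_distrib]
  refine mul_le_mul_of_nonneg_left (Finset.prod_le_prod (fun i _ => norm_nonneg _) fun i _ => ?_)
    (norm_nonneg _)
  rw [norm_pow, ← mul_pow, mul_comm]
  exact pow_le_pow_left₀ (norm_nonneg _) (hz i) _

theorem CB.summable {c : MvPowerSeries σ ℂ} {R : σ → ℝ} {M : ℝ} (h : CB c R M)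
    (hR : ∀ i, 0 < R i) {z : σ → ℂ} (hz : z ∈ pd R) :
    Summable fun μ : σ →₀ ℕ => coeff μ c * ∏ i, z i ^ μ i := by
  have h0 : ∀ i, 0 ≤ ‖z i‖ / R i := fun i => div_nonneg (norm_nonneg _) (hR i).le
  exact Summable.of_norm_bounded
    ((summable_geo' h0 fun i => (div_lt_one (hR i)).2 (hz i)).mul_left M)
    (h.term h0 fun i => (div_mul_cancel₀ _ (hR i).ne').ge)

theorem CB.mono {c c' : MvPowerSeries σ ℂ} {R : σ → ℝ} {M : ℝ} (h : CB c R M)
    (hR : ∀ i, 0 < R i) (hc : ∀ μ, ‖coeff μ c'‖ ≤ ‖coeff μ c‖) : CB c' R M := fun μ =>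
  (mul_le_mul_of_nonneg_right (hc μ) (Finset.prod_nonneg fun i _ => pow_nonneg (hR i).le _)).trans
    (h μ)

theorem CB.differentiableOn {c : MvPowerSeries σ ℂ} {R : σ → ℝ} {M : ℝ} (h : CB c R M)
    (hR : ∀ i, 0 < R i) : DifferentiableOn ℂ (ev c) (pd R) := by
  intro z hz
  set x : σ → ℝ := fun i => (‖z i‖ / R i + 1) / 2 with hx
  have h1 : ∀ i, ‖z i‖ / R i < 1 := fun i => (div_lt_one (hR i)).2 (hz i)
  have h0 : ∀ i, 0 ≤ ‖z i‖ / R i := fun i => div_nonneg (norm_nonneg _) (hR i).le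
  have h2 : ∀ i, 0 ≤ x i := fun i => by simp only [hx]; linarith [h0 i]
  have h3 : z ∈ pd fun i => x i * R i := fun i => by
    rw [← div_lt_iff₀ (hR i)]
    simp only [hx]
    linarith [h1 i]
  have h4 := differentiableOn_tsum (isOpen_pd fun i => x i * R i)
    (f := fun (μ : σ →₀ ℕ) (z : σ → ℂ) => coeff μ c * ∏ i, z i ^ μ i)
    (fun μ => (((contDiff_prod (n := 1) fun i _ =>
      (contDiff_apply ℂ ℂ i).pow (μ i)).differentiable one_ne_zero).const_mul _).differentiableOn)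
    ((summable_geo' h2 fun i => by simp only [hx]; linarith [h1 i]).mul_left M)
    fun μ w hw => h.term h2 (fun i => (hw i).le) μ
  exact (h4.differentiableAt ((isOpen_pd _).mem_nhds h3)).differentiableWithinAt

theorem ev_sub {c c' : MvPowerSeries σ ℂ} {z : σ → ℂ}
    (h : Summable fun μ : σ →₀ ℕ => coeff μ c * ∏ i, z i ^ μ i)
    (h' : Summable fun μ : σ →₀ ℕ => coeff μ c' * ∏ i, z i ^ μ i) :
    ev (c - c') z = ev c z - ev c' z := by
  unfold ev
  rw [← h.tsum_sub h']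
  exact tsum_congr fun μ => by rw [map_sub, sub_mul]

theorem ev_coe (P : MvPolynomial σ ℂ) (z : σ → ℂ) :
    HasSum (fun μ : σ →₀ ℕ => coeff μ (P : MvPowerSeries σ ℂ) * ∏ i, z i ^ μ i)
      (MvPolynomial.eval z P) := by
  rw [MvPolynomial.eval_eq']
  refine hasSum_sum_of_ne_finset_zero fun μ hμ => ?_
  rw [MvPolynomial.coeff_coe, MvPolynomial.notMem_support_iff.1 hμ, zero_mul]

/-- Bound for a series all of whose terms have large weighted degree. -/
theorem CB.norm_ev_le {c : MvPowerSeries σ ℂ} {R : σ → ℝ} {M : ℝ} (h : CB c R M)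
    {x : σ → ℝ} (hx : ∀ i, 0 ≤ x i) (hx1 : ∀ i, x i < 1) {ω : σ → ℕ} {K : ℕ} (hc : Ord ω K c)
    {t : ℝ} (ht : 0 ≤ t) (ht1 : t ≤ 1) {z : σ → ℂ} (hz : ∀ i, ‖z i‖ ≤ t ^ ω i * x i * R i) :
    ‖ev c z‖ ≤ t ^ K * M * ∑' μ : σ →₀ ℕ, ∏ i, x i ^ μ i := by
  refine tsum_of_norm_bounded ((summable_geo' hx hx1).hasSum.mul_left _) fun μ => ?_
  have h2 : 0 ≤ ∏ i, x i ^ μ i := Finset.prod_nonneg fun i _ => pow_nonneg (hx i) _
  by_cases h1 : Finsupp.weight ω μ < K
  · rw [hc μ h1, zero_mul, norm_zero]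
    exact mul_nonneg (mul_nonneg (pow_nonneg ht _) h.nonneg) h2
  · refine (h.term (fun i => mul_nonneg (pow_nonneg ht _) (hx i)) hz μ).trans ?_
    simp only [mul_pow, Finset.prod_mul_distrib, ← pow_mul, Finset.prod_pow_eq_pow_sum]
    have h3 : ∑ i, ω i * μ i = Finsupp.weight ω μ := by
      rw [Finsupp.weight_apply, Finsupp.sum_fintype _ _ (by simp)]
      simp [mul_comm]
    rw [h3, ← mul_assoc, mul_comm M]
    exact mul_le_mul_of_nonneg_right (mul_le_mul_of_nonneg_right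
      (pow_le_pow_of_le_one ht ht1 (not_lt.1 h1)) h.nonneg) h2

theorem exists_rad {R : σ → ℝ} (hR : ∀ i, 0 < R i) : ∃ ρ > 0, ∀ i, ρ ≤ R i := by
  obtain ⟨ρ, hρ⟩ := ((eventually_all.2 fun i => eventually_le_nhds (hR i)).and_frequently
    (frequently_gt_nhds (0 : ℝ))).exists
  exact ⟨ρ, hρ.2, hρ.1⟩

theorem pd_mem_nhds {R : σ → ℝ} (hR : ∀ i, 0 < R i) : pd R ∈ 𝓝 (0 : σ → ℂ) :=
  (isOpen_pd R).mem_nhds fun i => by simpa using hR i

theorem CB.hasExp {c : MvPowerSeries σ ℂ} {R : σ → ℝ} {M : ℝ} (h : CB c R M)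
    (hR : ∀ i, 0 < R i) : HasExp (ev c) c := by
  intro K
  obtain ⟨ρ, hρ, hρR⟩ := exists_rad hR
  have h1 : ∀ μ, coeff μ (c - (truncTotal K c : MvPowerSeries σ ℂ)) = if μ.degree < K then 0 else coeff μ c := by
    intro μ
    rw [map_sub, MvPolynomial.coeff_coe, coeff_truncTotal_eq_ite]
    split_ifs <;> simp
  have h2 : CB (c - (truncTotal K c : MvPowerSeries σ ℂ)) R M := h.mono hR fun μ => by
    rw [h1]
    split_ifs <;> simp
  have h3 : Ord (fun _ => 1) K (c - (truncTotal K c : MvPowerSeries σ ℂ)) := fun μ hμ => by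
    rw [h1, if_pos (by rwa [Finsupp.degree_eq_weight_one])]
  refine IsBigO.of_bound ((2 / ρ) ^ K * M * ∑' μ : σ →₀ ℕ, ∏ i, (1 / 2 : ℝ) ^ μ i) ?_
  filter_upwards [pd_mem_nhds hR, closedBall_mem_nhds (0 : σ → ℂ) (half_pos hρ)] with z hz hz1
  rw [mem_closedBall_zero_iff] at hz1
  have h4 := h2.norm_ev_le (x := fun _ => 1 / 2) (by simp) (fun _ => by norm_num) h3
    (t := 2 / ρ * ‖z‖) (by positivity)
    (by rw [div_mul_eq_mul_div, div_le_one hρ]; linarith) (z := z) fun i => by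
      refine (norm_le_pi_norm z i).trans ?_
      have h5 : 2 / ρ * ‖z‖ * (1 / 2) * ρ = ‖z‖ := by field_simp
      rw [pow_one, ← h5]
      exact mul_le_mul_of_nonneg_left (hρR i) (by positivity) |>.trans (by rw [h5])
  rw [ev_sub (h.summable hR hz) (ev_coe _ z).summable,
    show ev (truncTotal K c : MvPowerSeries σ ℂ) z = _ from (ev_coe _ z).tsum_eq] at h4
  refine h4.trans (le_of_eq ?_)
  rw [mul_pow, norm_pow, norm_norm]
  ring

open Classical in
/-- The Taylor series. -/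
noncomputable def tay (h : (σ → ℂ) → ℂ) : MvPowerSeries σ ℂ :=
  if H : ∃ c, HasExp h c then H.choose else 0

theorem HasExp.tay_eq {h : (σ → ℂ) → ℂ} {c : MvPowerSeries σ ℂ} (H : HasExp h c) : tay h = c := by
  have H1 : ∃ c, HasExp h c := ⟨c, H⟩
  rw [tay, dif_pos H1]
  exact H1.choose_spec.unique H

theorem tay_spec {R : σ → ℝ} {h : (σ → ℂ) → ℂ} {M : ℝ} (hR : ∀ i, 0 < R i)
    (hd : DifferentiableOn ℂ h (pd R)) (hM : ∀ z ∈ pd R, ‖h z‖ ≤ M) :
    CB (tay h) R M ∧ HasExp h (tay h) ∧ ∀ z ∈ pd R, ev (tay h) z = h z := by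
  obtain ⟨c, h1, h2⟩ := exists_series hR hd hM
  have h3 : ∀ z ∈ pd R, ev c z = h z := fun z hz => (h2 z hz).tsum_eq
  have h4 : HasExp h c := (CB.hasExp h1 hR).congr (mem_of_superset (pd_mem_nhds hR) h3)
  rw [h4.tay_eq]
  exact ⟨h1, h4, h3⟩

theorem fderiv_eval [DecidableEq σ] (P : MvPolynomial σ ℂ) (z : σ → ℂ) (i : σ) :
    fderiv ℂ (fun z => MvPolynomial.eval z P) z (Pi.single i 1) =
      MvPolynomial.eval z (MvPolynomial.pderiv i P) := by
  have hd : ∀ P : MvPolynomial σ ℂ, DifferentiableAt ℂ (fun z => MvPolynomial.eval z P) z :=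
    fun P => (AnalyticOnNhd.eval_mvPolynomial P z (Set.mem_univ _)).differentiableAt
  induction P using MvPolynomial.induction_on with
  | C a => simp
  | add P Q hP hQ =>
    simp only [map_add]
    rw [fderiv_fun_add (hd P) (hd Q), add_apply, hP, hQ]
  | mul_X P j hP =>
    simp only [map_mul, MvPolynomial.eval_X]
    rw [fderiv_fun_mul (hd P) (differentiableAt_apply j z), (hasFDerivAt_apply j z).fderiv]
    simp only [add_apply, smul_apply, hP, smul_eq_mul,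
      ContinuousLinearMap.proj_apply, Derivation.leibniz, map_add, map_mul, MvPolynomial.eval_X,
      MvPolynomial.pderiv_X]
    by_cases hij : j = i
    · subst hij
      simp
    · simp [Pi.single_eq_of_ne hij]

theorem pderiv_truncTotal {𝕜 : Type*} [NormedField 𝕜] (K : ℕ) (c : MvPowerSeries σ 𝕜) (i : σ) :
    MvPolynomial.pderiv i (truncTotal (K + 1) c) = truncTotal K (pderiv 𝕜 i c) := by
  ext μ
  rw [MvPolynomial.coeff_pderiv, coeff_truncTotal_eq_ite, coeff_truncTotal_eq_ite, coeff_pderiv,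
    map_add, Finsupp.degree_single]
  simp only [add_lt_add_iff_right]
  split_ifs <;> simp

theorem HasExp.fderiv [DecidableEq σ] {h : (σ → ℂ) → ℂ} {c : MvPowerSeries σ ℂ} (H : HasExp h c)
    (hd : ∀ᶠ z in 𝓝 0, DifferentiableAt ℂ h z) (i : σ) :
    HasExp (fun z => fderiv ℂ h z (Pi.single i 1)) (pderiv ℂ i c) := by
  intro K
  set P := truncTotal (K + 1) c with hP
  have hPd : ∀ z, DifferentiableAt ℂ (fun z => MvPolynomial.eval z P) z :=
    fun z => (AnalyticOnNhd.eval_mvPolynomial P z (Set.mem_univ _)).differentiableAt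
  obtain ⟨C, hC0, hC⟩ := (H (K + 1)).exists_pos
  obtain ⟨ε, hε, hB⟩ := Metric.eventually_nhds_iff_ball.1 (hC.bound.and hd)
  refine IsBigO.of_bound (C * 2 ^ (K + 1)) ?_
  filter_upwards [ball_mem_nhds (0 : σ → ℂ) (half_pos hε)] with z hz
  rw [mem_ball_zero_iff] at hz
  have h1 : ∀ r ∈ Set.Ioo ‖z‖ (ε / 2), ‖_root_.fderiv ℂ h z (Pi.single i 1) -
      MvPolynomial.eval z (truncTotal K (pderiv ℂ i c))‖ ≤ C * 2 ^ (K + 1) * r ^ K := by
    intro r hr
    have hr0 : 0 < r := (norm_nonneg _).trans_lt hr.1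
    have h2 : ∀ y ∈ ball z r, ‖y‖ < 2 * r := fun y hy => by
      have := norm_lt_of_mem_ball hy
      linarith [hr.1]
    have h3 : ∀ y ∈ ball z r, y ∈ ball (0 : σ → ℂ) ε := fun y hy => by
      rw [mem_ball_zero_iff]
      linarith [h2 y hy, hr.2]
    have h4 := P268.norm_fderiv_le_of_ball (f := fun z => h z - MvPolynomial.eval z P)
      (C := C * (2 * r) ^ (K + 1)) hr0
      (fun y hy => ((hB y (h3 y hy)).2.sub (hPd y)).differentiableWithinAt) fun y hy => by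
        refine (hB y (h3 y hy)).1.trans (mul_le_mul_of_nonneg_left ?_ hC0.le)
        rw [norm_pow, norm_norm]
        exact pow_le_pow_left₀ (norm_nonneg _) (h2 y hy).le _
    rw [fderiv_fun_sub (hB z (h3 z (mem_ball_self hr0))).2 (hPd z)] at h4
    rw [← pderiv_truncTotal, ← fderiv_eval, ← sub_apply]
    refine (ContinuousLinearMap.le_opNorm _ _).trans ?_
    rw [Pi.norm_single, norm_one, mul_one]
    refine h4.trans (le_of_eq ?_)
    field_simp
    ring
  have h2 : Tendsto (fun r : ℝ => C * 2 ^ (K + 1) * r ^ K) (𝓝[>] ‖z‖)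
      (𝓝 (C * 2 ^ (K + 1) * ‖z‖ ^ K)) :=
    Tendsto.mono_left (Continuous.tendsto (by fun_prop) _) nhdsWithin_le_nhds
  rw [norm_pow, norm_norm]
  exact ge_of_tendsto h2 (mem_of_superset (Ioo_mem_nhdsGT hz) h1)

end Vale.Agent.P218GV
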