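import Vale.Agent.P218GV.GV9

/-! Formal calculus: chain rule, second order Taylor formula, critical values. -/

open MvPowerSeries Filter Topology
open scoped ENNReal

namespace Vale.Agent.P218GV

variable {σ τ : Type*} {𝕜 : Type*} [NormedField 𝕜]

theorem Ord.mono {ω : σ → ℕ} {m n : ℕ} {F : MvPowerSeries σ 𝕜} (h : Ord ω n F) (hm : m ≤ n) :
    Ord ω m F := fun μ hμ => h μ (by omega)

theorem Ord.pow {ω : σ → ℕ} {m : ℕ} {F : MvPowerSeries σ 𝕜} (h : Ord ω m F) (e : ℕ) :
    Ord ω (e * m) (F ^ e) := by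
  induction e with
  | zero => intro μ hμ; omega
  | succ e ih =>
    rw [pow_succ, add_mul, one_mul]
    exact ih.mul h

theorem Ord.prod {ι : Type*} {ω : σ → ℕ} {m : ι → ℕ} {F : ι → MvPowerSeries σ 𝕜} (s : Finset ι)
    (h : ∀ i, Ord ω (m i) (F i)) : Ord ω (∑ i ∈ s, m i) (∏ i ∈ s, F i) := by
  classical
  induction s using Finset.induction_on with
  | empty => intro μ hμ; simp at hμ
  | insert a s ha ih =>
    rw [Finset.sum_insert ha, Finset.prod_insert ha]
    exact (h a).mul ih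

theorem ord_subst [Finite σ] {ω : σ → ℕ} {ω' : τ → ℕ} {a : σ → MvPowerSeries τ 𝕜}
    (ha0 : ∀ i, constantCoeff (a i) = 0) (ha : ∀ i, Ord ω' (ω i) (a i)) {K : ℕ}
    {F : MvPowerSeries σ 𝕜} (hF : Ord ω K F) : Ord ω' K (subst a F) := by
  intro m hm
  rw [coeff_subst (hasSubst_of_constantCoeff_zero ha0)]
  refine finsum_eq_zero_of_forall_eq_zero fun μ => ?_
  by_cases h : Finsupp.weight ω μ < K
  · rw [hF μ h, zero_smul]
  · have h1 := Ord.prod μ.support fun i => (ha i).pow (μ i)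
    rw [Finsupp.prod, h1 m, smul_zero]
    rw [Finsupp.weight_apply, Finsupp.sum] at h
    simp only [smul_eq_mul] at h
    omega

theorem ord_one_of_const {F : MvPowerSeries σ 𝕜} (h : constantCoeff F = 0) :
    Ord (fun _ => 1) 1 F := by
  intro μ hμ
  rw [← Finsupp.degree_eq_weight_one, Nat.lt_one_iff, Finsupp.degree_eq_zero_iff] at hμ
  rw [hμ]
  simpa using h

theorem ord_unit {F : MvPowerSeries Unit 𝕜} {K : ℕ} : Ord (fun _ => 1) K F ↔ X () ^ K ∣ F := by
  rw [X_pow_dvd_iff]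
  refine forall_congr' fun μ => ?_
  rw [Finsupp.weight_apply, Finsupp.sum_fintype _ _ (by simp)]
  simp

theorem Ord.pderiv {ω : σ → ℕ} {K : ℕ} {F : MvPowerSeries σ 𝕜} (i : σ)
    (h : Ord ω (K + ω i) F) : Ord ω K (pderiv 𝕜 i F) := by
  intro μ hμ
  rw [coeff_pderiv, h, zero_mul]
  rw [map_add, Finsupp.weight_single]
  simpa using hμ

theorem ord_sub_trunc [Finite σ] (K : ℕ) (F : MvPowerSeries σ 𝕜) :
    Ord (fun _ => 1) K (F - (truncTotal K F : MvPowerSeries σ 𝕜)) := fun μ hμ => by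
  rw [map_sub, MvPolynomial.coeff_coe, coeff_truncTotal _ (by rwa [Finsupp.degree_eq_weight_one]),
    sub_self]

theorem chain_poly [Fintype σ] (a : σ → MvPowerSeries τ 𝕜) (k : τ) (P : MvPolynomial σ 𝕜) :
    pderiv 𝕜 k (MvPolynomial.aeval a P) =
      ∑ i, MvPolynomial.aeval a (MvPolynomial.pderiv i P) * pderiv 𝕜 k (a i) := by
  classical
  induction P using MvPolynomial.induction_on with
  | C c => simp
  | add P Q hP hQ => simp [hP, hQ, add_mul, Finset.sum_add_distrib]
  | mul_X P j hP =>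
    simp only [map_mul, MvPolynomial.aeval_X, Derivation.leibniz, hP, smul_eq_mul, map_add,
      MvPolynomial.pderiv_X, add_mul, Finset.sum_add_distrib, Finset.mul_sum, mul_assoc]
    congr 1
    rw [Finset.sum_eq_single j]
    · simp
    · intro i _ hi
      simp [Pi.single_eq_of_ne hi.symm]
    · simp

/-- The chain rule. -/
theorem chain [Fintype σ] {a : σ → MvPowerSeries τ 𝕜} (ha : ∀ i, constantCoeff (a i) = 0) (k : τ)
    (F : MvPowerSeries σ 𝕜) :
    pderiv 𝕜 k (subst a F) = ∑ i, subst a (pderiv 𝕜 i F) * pderiv 𝕜 k (a i) := by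
  have hs := hasSubst_of_constantCoeff_zero ha
  ext ν
  set K := ν.degree + 1 with hK
  set P := truncTotal (K + 1) F with hP
  have hR := ord_sub_trunc (K + 1) F
  rw [← hP] at hR
  have hν : Finsupp.weight (fun _ => 1) ν < K := by
    rw [← Finsupp.degree_eq_weight_one]
    omega
  have h1 := (ord_subst ha (fun i => ord_one_of_const (ha i)) hR).pderiv k ν hν
  rw [subst_sub hs, map_sub, map_sub, sub_eq_zero] at h1
  rw [h1, subst_coe, chain_poly, map_sum, map_sum]
  refine Finset.sum_congr rfl fun i _ => ?_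
  have h2 := ((ord_subst ha (fun i => ord_one_of_const (ha i)) (hR.pderiv i)).mul
    (n := 0) (G := pderiv 𝕜 k (a i)) fun μ hμ => by omega) ν hν
  rw [map_sub, subst_sub hs, sub_mul, map_sub, sub_eq_zero, pderiv_coe, subst_coe] at h2
  exact h2.symm

theorem taylor_poly [Fintype σ] {A : Type*} [CommRing A] [Algebra 𝕜 A] (a b : σ → A) {u : A}
    (h : ∀ i, u ∣ b i - a i) (P : MvPolynomial σ 𝕜) :
    u ∣ MvPolynomial.aeval b P - MvPolynomial.aeval a P ∧
    u ^ 2 ∣ MvPolynomial.aeval b P - MvPolynomial.aeval a P -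
      ∑ i, MvPolynomial.aeval a (MvPolynomial.pderiv i P) * (b i - a i) := by
  classical
  induction P using MvPolynomial.induction_on with
  | C c => simp
  | add P Q hP hQ =>
    simp only [map_add, add_mul, Finset.sum_add_distrib]
    exact ⟨by convert dvd_add hP.1 hQ.1 using 1; ring, by convert dvd_add hP.2 hQ.2 using 1; ring⟩
  | mul_X P j hP =>
    have h1 : ∑ i, MvPolynomial.aeval a (MvPolynomial.pderiv i (P * MvPolynomial.X j)) *
        (b i - a i) = MvPolynomial.aeval a P * (b j - a j) +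
        a j * ∑ i, MvPolynomial.aeval a (MvPolynomial.pderiv i P) * (b i - a i) := by
      simp only [map_mul, MvPolynomial.aeval_X, Derivation.leibniz, smul_eq_mul, map_add,
        MvPolynomial.pderiv_X, add_mul, Finset.sum_add_distrib, Finset.mul_sum, mul_assoc]
      congr 1
      rw [Finset.sum_eq_single j]
      · simp
      · intro i _ hi
        simp [Pi.single_eq_of_ne hi.symm]
      · simp
    rw [h1]
    simp only [map_mul, MvPolynomial.aeval_X]
    refine ⟨?_, ?_⟩
    · convert dvd_add (hP.1.mul_right (b j)) ((h j).mul_left (MvPolynomial.aeval a P)) using 1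
      ring
    · convert dvd_add (hP.2.mul_left (a j)) (sq u ▸ mul_dvd_mul hP.1 (h j)) using 1
      ring

/-- At a critical arc the value is stationary to second order. -/
theorem dvd_of_critical [Fintype σ] {a b : σ → MvPowerSeries Unit 𝕜}
    (ha : ∀ i, constantCoeff (a i) = 0) (hb : ∀ i, constantCoeff (b i) = 0) {n : ℕ}
    (h : ∀ i, X () ^ n ∣ b i - a i) {F : MvPowerSeries σ 𝕜}
    (hF : ∀ i, subst a (pderiv 𝕜 i F) = 0) : X () ^ (2 * n) ∣ subst b F - subst a F := by
  have hsa := hasSubst_of_constantCoeff_zero ha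
  have hsb := hasSubst_of_constantCoeff_zero hb
  set P := truncTotal (2 * n + 1) F with hP
  have hR := ord_sub_trunc (2 * n + 1) F
  rw [← hP] at hR
  have h1 := ord_unit.1 (ord_subst ha (fun i => ord_one_of_const (ha i)) (hR.mono (Nat.le_succ _)))
  have h2 := ord_unit.1 (ord_subst hb (fun i => ord_one_of_const (hb i)) (hR.mono (Nat.le_succ _)))
  have h3 : ∀ i, X () ^ (2 * n) ∣ MvPolynomial.aeval a (MvPolynomial.pderiv i P) := fun i => by
    have h4 := ord_unit.1 (ord_subst ha (fun i => ord_one_of_const (ha i)) (hR.pderiv i))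
    rwa [map_sub, subst_sub hsa, hF, zero_sub, dvd_neg, pderiv_coe, subst_coe] at h4
  have h4 := (taylor_poly a b h P).2
  rw [← pow_mul, mul_comm n 2] at h4
  rw [subst_sub hsa, subst_coe] at h1
  rw [subst_sub hsb, subst_coe] at h2
  have h5 := Finset.dvd_sum (s := Finset.univ) fun i _ => (h3 i).mul_right (b i - a i)
  convert dvd_add (dvd_sub h2 h1) (dvd_add h4 h5) using 1
  ring

theorem coeff_eq_zero_of_critical [Fintype σ] [CharZero 𝕜] {a : σ → MvPowerSeries Unit 𝕜}
    (ha : ∀ i, constantCoeff (a i) = 0) {F : MvPowerSeries σ 𝕜}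
    (hF : ∀ i, subst a (pderiv 𝕜 i F) = 0) {n : ℕ} (hn : 1 ≤ n) :
    coeff (Finsupp.single () n) (subst a F) = 0 := by
  have h1 := congrArg (coeff (Finsupp.single () (n - 1))) (chain ha () F)
  simp only [hF, zero_mul, Finset.sum_const_zero, map_zero, coeff_pderiv, ← Finsupp.single_add,
    Nat.sub_add_cancel hn] at h1
  exact (mul_eq_zero.1 h1).resolve_right (Nat.cast_add_one_ne_zero _)

theorem pderiv_mem_Gev {o j : σ} (h : j ≠ o) {p : ℕ} {ρ0 : ℝ} {F : MvPowerSeries σ 𝕜}
    (hF : F ∈ Gev 𝕜 o p ρ0) : pderiv 𝕜 j F ∈ Gev 𝕜 o p ρ0 := by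
  refine isGev_of fun ρ h1 h2 => ?_
  obtain ⟨a, ha⟩ := (tl_mem_Gev h 1 hF ρ h1 h2).exists
  refine ⟨a + 1, ne_top_of_le_ne_top ha (ENNReal.tsum_le_tsum fun μ => ?_)⟩
  rw [coeff_pderiv, coeff_tl, add_comm μ, enorm_mul, mul_assoc]
  refine mul_le_mul_right ?_ _
  unfold wt
  rw [mul_left_comm]
  refine mul_le_mul' (om_anti h1.le (by positivity) (by linarith)) ?_
  have h3 : μ j ≤ dy o μ := by
    have := Finsupp.le_degree j (μ.erase o)
    rwa [Finsupp.erase_ne h] at this
  have h4 : ‖(μ j : 𝕜) + 1‖ ≤ Real.exp (dy o μ) := by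
    have h5 : ‖((μ j + 1 : ℕ) : 𝕜)‖ ≤ (μ j + 1 : ℕ) := by
      simpa using Nat.norm_cast_le (α := 𝕜) (μ j + 1)
    have h6 := Real.add_one_le_exp (dy o μ : ℝ)
    have h7 : (μ j : ℝ) ≤ dy o μ := by exact_mod_cast h3
    push_cast at h5
    linarith
  rw [← ofReal_norm, ← ENNReal.ofReal_pow (Real.exp_pos _).le,
    ← ENNReal.ofReal_pow (Real.exp_pos _).le, ← ENNReal.ofReal_mul (norm_nonneg _)]
  refine ENNReal.ofReal_le_ofReal ((mul_le_mul_of_nonneg_right h4 (by positivity)).trans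
    (le_of_eq ?_))
  rw [← Real.exp_nat_mul, ← Real.exp_nat_mul, ← Real.exp_add]
  congr 1
  ring

end Vale.Agent.P218GV
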