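import Vale.Agent.P218GV.GV10
import Vale.Agent.P218GV.GV11

/-! Sequences of holomorphic functions on shrinking polydiscs and their limit series. -/

open MvPowerSeries Filter Topology Metric Asymptotics

namespace Vale.Agent.P218GV

theorem tele {g : ℝ → ℂ} {w w2 A η : ℝ} (hA : 0 ≤ A) (hη : 0 < η) (hw : w ≤ w2)
    (h : ∀ v v', w ≤ v → v ≤ v' → v' ≤ v + 1 → v' ≤ w2 →
      ‖g v' - g v‖ ≤ A * Real.exp (-(η * v'))) :
    ‖g w2 - g w‖ ≤ A * Real.exp (-(η * w)) * (1 - Real.exp (-η))⁻¹ := by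
  have h1 : ∀ n : ℕ, ∀ v, w ≤ v → v ≤ w2 → v ≤ w + n →
      ‖g v - g w‖ ≤ A * Real.exp (-(η * w)) * ∑ k ∈ Finset.range n, Real.exp (-η) ^ k := by
    intro n
    induction n with
    | zero =>
      intro v h1 _ h3
      have : v = w := le_antisymm (by simpa using h3) h1
      simp [this]
    | succ n ih =>
      intro v h1 h2 h3
      rw [Finset.sum_range_succ, mul_add]
      by_cases h4 : v ≤ w + n
      · exact (ih v h1 h2 h4).trans (le_add_of_nonneg_right (by positivity))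
      · have h5 : w ≤ w + n := by simp
        push_cast at h3
        have h6 := h (w + n) v h5 (by linarith) (by linarith) h2
        have h7 := ih (w + n) h5 (by linarith) le_rfl
        have h8 : A * Real.exp (-(η * v)) ≤ A * Real.exp (-(η * w)) * Real.exp (-η) ^ n := by
          rw [← Real.exp_nat_mul, mul_assoc, ← Real.exp_add]
          refine mul_le_mul_of_nonneg_left (Real.exp_le_exp.2 ?_) hA
          nlinarith
        calc ‖g v - g w‖ = ‖(g (w + n) - g w) + (g v - g (w + n))‖ := by congr 1; ring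
          _ ≤ _ := (norm_add_le _ _).trans (add_le_add h7 (h6.trans h8))
  obtain ⟨n, hn⟩ := exists_nat_ge (w2 - w)
  refine (h1 n w2 hw le_rfl (by linarith)).trans (mul_le_mul_of_nonneg_left ?_ (by positivity))
  have h2 : Real.exp (-η) < 1 := Real.exp_lt_one_iff.2 (by linarith)
  rw [← tsum_geometric_of_lt_one (Real.exp_pos _).le h2]
  exact (summable_geometric_of_lt_one (Real.exp_pos _).le h2).sum_le_tsum _ fun k _ => by positivity

theorem pow_le_exp (m : ℕ) {ε v : ℝ} (hε : 0 < ε) (hv : 0 ≤ v) :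
    v ^ m ≤ m.factorial / ε ^ m * Real.exp (ε * v) := by
  have h1 := Real.pow_div_factorial_le_exp (ε * v) (by positivity) m
  rw [div_le_iff₀ (by positivity), mul_pow] at h1
  rw [div_mul_eq_mul_div, le_div_iff₀ (by positivity)]
  linarith

variable {ι κ : Type*} [Fintype ι] [Fintype κ]

/-- Weight counting the end variables. -/
def oa (ι κ : Type*) : ι ⊕ κ → ℕ := Sum.elim (fun _ => 1) fun _ => 0

/-- Weight counting the other variables. -/
def ob (ι κ : Type*) : ι ⊕ κ → ℕ := Sum.elim (fun _ => 0) fun _ => 1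

/-- Polyradius. -/
def rad (ι κ : Type*) (α r : ℝ) : ι ⊕ κ → ℝ := Sum.elim (fun _ => α) fun _ => r

omit [Fintype ι] [Fintype κ] in
theorem rad_pos {α r : ℝ} (hα : 0 < α) (hr : 0 < r) : ∀ i, 0 < rad ι κ α r i := by
  rintro (i | i) <;> simpa [rad]

theorem prod_elim {M : Type*} [CommMonoid M] (α r : M) (μ : ι ⊕ κ →₀ ℕ) :
    ∏ i, (Sum.elim (fun _ => α) (fun _ => r) i) ^ μ i =
      α ^ Finsupp.weight (oa ι κ) μ * r ^ Finsupp.weight (ob ι κ) μ := by
  rw [Finsupp.weight_apply, Finsupp.weight_apply, Finsupp.sum_fintype _ _ (by simp),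
    Finsupp.sum_fintype _ _ (by simp)]
  simp [Fintype.prod_sum_type, oa, ob, Finset.prod_pow_eq_pow_sum]

theorem prod_rad (α r : ℝ) (μ : ι ⊕ κ →₀ ℕ) : ∏ i, rad ι κ α r i ^ μ i =
    α ^ Finsupp.weight (oa ι κ) μ * r ^ Finsupp.weight (ob ι κ) μ := prod_elim α r μ

/-- Holomorphic functions on shrinking polydiscs with exponentially small increments. -/
structure Seq (H : ℝ → (ι ⊕ κ → ℂ) → ℂ) (r w1 C : ℝ) : Prop where
  r_pos : 0 < r
  one_le : 1 ≤ w1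
  hd : ∀ w, w1 ≤ w → DifferentiableOn ℂ (H w) (pd (rad ι κ (21 / 20 * w)⁻¹ r))
  hb : ∀ w, w1 ≤ w → ∀ z ∈ pd (rad ι κ (21 / 20 * w)⁻¹ r), ‖H w z‖ ≤ C
  step : ∀ w w', w1 ≤ w → w ≤ w' → w' ≤ w + 1 → ∀ z ∈ pd (rad ι κ (21 / 20 * w')⁻¹ r),
    ‖H w' z - H w z‖ ≤ C * Real.exp (-(19 / 20 * w'))
  real : ∀ w, w1 ≤ w → ∀ᶠ x in 𝓝 0, (H w (cx x)).im = 0

/-- The limit of the Taylor series. -/
noncomputable def lim (H : ℝ → (ι ⊕ κ → ℂ) → ℂ) : MvPowerSeries (ι ⊕ κ) ℂ :=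
  fun μ => limUnder atTop fun w => coeff μ (tay (H w))

namespace Seq

variable {H : ℝ → (ι ⊕ κ → ℂ) → ℂ} {r w1 C : ℝ}

omit [Fintype ι] [Fintype κ] in
theorem rp (h : Seq H r w1 C) {w : ℝ} (hw : w1 ≤ w) : ∀ i, 0 < rad ι κ (21 / 20 * w)⁻¹ r i :=
  rad_pos (by have := h.one_le; have : 0 < w := by linarith
              positivity) h.r_pos

theorem spec (h : Seq H r w1 C) {w : ℝ} (hw : w1 ≤ w) :
    CB (tay (H w)) (rad ι κ (21 / 20 * w)⁻¹ r) C ∧ HasExp (H w) (tay (H w)) ∧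
      ∀ z ∈ pd (rad ι κ (21 / 20 * w)⁻¹ r), ev (tay (H w)) z = H w z :=
  tay_spec (h.rp hw) (h.hd w hw) (h.hb w hw)

theorem C_nonneg (h : Seq H r w1 C) : 0 ≤ C := (h.spec le_rfl).1.nonneg

omit [Fintype ι] [Fintype κ] in
theorem pd_mono (h : Seq H r w1 C) {w w' : ℝ} (hw : w1 ≤ w) (hw' : w ≤ w') :
    pd (rad ι κ (21 / 20 * w')⁻¹ r) ⊆ pd (rad ι κ (21 / 20 * w)⁻¹ r) := by
  have := h.one_le
  rintro z hz (i | i)
  · exact (hz (Sum.inl i)).trans_le (inv_anti₀ (by linarith) (by linarith))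
  · exact hz (Sum.inr i)

theorem cb_step (h : Seq H r w1 C) {w w' : ℝ} (hw : w1 ≤ w) (h1 : w ≤ w') (h2 : w' ≤ w + 1) :
    CB (tay (H w') - tay (H w)) (rad ι κ (21 / 20 * w')⁻¹ r) (C * Real.exp (-(19 / 20 * w'))) := by
  rw [← ((h.spec (hw.trans h1)).2.1.sub (h.spec hw).2.1).tay_eq]
  exact (tay_spec (h.rp (hw.trans h1)) ((h.hd w' (hw.trans h1)).sub
    ((h.hd w hw).mono (h.pd_mono hw h1))) (h.step w w' hw h1 h2)).1

theorem coeff_step (h : Seq H r w1 C) {w w' : ℝ} (hw : w1 ≤ w) (h1 : w ≤ w') (h2 : w' ≤ w + 1)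
    (μ : ι ⊕ κ →₀ ℕ) : ‖coeff μ (tay (H w')) - coeff μ (tay (H w))‖ ≤
      C * (r ^ Finsupp.weight (ob ι κ) μ)⁻¹ *
        ((21 / 20 * w') ^ Finsupp.weight (oa ι κ) μ * Real.exp (-(19 / 20 * w'))) := by
  have h3 := h.cb_step hw h1 h2 μ
  have h4 : 0 < w' := by linarith [h.one_le]
  have h5 := h.r_pos
  rw [prod_rad, map_sub, inv_pow, ← le_div_iff₀ (by positivity)] at h3
  refine h3.trans (le_of_eq ?_)
  field_simp

theorem coeff_step' (h : Seq H r w1 C) (M : ℕ) : ∃ A, 0 ≤ A ∧ ∀ μ : ι ⊕ κ →₀ ℕ,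
    Finsupp.weight (oa ι κ) μ ≤ M → ∀ w w', w1 ≤ w → w ≤ w' → w' ≤ w + 1 →
    ‖coeff μ (tay (H w')) - coeff μ (tay (H w))‖ ≤
      A * (r ^ Finsupp.weight (ob ι κ) μ)⁻¹ * Real.exp (-(3 / 5 * w')) := by
  have h0 := h.C_nonneg
  refine ⟨C * (M.factorial / (1 / 3) ^ M), by positivity, fun μ hμ w w' hw h1 h2 => ?_⟩
  refine (h.coeff_step hw h1 h2 μ).trans ?_
  have h4 : 1 ≤ w' := by linarith [h.one_le]
  have h5 := h.r_pos
  have h6 := (pow_le_pow_right₀ (show 1 ≤ 21 / 20 * w' by linarith) hμ).trans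
    (pow_le_exp M (ε := 1 / 3) (by norm_num) (by linarith))
  calc _ ≤ C * (r ^ Finsupp.weight (ob ι κ) μ)⁻¹ * ((M.factorial / (1 / 3) ^ M *
        Real.exp (1 / 3 * (21 / 20 * w'))) * Real.exp (-(19 / 20 * w'))) := by gcongr
    _ = _ := by
      rw [mul_assoc _ (Real.exp _), ← Real.exp_add,
        show 1 / 3 * (21 / 20 * w') + -(19 / 20 * w') = -(3 / 5 * w') by ring]
      ring

theorem tendsto_coeff (h : Seq H r w1 C) (μ : ι ⊕ κ →₀ ℕ) :
    Tendsto (fun w => coeff μ (tay (H w))) atTop (𝓝 (coeff μ (lim H))) := by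
  obtain ⟨A, hA, h1⟩ := h.coeff_step' (Finsupp.weight (oa ι κ) μ)
  have h5 := h.r_pos
  refine CauchySeq.tendsto_limUnder (Metric.cauchySeq_iff'.2 fun ε hε => ?_)
  have h2 : Tendsto (fun w : ℝ => A * (r ^ Finsupp.weight (ob ι κ) μ)⁻¹ *
      Real.exp (-(3 / 5 * w)) * (1 - Real.exp (-(3 / 5)))⁻¹) atTop (𝓝 0) := by
    have h3 : Tendsto (fun w : ℝ => -(3 / 5 * w)) atTop atBot :=
      tendsto_neg_atTop_atBot.comp (tendsto_id.const_mul_atTop (by norm_num))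
    simpa using ((Real.tendsto_exp_atBot.comp h3).const_mul
      (A * (r ^ Finsupp.weight (ob ι κ) μ)⁻¹)).mul_const (1 - Real.exp (-(3 / 5)))⁻¹
  obtain ⟨w, h3, h4⟩ := ((h2.eventually (gt_mem_nhds hε)).and (eventually_ge_atTop w1)).exists
  refine ⟨w, fun w2 hw2 => lt_of_le_of_lt ?_ h3⟩
  rw [dist_eq_norm]
  exact tele (g := fun w => coeff μ (tay (H w))) (by positivity) (by norm_num) hw2
    fun v v' h6 h7 h8 _ => h1 μ le_rfl v v' (h4.trans h6) h7 h8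

theorem lim_sub_le (h : Seq H r w1 C) (μ : ι ⊕ κ →₀ ℕ) {w A η : ℝ} (hA : 0 ≤ A) (hη : 0 < η)
    (h1 : ∀ v v', w ≤ v → v ≤ v' → v' ≤ v + 1 →
      ‖coeff μ (tay (H v')) - coeff μ (tay (H v))‖ ≤ A * Real.exp (-(η * v'))) :
    ‖coeff μ (lim H) - coeff μ (tay (H w))‖ ≤ A * Real.exp (-(η * w)) * (1 - Real.exp (-η))⁻¹ := by
  refine le_of_tendsto ((h.tendsto_coeff μ).sub_const _).norm ?_
  filter_upwards [eventually_ge_atTop w] with w2 hw2
  exact tele (g := fun w => coeff μ (tay (H w))) hA hη hw2 fun v v' h2 h3 h4 _ => h1 v v' h2 h3 h4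

theorem lim_im (h : Seq H r w1 C) (μ : ι ⊕ κ →₀ ℕ) : (coeff μ (lim H)).im = 0 := by
  have h1 := (Complex.continuous_im.tendsto _).comp (h.tendsto_coeff μ)
  refine tendsto_nhds_unique h1 (tendsto_const_nhds.congr' ?_)
  filter_upwards [eventually_ge_atTop w1] with w hw
  exact ((h.spec hw).2.1.im_eq_zero (h.real w hw) μ).symm

end Seq

theorem om_mul_pow {ρ Y : ℝ} (hρ : 0 ≤ ρ) (hY : 0 < Y) (a : ℝ) (m : ℕ) :
    (om ρ a m).toReal * Y ^ m ≤ Real.exp (ρ * Y) := by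
  have h1 : Y ^ m = Real.exp (m * Real.log Y) := by
    rw [Real.exp_nat_mul, Real.exp_log hY]
  rcases le_total a (Real.log Y) with h | h
  · have h2 := ENNReal.toReal_le_of_le_ofReal (Real.exp_pos _).le (om_le (ρ := ρ) (x := m) h)
    refine (mul_le_mul_of_nonneg_right h2 (by positivity)).trans ?_
    rw [h1, ← Real.exp_add, Real.exp_log hY, Real.exp_le_exp]
    nlinarith [mul_nonneg hρ (Real.exp_pos a).le]
  · have h2 := ENNReal.toReal_le_of_le_ofReal (Real.exp_pos _).le (om_le_self ρ a m)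
    refine (mul_le_mul_of_nonneg_right h2 (by positivity)).trans ?_
    rw [h1, ← Real.exp_add, Real.exp_le_exp]
    nlinarith [mul_nonneg hρ hY.le, mul_le_mul_of_nonneg_left h (Nat.cast_nonneg (α := ℝ) m)]

/-- Gevrey bounds for the limit series. -/
theorem Seq.gevrey_bound {H : ℝ → (ι ⊕ κ → ℂ) → ℂ} {r w1 C : ℝ} (h : Seq H r w1 C) {ρ : ℝ}
    (hρ : 0 ≤ ρ) (hρ1 : ρ ≤ 17 / 20) : ∃ A, ∀ (a : ℝ) (μ : ι ⊕ κ →₀ ℕ),
      ‖coeff μ (lim H)‖ * (om ρ a (Finsupp.weight (oa ι κ) μ)).toReal ≤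
        A * ((21 / 22) ^ Finsupp.weight (oa ι κ) μ * r⁻¹ ^ Finsupp.weight (ob ι κ) μ) := by
  have h0 := h.C_nonneg
  have hr := h.r_pos
  have hw := h.one_le
  refine ⟨C * Real.exp (ρ * (11 / 10 * w1)) +
    C * Real.exp (-(1 / 100 * w1)) * (1 - Real.exp (-(1 / 100)))⁻¹, fun a μ => ?_⟩
  set m := Finsupp.weight (oa ι κ) μ with hm
  set b := Finsupp.weight (ob ι κ) μ with hb
  set o := (om ρ a m).toReal with ho
  have ho0 : 0 ≤ o := ENNReal.toReal_nonneg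
  have h1 : ∀ v, 0 < v → o * (21 / 20 * v) ^ m ≤ (21 / 22) ^ m * Real.exp (ρ * (11 / 10 * v)) := by
    intro v hv
    have h2 := om_mul_pow hρ (show 0 < 11 / 10 * v by positivity) a m
    rw [show 21 / 20 * v = 21 / 22 * (11 / 10 * v) by ring, mul_pow, mul_left_comm]
    exact mul_le_mul_of_nonneg_left h2 (by positivity)
  have h2 : ‖coeff μ (tay (H w1))‖ * o ≤
      C * Real.exp (ρ * (11 / 10 * w1)) * ((21 / 22) ^ m * r⁻¹ ^ b) := by
    have h3 := (h.spec le_rfl).1 μ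
    rw [prod_rad, inv_pow, ← le_div_iff₀ (by positivity)] at h3
    calc _ ≤ C / (((21 / 20 * w1) ^ m)⁻¹ * r ^ b) * o := by gcongr
      _ = C * r⁻¹ ^ b * (o * (21 / 20 * w1) ^ m) := by
        rw [inv_pow]
        field_simp
      _ ≤ C * r⁻¹ ^ b * ((21 / 22) ^ m * Real.exp (ρ * (11 / 10 * w1))) :=
        mul_le_mul_of_nonneg_left (h1 w1 (by linarith)) (by positivity)
      _ = _ := by ring
  rcases ho0.eq_or_lt with h3 | h3
  · rw [← h3, mul_zero]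
    have : 0 < 1 - Real.exp (-(1 / 100)) := sub_pos.2 (Real.exp_lt_one_iff.2 (by norm_num))
    positivity
  have h4 := h.lim_sub_le μ (w := w1) (A := C * ((21 / 22) ^ m * r⁻¹ ^ b) / o) (η := 1 / 100)
    (by positivity) (by norm_num) fun v v' h5 h6 h7 => by
      refine (h.coeff_step h5 h6 h7 μ).trans ?_
      have h8 := h1 v' (by linarith)
      rw [div_mul_eq_mul_div _ o, le_div_iff₀ h3, ← hm, ← hb]
      have h9 : Real.exp (ρ * (11 / 10 * v')) * Real.exp (-(19 / 20 * v')) ≤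
          Real.exp (-(1 / 100 * v')) := by
        rw [← Real.exp_add, Real.exp_le_exp]
        nlinarith
      calc _ = C * r⁻¹ ^ b * ((o * (21 / 20 * v') ^ m) * Real.exp (-(19 / 20 * v'))) := by
            rw [inv_pow]
            ring
        _ ≤ C * r⁻¹ ^ b * (((21 / 22) ^ m * Real.exp (ρ * (11 / 10 * v'))) *
            Real.exp (-(19 / 20 * v'))) := by gcongr
        _ ≤ C * r⁻¹ ^ b * ((21 / 22) ^ m * Real.exp (-(1 / 100 * v'))) := by
            rw [mul_assoc ((21 / 22 : ℝ) ^ m)]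
            gcongr
        _ = _ := by ring
  have h5 : ‖coeff μ (lim H)‖ ≤ ‖coeff μ (tay (H w1))‖ +
      ‖coeff μ (lim H) - coeff μ (tay (H w1))‖ := norm_le_insert' _ _
  have h6 := mul_le_mul_of_nonneg_right h4 ho0
  have h7 : C * ((21 / 22) ^ m * r⁻¹ ^ b) / o * Real.exp (-(1 / 100 * w1)) *
      (1 - Real.exp (-(1 / 100)))⁻¹ * o = C * Real.exp (-(1 / 100 * w1)) *
      (1 - Real.exp (-(1 / 100)))⁻¹ * ((21 / 22) ^ m * r⁻¹ ^ b) := by
    field_simp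
  nlinarith

end Vale.Agent.P218GV
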