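import Vale.Agent.P218GV.GV12

/-! Approximation by the truncations of the limit series. -/

open MvPowerSeries Filter Topology Metric Asymptotics

namespace Vale.Agent.P218GV

variable {ι κ : Type*}

/-- Truncation in the end variables. -/
noncomputable def low {𝕜 : Type*} [NormedField 𝕜] (M : ℕ) (c : MvPowerSeries (ι ⊕ κ) 𝕜) :
    MvPowerSeries (ι ⊕ κ) 𝕜 :=
  fun μ => if Finsupp.weight (oa ι κ) μ < M then coeff μ c else 0

theorem coeff_low {𝕜 : Type*} [NormedField 𝕜] (M : ℕ) (c : MvPowerSeries (ι ⊕ κ) 𝕜)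
    (μ : ι ⊕ κ →₀ ℕ) :
    coeff μ (low M c) = if Finsupp.weight (oa ι κ) μ < M then coeff μ c else 0 := rfl

theorem low_sub {𝕜 : Type*} [NormedField 𝕜] (M : ℕ) (c c' : MvPowerSeries (ι ⊕ κ) 𝕜) :
    low M (c - c') = low M c - low M c' := by
  ext μ
  simp only [coeff_low, map_sub]
  split_ifs <;> simp

theorem ord_hi {𝕜 : Type*} [NormedField 𝕜] (M : ℕ) (c : MvPowerSeries (ι ⊕ κ) 𝕜) :
    Ord (oa ι κ) M (c - low M c) := fun μ hμ => by
  rw [map_sub, coeff_low, if_pos hμ, sub_self]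

theorem norm_low_le (M : ℕ) (c : MvPowerSeries (ι ⊕ κ) ℂ) (μ : ι ⊕ κ →₀ ℕ) :
    ‖coeff μ (low M c)‖ ≤ ‖coeff μ c‖ := by
  rw [coeff_low]
  split_ifs <;> simp

theorem norm_hi_le (M : ℕ) (c : MvPowerSeries (ι ⊕ κ) ℂ) (μ : ι ⊕ κ →₀ ℕ) :
    ‖coeff μ (c - low M c)‖ ≤ ‖coeff μ c‖ := by
  rw [map_sub, coeff_low]
  split_ifs <;> simp

variable [Fintype ι] [Fintype κ]

namespace Seq

variable {H : ℝ → (ι ⊕ κ → ℂ) → ℂ} {r w1 C : ℝ}

theorem cb_low_diff (h : Seq H r w1 C) (M : ℕ) : ∃ A, ∀ w, w1 ≤ w →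
    CB (low M (lim H - tay (H w))) (rad ι κ 1 r) (A * Real.exp (-(3 / 5 * w))) := by
  obtain ⟨A, hA, h1⟩ := h.coeff_step' M
  have hr := h.r_pos
  have h0 : 0 < 1 - Real.exp (-(3 / 5)) := sub_pos.2 (Real.exp_lt_one_iff.2 (by norm_num))
  refine ⟨A * (1 - Real.exp (-(3 / 5)))⁻¹, fun w hw μ => ?_⟩
  rw [coeff_low, prod_rad]
  split_ifs with h2
  · have h3 := h.lim_sub_le μ (w := w) (by positivity) (by norm_num)
      fun v v' h4 h5 h6 => h1 μ h2.le v v' (hw.trans h4) h5 h6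
    rw [map_sub, one_pow, one_mul, ← le_div_iff₀ (by positivity)]
    refine h3.trans (le_of_eq ?_)
    field_simp
  · rw [norm_zero, zero_mul]
    positivity

theorem cb_low (h : Seq H r w1 C) (M : ℕ) : ∃ A, CB (low M (lim H)) (rad ι κ 1 r) A := by
  obtain ⟨A, hA⟩ := h.cb_low_diff M
  refine ⟨A * Real.exp (-(3 / 5 * w1)) + C * (21 / 20 * w1) ^ M, fun μ => ?_⟩
  have h1 := hA w1 le_rfl μ
  have h2 := (h.spec le_rfl).1 μ
  have hr := h.r_pos
  have hw := h.one_le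
  have hC := h.C_nonneg
  have h3 : ‖coeff μ (low M (tay (H w1)))‖ * ∏ i, rad ι κ 1 r i ^ μ i ≤ C * (21 / 20 * w1) ^ M := by
    rw [coeff_low]
    split_ifs with h4
    · rw [prod_rad] at h2 ⊢
      have h5 : (21 / 20 * w1) ^ Finsupp.weight (oa ι κ) μ ≤ (21 / 20 * w1) ^ M :=
        pow_le_pow_right₀ (by linarith) h4.le
      refine le_trans (le_of_eq ?_) ((mul_le_mul_of_nonneg_right h2 (by positivity)).trans
        (mul_le_mul_of_nonneg_left h5 hC))
      rw [inv_pow, one_pow]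
      field_simp
    · rw [norm_zero, zero_mul]
      positivity
  rw [low_sub, map_sub] at h1
  have h4 : 0 ≤ ∏ i, rad ι κ 1 r i ^ μ i :=
    Finset.prod_nonneg fun i _ => pow_nonneg (rad_pos one_pos hr i).le _
  have h5 := mul_le_mul_of_nonneg_right
    (norm_le_insert' (coeff μ (low M (lim H))) (coeff μ (low M (tay (H w1))))) h4
  linarith

theorem approx (h : Seq H r w1 C) (M : ℕ) : ∃ A, 0 ≤ A ∧ ∀ w, w1 ≤ w → ∀ (z : ι ⊕ κ → ℂ) (α : ℝ),
    0 ≤ α → α * w ≤ 3 / 4 → (∀ j, ‖z (Sum.inl j)‖ ≤ α) → (∀ k, ‖z (Sum.inr k)‖ ≤ r / 2) →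
    ‖H w z - ev (low M (lim H)) z‖ ≤ A * (Real.exp (-(3 / 5 * w)) + α ^ M) := by
  obtain ⟨A1, hA1⟩ := h.cb_low_diff M
  obtain ⟨A0, hA0⟩ := h.cb_low M
  have hr := h.r_pos
  have hw1 := h.one_le
  have hC := h.C_nonneg
  set x : ι ⊕ κ → ℝ := rad ι κ (9 / 10) (1 / 2) with hx
  have hx0 : ∀ i, 0 ≤ x i := fun i => (rad_pos (by norm_num) (by norm_num) i).le
  have hx1 : ∀ i, x i < 1 := by rintro (i | i) <;> norm_num [hx, rad]
  set Γ := ∑' μ : ι ⊕ κ →₀ ℕ, ∏ i, x i ^ μ i with hΓ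
  have hΓ0 : 0 ≤ Γ := tsum_nonneg fun μ => Finset.prod_nonneg fun i _ => pow_nonneg (hx0 i) _
  have hA1' : 0 ≤ A1 := nonneg_of_mul_nonneg_left (hA1 w1 le_rfl).nonneg (Real.exp_pos _)
  have h0 : 0 < 1 - Real.exp (-(1 / 2)) := sub_pos.2 (Real.exp_lt_one_iff.2 (by norm_num))
  set A2 := C * Γ * (M.factorial / (1 / 3) ^ M) with hA2
  have hA2' : 0 ≤ A2 := by positivity
  set A3 := A2 * Real.exp (-(1 / 2 * w1)) * (1 - Real.exp (-(1 / 2)))⁻¹ +
    (7 / 6 * w1) ^ M * C * Γ with hA3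
  have hA3' : 0 ≤ A3 := by positivity
  refine ⟨A1 * Γ + A3, by positivity, fun w hw z α hα hαw hz1 hz2 => ?_⟩
  have hαv : ∀ v, v ≤ w → α * v ≤ 3 / 4 := fun v hv =>
    (mul_le_mul_of_nonneg_left hv hα).trans hαw
  have hmem : ∀ v, w1 ≤ v → v ≤ w → z ∈ pd (rad ι κ (21 / 20 * v)⁻¹ r) := by
    rintro v h1 h2 (j | k)
    · refine (hz1 j).trans_lt ?_
      change α < (21 / 20 * v)⁻¹
      rw [← one_div, lt_div_iff₀ (by linarith)]
      linarith [hαv v h2]
    · exact (hz2 k).trans_lt (half_lt_self hr)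
  have hα1 : α ≤ 3 / 4 := by simpa using hαv 1 (hw1.trans hw)
  have hmem1 : z ∈ pd (rad ι κ 1 r) := by
    rintro (j | k)
    · exact (hz1 j).trans_lt (hα1.trans_lt (by norm_num [rad]))
    · exact (hz2 k).trans_lt (half_lt_self hr)
  have hhi : ∀ {c : MvPowerSeries (ι ⊕ κ) ℂ} {v B : ℝ}, w1 ≤ v → v ≤ w →
      CB c (rad ι κ (21 / 20 * v)⁻¹ r) B →
      ‖ev (c - low M c) z‖ ≤ α ^ M * ((7 / 6 * v) ^ M * B * Γ) := by
    intro c v B h1 h2 h3
    have hv : 0 < v := by linarith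
    have h4 := (h3.mono (h.rp h1) (norm_hi_le M c)).norm_ev_le hx0 hx1 (ord_hi M c)
      (t := α * (7 / 6 * v)) (by positivity) (by linarith [hαv v h2]) (z := z) (by
        rintro (j | k)
        · refine (hz1 j).trans (le_of_eq ?_)
          simp only [oa, hx, rad, Sum.elim_inl, pow_one]
          field_simp
          ring
        · refine (hz2 k).trans (le_of_eq ?_)
          simp only [oa, hx, rad, Sum.elim_inr, pow_zero]
          ring)
    refine h4.trans (le_of_eq ?_)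
    rw [mul_pow]
    ring
  have hs : ∀ v, w1 ≤ v → v ≤ w →
      (Summable fun μ : ι ⊕ κ →₀ ℕ => coeff μ (tay (H v)) * ∏ i, z i ^ μ i) ∧
      (Summable fun μ : ι ⊕ κ →₀ ℕ => coeff μ (low M (tay (H v))) * ∏ i, z i ^ μ i) ∧
      (Summable fun μ : ι ⊕ κ →₀ ℕ => coeff μ (tay (H v) - low M (tay (H v))) *
        ∏ i, z i ^ μ i) := fun v h1 h2 =>
    ⟨(h.spec h1).1.summable (h.rp h1) (hmem v h1 h2),
      ((h.spec h1).1.mono (h.rp h1) (norm_low_le M _)).summable (h.rp h1) (hmem v h1 h2),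
      ((h.spec h1).1.mono (h.rp h1) (norm_hi_le M _)).summable (h.rp h1) (hmem v h1 h2)⟩
  let g : ℝ → ℂ := fun v => ev (tay (H v) - low M (tay (H v))) z
  have hg1 := tele (g := g) (A := α ^ M * A2) (η := 1 / 2) (by positivity) (by norm_num) hw
    fun v v' h1 h2 h3 h4 => by
      have h5 := hhi (h1.trans h2) h4 (h.cb_step h1 h2 h3)
      have hv : 0 < v' := by linarith
      rw [low_sub, show tay (H v') - tay (H v) - (low M (tay (H v')) - low M (tay (H v))) =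
        tay (H v') - low M (tay (H v')) - (tay (H v) - low M (tay (H v))) by ring,
        ev_sub (hs v' (h1.trans h2) h4).2.2 (hs v h1 (h2.trans h4)).2.2] at h5
      refine h5.trans ?_
      rw [mul_assoc (α ^ M)]
      refine mul_le_mul_of_nonneg_left ?_ (by positivity)
      have h6 := pow_le_exp M (ε := 1 / 3) (v := 7 / 6 * v') (by norm_num) (by positivity)
      have h7 : Real.exp (1 / 3 * (7 / 6 * v')) * Real.exp (-(19 / 20 * v')) ≤
          Real.exp (-(1 / 2 * v')) := by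
        rw [← Real.exp_add, Real.exp_le_exp]
        linarith
      calc _ ≤ M.factorial / (1 / 3) ^ M * Real.exp (1 / 3 * (7 / 6 * v')) *
            (C * Real.exp (-(19 / 20 * v'))) * Γ := by gcongr
        _ = A2 * (Real.exp (1 / 3 * (7 / 6 * v')) * Real.exp (-(19 / 20 * v'))) := by
            rw [hA2]
            ring
        _ ≤ _ := mul_le_mul_of_nonneg_left h7 hA2'
  have hg2 : ‖g w1‖ ≤ _ := hhi le_rfl hw (h.spec le_rfl).1
  have hg3 : ‖g w‖ ≤ A3 * α ^ M := by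
    refine (norm_le_insert' (g w) (g w1)).trans ((add_le_add hg2 hg1).trans (le_of_eq ?_))
    rw [hA3]
    ring
  have hl := (hA1 w hw).norm_ev_le hx0 hx1 (ω := oa ι κ) (K := 0) (fun μ hμ => by omega)
    (t := 1) zero_le_one le_rfl (z := z) (by
      rintro (j | k)
      · refine (hz1 j).trans (hα1.trans ?_)
        norm_num [hx, rad]
      · refine (hz2 k).trans (le_of_eq ?_)
        simp only [hx, rad, Sum.elim_inr, one_pow]
        ring)
  rw [low_sub, ev_sub (hA0.summable (rad_pos one_pos hr) hmem1) (hs w hw le_rfl).2.1] at hl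
  have h1 : H w z - ev (low M (lim H)) z =
      g w - (ev (low M (lim H)) z - ev (low M (tay (H w))) z) := by
    simp only [g]
    rw [ev_sub (hs w hw le_rfl).1 (hs w hw le_rfl).2.1, (h.spec hw).2.2 z (hmem w hw le_rfl)]
    ring
  rw [h1]
  refine (norm_sub_le _ _).trans ((add_le_add hg3 hl).trans ?_)
  have h2 : 0 ≤ α ^ M := by positivity
  have h3 := Real.exp_pos (-(3 / 5 * w))
  rw [← hΓ]
  nlinarith [mul_nonneg (mul_nonneg hA1' hΓ0) h2, mul_nonneg hA3' h3.le]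

end Seq

end Vale.Agent.P218GV
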