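import Vale.Agent.P218GV.GV13
import Vale.Agent.P218SQ.Defs

/-! Analytic truncations of the reduced action. -/

open MvPowerSeries Filter Topology Metric Asymptotics Function

namespace Vale.Agent.P218GV

open P218SQ

variable {ι κ : Type*} [Fintype ι] [Fintype κ]

/-- Splitting of the coordinates. -/
noncomputable def spl (ι κ : Type*) : (ι ⊕ κ → ℂ) ≃L[ℂ] Pt ι κ :=
  ContinuousLinearEquiv.sumPiEquivProdPi ℂ ι κ fun _ => ℂ

/-- The action with all cuts at the same height. -/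
noncomputable def uni (f : (ι → ℝ) → Pt ι κ → ℂ) (w : ℝ) (z : ι ⊕ κ → ℂ) : ℂ :=
  f (fun _ => w) (spl ι κ z)

theorem lev_le (β K : ℝ) : ∀ᶠ w in atTop, lev β K w ≤ 21 / 20 * w := by
  have h1 := (Real.isLittleO_log_id_atTop.const_mul_left β).bound
    (show (0 : ℝ) < 1 / 40 by norm_num)
  filter_upwards [h1, eventually_ge_atTop (40 * K), eventually_ge_atTop 0] with w h2 h3 h4
  have h5 := (le_abs_self _).trans h2
  simp only [id, Real.norm_eq_abs, abs_of_nonneg h4] at h5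
  unfold lev
  linarith

theorem exists_seq [DecidableEq ι] {f : (ι → ℝ) → Pt ι κ → ℂ} {β K r w0 C : ℝ} {B : ℕ}
    (h : SeqData f β K r w0 C B) : ∃ w1 C', Seq (uni f) r w1 C' := by
  obtain ⟨w1, hw1⟩ := eventually_atTop.1 ((lev_le β K).and
    ((eventually_ge_atTop w0).and (eventually_ge_atTop 1)))
  have hr := h.r_pos
  have hdom : ∀ w', w1 ≤ w' → ∀ W : ι → ℝ, (∀ j, w1 ≤ W j ∧ W j ≤ w') →
      ∀ z ∈ pd (rad ι κ (21 / 20 * w')⁻¹ r), spl ι κ z ∈ dom β K r W := by
    intro w' hw' W hW z hz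
    refine ⟨fun j => Or.inl ?_, (pi_norm_lt_iff hr).2 fun k => hz (Sum.inr k)⟩
    have h1 : ‖z (Sum.inl j)‖ < (21 / 20 * w')⁻¹ := hz (Sum.inl j)
    have h2 := (hw1 _ hw').2.2
    rw [← one_div, lt_div_iff₀ (by linarith)] at h1
    refine lt_of_le_of_lt (mul_le_mul_of_nonneg_left ?_ (norm_nonneg _)) h1
    linarith [(hw1 _ (hW j).1).1, (hW j).2]
  have hadm : ∀ w, w1 ≤ w → ∀ W : ι → ℝ, (∀ j, w ≤ W j ∧ W j ≤ w + 1) → Adm w0 W := by
    intro w hw W hW i
    refine ⟨(hw1 w hw).2.1.trans (hW i).1, fun j => ?_⟩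
    linarith [(hW i).2, (hW j).1, (hw1 w hw).2.2]
  have hu : ∀ w, w1 ≤ w → Adm w0 fun _ : ι => w := fun w hw =>
    hadm w hw _ fun _ => ⟨le_rfl, by linarith⟩
  have hrad : ∀ w, w1 ≤ w → ∀ i, 0 < rad ι κ (21 / 20 * w)⁻¹ r i := fun w hw =>
    rad_pos (by have := (hw1 w hw).2.2; positivity) hr
  have hC : 0 ≤ C := (norm_nonneg _).trans (h.bdd _ (hu w1 le_rfl) _
    (hdom w1 le_rfl _ (fun _ => ⟨le_rfl, le_rfl⟩) 0 fun i => by simpa using hrad w1 le_rfl i))
  set C2 := Fintype.card ι * (C * (B.factorial / (1 / 20) ^ B) * Real.exp 1) with hC2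
  have hC2' : 0 ≤ C2 := by positivity
  refine ⟨w1, C + C2, hr, (hw1 w1 le_rfl).2.2, fun w hw => ?_, fun w hw z hz => ?_,
    fun w w' hw h1 h2 z hz => ?_, fun w hw => ?_⟩
  · exact (h.holo _ (hu w hw)).comp (spl ι κ).differentiableOn
      (hdom w hw _ fun _ => ⟨hw, le_rfl⟩)
  · exact (h.bdd _ (hu w hw) _ (hdom w hw _ (fun _ => ⟨hw, le_rfl⟩) z hz)).trans (by linarith)
  · have h3 : ∀ s : Finset ι, ‖f (fun i => if i ∈ s then w' else w) (spl ι κ z) -
        f (fun _ => w) (spl ι κ z)‖ ≤ s.card * (C * Real.exp (-w) * w ^ B) := by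
      have hb : ∀ (s : Finset ι) j, w ≤ (if j ∈ s then w' else w) ∧
          (if j ∈ s then w' else w) ≤ w' := fun s j => by
        split_ifs
        · exact ⟨h1, le_rfl⟩
        · exact ⟨le_rfl, h1⟩
      intro s
      induction s using Finset.induction_on with
      | empty => simp
      | insert j s hj ih =>
        have h4 : (fun i => if i ∈ insert j s then w' else w) =
            update (fun i => if i ∈ s then w' else w) j w' := by
          funext i
          by_cases hi : i = j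
          · simp [hi]
          · simp [hi]
        have h5 := h.step (fun i => if i ∈ s then w' else w) j w' (hb s j).2
          (by linarith [(hb s j).1]) (hadm w hw _ fun i => ⟨(hb s i).1, (hb s i).2.trans h2⟩)
          (h4 ▸ hadm w hw _ fun i => ⟨(hb _ i).1, (hb _ i).2.trans h2⟩) (spl ι κ z)
          (h4 ▸ hdom w' (hw.trans h1) _ (fun i => ⟨hw.trans (hb _ i).1, (hb _ i).2⟩) z hz)
        simp only [if_neg hj] at h5
        rw [h4, Finset.card_insert_of_notMem hj, Nat.cast_succ, add_mul, one_mul]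
        exact (norm_sub_le_norm_sub_add_norm_sub _ _ _).trans (by linarith)
    have h4 := h3 Finset.univ
    simp only [Finset.mem_univ, if_true, Finset.card_univ] at h4
    have h5 := pow_le_exp B (ε := 1 / 20) (v := w) (by norm_num) (by linarith [(hw1 w hw).2.2])
    have h6 : Real.exp (-w) * Real.exp (1 / 20 * w) ≤
        Real.exp 1 * Real.exp (-(19 / 20 * w')) := by
      rw [← Real.exp_add, ← Real.exp_add, Real.exp_le_exp]
      linarith
    refine h4.trans ?_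
    calc _ ≤ Fintype.card ι * (C * Real.exp (-w) *
          (B.factorial / (1 / 20) ^ B * Real.exp (1 / 20 * w))) := by gcongr
      _ = Fintype.card ι * (C * (B.factorial / (1 / 20) ^ B)) *
          (Real.exp (-w) * Real.exp (1 / 20 * w)) := by ring
      _ ≤ Fintype.card ι * (C * (B.factorial / (1 / 20) ^ B)) *
          (Real.exp 1 * Real.exp (-(19 / 20 * w'))) := by gcongr
      _ = C2 * Real.exp (-(19 / 20 * w')) := by rw [hC2]; ring
      _ ≤ _ := by gcongr; linarith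
  · filter_upwards [tendsto_cx (pd_mem_nhds (hrad w hw))] with x hx
    exact h.real _ (hu w hw) (fun j => x (Sum.inl j), fun k => x (Sum.inr k))
      (hdom w hw _ (fun _ => ⟨hw, le_rfl⟩) _ hx)

/-- The truncation of order `M` of the limit series as a function. -/
noncomputable def trn (f : (ι → ℝ) → Pt ι κ → ℂ) (M : ℕ) (p : Pt ι κ) : ℂ :=
  ev (low M (lim (uni f))) ((spl ι κ).symm p)

namespace Seq

variable {f : (ι → ℝ) → Pt ι κ → ℂ} {r w1 C : ℝ}

theorem trn_diff (h : Seq (uni f) r w1 C) (M : ℕ) :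
    DifferentiableOn ℂ (trn f M) {p | ‖p.1‖ < 1 ∧ ‖p.2‖ < r} := by
  obtain ⟨A, hA⟩ := h.cb_low M
  refine (hA.differentiableOn (rad_pos one_pos h.r_pos)).comp (spl ι κ).symm.differentiableOn ?_
  rintro p hp (j | k)
  · exact (norm_le_pi_norm p.1 j).trans_lt hp.1
  · exact (norm_le_pi_norm p.2 k).trans_lt hp.2

theorem approx_pt (h : Seq (uni f) r w1 C) (M : ℕ) : ∃ A, 0 ≤ A ∧ ∀ w, w1 ≤ w → ∀ p : Pt ι κ,
    ‖p.1‖ * w ≤ 3 / 4 → ‖p.2‖ ≤ r / 2 →
    ‖f (fun _ => w) p - trn f M p‖ ≤ A * (Real.exp (-(3 / 5 * w)) + ‖p.1‖ ^ M) := by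
  obtain ⟨A, hA, h1⟩ := h.approx M
  refine ⟨A, hA, fun w hw p h2 h3 => ?_⟩
  have h4 := h1 w hw ((spl ι κ).symm p) ‖p.1‖ (norm_nonneg _) h2
    (fun j => norm_le_pi_norm p.1 j) fun k => (norm_le_pi_norm p.2 k).trans h3
  simpa only [uni, trn, ContinuousLinearEquiv.apply_symm_apply] using h4

theorem f_diff (h : Seq (uni f) r w1 C) {w : ℝ} (hw : w1 ≤ w) {p : Pt ι κ}
    (h1 : ‖p.1‖ * w ≤ 3 / 4) (h2 : ‖p.2‖ ≤ r / 2) : DifferentiableAt ℂ (f fun _ => w) p := by
  have h0 : 0 < w := by linarith [h.one_le]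
  have h3 : (spl ι κ).symm p ∈ pd (rad ι κ (21 / 20 * w)⁻¹ r) := by
    rintro (j | k)
    · refine (norm_le_pi_norm p.1 j).trans_lt ?_
      change _ < (21 / 20 * w)⁻¹
      rw [← one_div, lt_div_iff₀ (by linarith)]
      nlinarith [norm_nonneg p.1]
    · exact (norm_le_pi_norm p.2 k).trans_lt (h2.trans_lt (half_lt_self h.r_pos))
  have h4 := ((h.hd w hw).differentiableAt ((isOpen_pd _).mem_nhds h3)).comp p
    (spl ι κ).symm.differentiableAt
  simpa only [Function.comp_def, uni, ContinuousLinearEquiv.apply_symm_apply] using h4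

theorem grad_approx (h : Seq (uni f) r w1 C) (M : ℕ) : ∃ A δ w2, 0 ≤ A ∧ 0 < δ ∧ ∀ w, w2 ≤ w →
    ∀ p : Pt ι κ, ‖p‖ < δ → ‖p.1‖ * w ≤ 1 / 2 →
    ‖fderiv ℂ (f fun _ => w) p - fderiv ℂ (trn f (M + 6)) p‖ ≤
      A * (Real.exp (-w / 2) + ‖p.1‖ ^ M) := by
  obtain ⟨A, hA, h1⟩ := h.approx_pt (M + 6)
  have hr := h.r_pos
  have h2 : Tendsto (fun w : ℝ => w * Real.exp (-(1 / 10 * w))) atTop (𝓝 0) := by
    have := (Real.tendsto_pow_mul_exp_neg_atTop_nhds_zero 1).comp
      (tendsto_id.const_mul_atTop (show (0 : ℝ) < 1 / 10 by norm_num))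
    refine (by simpa using this.const_mul 10 : Tendsto _ _ _).congr fun w => ?_
    ring_nf
  have h3 : Tendsto (fun w : ℝ => Real.exp (-(1 / 10 * w))) atTop (𝓝 0) :=
    Real.tendsto_exp_atBot.comp
      (tendsto_neg_atTop_atBot.comp (tendsto_id.const_mul_atTop (by norm_num)))
  obtain ⟨w2, hw2⟩ := eventually_atTop.1 ((h2.eventually (ge_mem_nhds (show (0 : ℝ) < 1 / 4 by
    norm_num))).and ((h3.eventually (ge_mem_nhds (show 0 < r / 4 by positivity))).and
    (eventually_ge_atTop w1)))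
  refine ⟨A * (1 + 3 ^ (M + 6)), r / 4, w2, by positivity, by positivity,
    fun w hw p hp hpw => ?_⟩
  obtain ⟨h4, h5, h6⟩ := hw2 w hw
  have hw1 : 1 ≤ w := h.one_le.trans h6
  set e := Real.exp (-(1 / 10 * w)) with he
  have he0 : 0 < e := Real.exp_pos _
  have he1 : e ≤ 1 := Real.exp_le_one_iff.2 (by linarith)
  set ρ := max (‖p.1‖ / 2) e with hρ
  have hρe : e ≤ ρ := le_max_right _ _
  have hρ0 : 0 < ρ := he0.trans_le hρe
  have hp1 : ‖p.1‖ ≤ 2 * ρ := by linarith [le_max_left (‖p.1‖ / 2) e]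
  have hp0 := norm_nonneg p.1
  have hρw : ρ * w ≤ 1 / 4 := by
    rcases le_total (‖p.1‖ / 2) e with h7 | h7
    · rw [hρ, max_eq_right h7]
      linarith
    · rw [hρ, max_eq_left h7]
      linarith
  have hρr : ρ ≤ r / 4 := max_le (by linarith [norm_fst_le p]) h5
  have hb : ∀ y ∈ ball p ρ, ‖y.1‖ ≤ ‖p.1‖ + ρ ∧ ‖y.2‖ ≤ r / 2 := fun y hy => by
    rw [mem_ball_iff_norm] at hy
    have h7 := (norm_fst_le (y - p)).trans hy.le
    have h8 := (norm_snd_le (y - p)).trans hy.le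
    have h9 := norm_le_insert' y.1 p.1
    have h10 := norm_le_insert' y.2 p.2
    simp only [Prod.fst_sub, Prod.snd_sub] at h7 h8
    exact ⟨by linarith, by linarith [norm_snd_le p]⟩
  have hb1 : ∀ y ∈ ball p ρ, ‖y.1‖ * w ≤ 3 / 4 := fun y hy => by nlinarith [(hb y hy).1]
  have hopen : IsOpen {p : Pt ι κ | ‖p.1‖ < 1 ∧ ‖p.2‖ < r} :=
    IsOpen.and (isOpen_lt continuous_fst.norm continuous_const)
      (isOpen_lt continuous_snd.norm continuous_const)
  have hd2 : ∀ y ∈ ball p ρ, DifferentiableAt ℂ (trn f (M + 6)) y := fun y hy =>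
    (h.trn_diff _).differentiableAt (hopen.mem_nhds
      ⟨by nlinarith [hb1 y hy, norm_nonneg y.1], by linarith [(hb y hy).2]⟩)
  have hd1 : ∀ y ∈ ball p ρ, DifferentiableAt ℂ (f fun _ => w) y := fun y hy =>
    h.f_diff h6 (hb1 y hy) (hb y hy).2
  have h7 := P268.norm_fderiv_le_of_ball (f := fun y => f (fun _ => w) y - trn f (M + 6) y)
    (C := A * (e ^ 6 + (3 * ρ) ^ (M + 6))) hρ0
    (fun y hy => ((hd1 y hy).sub (hd2 y hy)).differentiableWithinAt) fun y hy => by
      refine (h1 w h6 y (hb1 y hy) (hb y hy).2).trans (mul_le_mul_of_nonneg_left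
        (add_le_add (le_of_eq ?_) (pow_le_pow_left₀ (norm_nonneg _)
          (by linarith [(hb y hy).1]) _)) hA)
      rw [he, ← Real.exp_nat_mul]
      congr 1
      push_cast
      ring
  rw [fderiv_fun_sub (hd1 p (mem_ball_self hρ0)) (hd2 p (mem_ball_self hρ0))] at h7
  refine h7.trans ?_
  have h8 : Real.exp (-w / 2) = e ^ 5 := by
    rw [he, ← Real.exp_nat_mul]
    congr 1
    push_cast
    ring
  have h9 : ρ ^ (M + 5) ≤ e ^ 5 + ‖p.1‖ ^ M := by
    rcases le_total (‖p.1‖ / 2) e with h10 | h10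
    · rw [hρ, max_eq_right h10]
      exact (pow_le_pow_of_le_one he0.le he1 (by omega)).trans
        (le_add_of_nonneg_right (by positivity))
    · rw [hρ, max_eq_left h10]
      refine le_trans ?_ (le_add_of_nonneg_left (by positivity))
      exact (pow_le_pow_left₀ (by positivity) (by linarith) _).trans
        (pow_le_pow_of_le_one hp0 (by nlinarith) (by omega))
  rw [h8, div_le_iff₀ hρ0, mul_assoc, mul_assoc]
  refine mul_le_mul_of_nonneg_left ?_ hA
  have h10 : e ^ 6 ≤ (e ^ 5 + ‖p.1‖ ^ M) * ρ := by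
    rw [pow_succ]
    exact mul_le_mul (le_add_of_nonneg_right (by positivity)) hρe he0.le (by positivity)
  have h11 : (3 * ρ) ^ (M + 6) ≤ 3 ^ (M + 6) * ((e ^ 5 + ‖p.1‖ ^ M) * ρ) := by
    rw [mul_pow, pow_succ ρ]
    gcongr
  linarith

end Seq

end Vale.Agent.P218GV
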