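import Vale.Agent.P218GV.GV14

/-! The truncation property. -/

open MvPowerSeries Filter Topology Metric Asymptotics Function

namespace Vale.Agent.P218GV

open P218SQ

variable {ι κ : Type*} [Fintype ι] [Fintype κ]

theorem ev_zero {σ : Type*} [Fintype σ] (c : MvPowerSeries σ ℂ) : ev c 0 = coeff 0 c := by
  unfold ev
  rw [tsum_eq_single 0]
  · simp
  · intro μ hμ
    obtain ⟨i, hi⟩ := Finsupp.ne_iff.1 hμ
    rw [Finset.prod_eq_zero (Finset.mem_univ i) (by simpa using hi), mul_zero]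

theorem ev_cx_im {σ : Type*} [Fintype σ] {c : MvPowerSeries σ ℂ} (h : ∀ μ, (coeff μ c).im = 0)
    (x : σ → ℝ) : (ev c (cx x)).im = 0 := by
  have h1 : ev c (cx x) = ((∑' μ : σ →₀ ℕ, (coeff μ c).re * ∏ i, x i ^ μ i : ℝ) : ℂ) := by
    rw [Complex.ofReal_tsum]
    refine tsum_congr fun μ => ?_
    have h2 : coeff μ c = ((coeff μ c).re : ℂ) := Complex.ext (by simp) (by simp [h μ])
    conv_lhs => rw [h2]
    simp [cx]
  rw [h1, Complex.ofReal_im]

/-- The inclusion of the real points as a real linear map. -/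
noncomputable def ofR (ι κ : Type*) : ((ι → ℝ) × (κ → ℝ)) →L[ℝ] Pt ι κ :=
  (ContinuousLinearMap.pi fun j => Complex.ofRealCLM.comp ((ContinuousLinearMap.proj j).comp
    (ContinuousLinearMap.fst ℝ (ι → ℝ) (κ → ℝ)))).prod
  (ContinuousLinearMap.pi fun k => Complex.ofRealCLM.comp ((ContinuousLinearMap.proj k).comp
    (ContinuousLinearMap.snd ℝ (ι → ℝ) (κ → ℝ))))

omit [Fintype ι] [Fintype κ] in
theorem ofR_apply (x : (ι → ℝ) × (κ → ℝ)) : ofR ι κ x = ofReal x := rfl

omit [Fintype κ] in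
theorem norm_ofReal_fst (x : (ι → ℝ) × (κ → ℝ)) : ‖(ofReal x).1‖ = ‖x.1‖ := norm_cx x.1

theorem norm_ofReal (x : (ι → ℝ) × (κ → ℝ)) : ‖ofReal x‖ = ‖x‖ := by
  rw [Prod.norm_def, Prod.norm_def, norm_ofReal_fst]
  congr 1
  exact norm_cx x.2

namespace Seq

variable {f : (ι → ℝ) → Pt ι κ → ℂ} {r w1 C : ℝ}

theorem trn_analytic (h : Seq (uni f) r w1 C) (M : ℕ) {p : Pt ι κ} (h1 : ‖p.1‖ < 1)
    (h2 : ‖p.2‖ < r) : AnalyticAt ℂ (trn f M) p :=
  P268.analyticAt_of_differentiableOn (IsOpen.and (isOpen_lt continuous_fst.norm continuous_const)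
    (isOpen_lt continuous_snd.norm continuous_const)) (h.trn_diff M) ⟨h1, h2⟩

theorem trn_im (h : Seq (uni f) r w1 C) (M : ℕ) (x : (ι → ℝ) × (κ → ℝ)) :
    (trn f M (ofReal x)).im = 0 := by
  have h1 : (spl ι κ).symm (ofReal x) = cx (Sum.elim x.1 x.2) := by
    funext i
    cases i <;> rfl
  rw [trn, h1]
  refine ev_cx_im (fun μ => ?_) _
  rw [coeff_low]
  split_ifs
  · exact h.lim_im μ
  · rfl

theorem hasTrunc (h : Seq (uni f) r w1 C) :
    ∃ F0 : ℝ, Tendsto (fun w : ℝ => f (fun _ => w) 0) atTop (𝓝 (F0 : ℂ)) ∧ HasTrunc f F0 := by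
  have hr := h.r_pos
  refine ⟨(coeff 0 (lim (uni f))).re, ?_, fun M => ?_⟩
  · have h1 : (((coeff 0 (lim (uni f))).re : ℝ) : ℂ) = coeff 0 (lim (uni f)) :=
      Complex.ext (by simp) (by rw [h.lim_im 0, Complex.ofReal_im])
    rw [h1]
    refine (h.tendsto_coeff 0).congr' ?_
    filter_upwards [eventually_ge_atTop w1] with w hw
    rw [← ev_zero, (h.spec hw).2.2 0 fun i => by simpa using h.rp hw i, uni, map_zero]
  · obtain ⟨A1, hA1, h1⟩ := h.approx_pt (M + 6)
    obtain ⟨A2, δ, w2, hA2, hδ, h2⟩ := h.grad_approx M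
    refine ⟨fun x => (trn f (M + 6) (ofReal x)).re, ?_, ?_, 1 + A1 + A2, min δ (r / 2),
      max w1 w2, by positivity, fun w hw x hx hxw => ?_⟩
    · have h3 : AnalyticAt ℂ (trn f (M + 6)) (ofR ι κ 0) := by
        rw [map_zero]
        exact h.trn_analytic _ (by simp) (by simpa using hr)
      exact (Complex.reCLM.analyticAt _).comp
        (h3.restrictScalars.comp ((ofR ι κ).analyticAt 0))
    · simp only
      rw [← ofR_apply, map_zero, trn, map_zero, ev_zero, coeff_low, if_pos (by simp)]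
    · have hw1 : w1 ≤ w := (le_max_left _ _).trans hw
      have hw0 : 1 ≤ w := h.one_le.trans hw1
      have hx0 := norm_nonneg x.1
      have hx1 : ‖x.1‖ ≤ 1 / 2 := by nlinarith
      have hx2 : ‖(ofReal x).2‖ ≤ r / 2 := (norm_snd_le _).trans (by
        rw [norm_ofReal]
        exact hx.le.trans (min_le_right _ _))
      have he := Real.exp_pos (-w / 2)
      have hM : 0 ≤ ‖x.1‖ ^ M := by positivity
      refine ⟨?_, ?_⟩
      · have h3 := h1 w hw1 (ofReal x) (by rw [norm_ofReal_fst]; linarith) hx2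
        have h4 : (((trn f (M + 6) (ofReal x)).re : ℝ) : ℂ) = trn f (M + 6) (ofReal x) :=
          Complex.ext (by simp) (by simp [h.trn_im])
        rw [h4]
        refine h3.trans ?_
        rw [norm_ofReal_fst]
        refine mul_le_mul (by linarith) (add_le_add (Real.exp_le_exp.2 (by linarith))
          (pow_le_pow_of_le_one hx0 (by linarith) (by omega))) (by positivity) (by positivity)
      · have h3 := h2 w ((le_max_right _ _).trans hw) (ofReal x)
          (by rw [norm_ofReal]; exact hx.trans_le (min_le_left _ _)) (by rwa [norm_ofReal_fst])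
        rw [norm_ofReal_fst] at h3
        have h4 := (h.trn_analytic (M + 6) (p := ofR ι κ x)
          (by rw [ofR_apply, norm_ofReal_fst]; linarith)
          (hx2.trans_lt (half_lt_self hr))).differentiableAt.hasFDerivAt
        have h5 := Complex.reCLM.hasFDerivAt.comp x
          ((h4.restrictScalars ℝ).comp x (ofR ι κ).hasFDerivAt)
        have h6 : ‖fderiv ℝ (fun x => (trn f (M + 6) (ofReal x)).re) x‖ ≤
            ‖fderiv ℂ (trn f (M + 6)) (ofReal x)‖ := by
          rw [show fderiv ℝ (fun x => (trn f (M + 6) (ofReal x)).re) x = _ from h5.fderiv]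
          refine ContinuousLinearMap.opNorm_le_bound _ (norm_nonneg _) fun v => ?_
          refine (Complex.abs_re_le_norm _).trans ?_
          rw [← norm_ofReal v]
          exact (fderiv ℂ (trn f (M + 6)) (ofReal x)).le_opNorm (ofReal v)
        have h7 := norm_le_insert (fderiv ℂ (f fun _ => w) (ofReal x))
          (fderiv ℂ (trn f (M + 6)) (ofReal x))
        have h8 := norm_nonneg (fderiv ℂ (f fun _ => w) (ofReal x))
        nlinarith [mul_nonneg hA1 h8, mul_nonneg hA2 h8, mul_nonneg hA1 he.le, mul_nonneg hA1 hM]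

end Seq

/-- Analytic truncations in the end parameters exist. -/
theorem hasTrunc [DecidableEq ι] {f : (ι → ℝ) → Pt ι κ → ℂ} {β K r w0 C : ℝ} {B : ℕ}
    (h : SeqData f β K r w0 C B) :
    ∃ F0 : ℝ, Tendsto (fun w : ℝ => f (fun _ => w) 0) atTop (𝓝 (F0 : ℂ)) ∧ HasTrunc f F0 := by
  obtain ⟨w1, C', h1⟩ := exists_seq h
  exact h1.hasTrunc

end Vale.Agent.P218GV
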