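import Vale.Agent.P218GV.GV15
import Vale.Agent.P218CS.CS

/-! Real analytic arcs: selection, normalisation, polynomial approximation. -/

open MvPowerSeries Filter Topology Metric Asymptotics Function
open scoped ENNReal

namespace Vale.Agent.P218GV

theorem curve_selection' {E : Type*} [NormedAddCommGroup E] [NormedSpace ℝ E]
    [FiniteDimensional ℝ E] {G : E → ℝ} (hG : AnalyticAt ℝ G 0)
    (hf : ∃ᶠ p in 𝓝 (0 : E), G p < 0) :
    ∃ σ : ℝ → E, AnalyticAt ℝ σ 0 ∧ σ 0 = 0 ∧ ∀ᶠ s in 𝓝[>] (0 : ℝ), G (σ s) < 0 := by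
  let e : E ≃L[ℝ] (Fin (Module.finrank ℝ E) → ℝ) := ContinuousLinearEquiv.ofFinrankEq (by simp)
  have h1 : AnalyticAt ℝ (fun y => G (e.symm y)) 0 :=
    AnalyticAt.comp (by rwa [map_zero]) (e.symm.toContinuousLinearMap.analyticAt 0)
  have h2 : Tendsto e (𝓝 0) (𝓝 0) := e.continuous.tendsto' 0 0 (map_zero e)
  obtain ⟨σ, h3, h4, h5⟩ := P218CS.curve_selection h1 (h2.frequently (by simpa using hf))
  exact ⟨fun s => e.symm (σ s), (e.symm.toContinuousLinearMap.analyticAt _).comp h3,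
    by simp [h4], h5⟩

theorem reparam {u : ℝ → ℝ} (hu : AnalyticAt ℝ u 0) (h0 : u 0 = 0)
    (h1 : ∀ᶠ t in 𝓝[>] (0 : ℝ), u t ≠ 0) :
    ∃ (q : ℕ) (χ : ℝ → ℝ), q ≠ 0 ∧ AnalyticAt ℝ χ 0 ∧ χ 0 = 0 ∧
      Tendsto χ (𝓝[>] 0) (𝓝[>] 0) ∧ ∀ᶠ t in 𝓝 (0 : ℝ), u (χ t) ^ 2 = t ^ (2 * q) := by
  obtain ⟨q, g, hg, hg0, hug⟩ := hu.exists_eventuallyEq_pow_smul_nonzero_iff.2 fun h => by
    obtain ⟨t, h2, h3⟩ := (h1.and (h.filter_mono nhdsWithin_le_nhds)).exists
    exact h2 h3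
  have hq : q ≠ 0 := by
    rintro rfl
    exact hg0 (by simpa [h0] using hug.self_of_nhds.symm)
  let v : ℝ → ℝ := fun t => Real.exp (Real.log (g t ^ 2) / (2 * q))
  have hv : AnalyticAt ℝ v 0 :=
    analyticAt_rexp.comp (((hg.pow 2).log (sq_pos_of_ne_zero hg0)).div_const)
  let ψ : ℝ → ℝ := fun t => t * v t
  have hψ : AnalyticAt ℝ ψ 0 := analyticAt_id.mul hv
  have hd : deriv ψ 0 ≠ 0 := by
    have h2 := ((hasDerivAt_id (0 : ℝ)).mul hv.differentiableAt.hasDerivAt).deriv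
    have h3 : deriv ψ 0 = v 0 := h2.trans (by simp)
    rw [h3]
    exact (Real.exp_pos _).ne'
  have hψ0 : ψ 0 = 0 := by simp [ψ]
  let χ := hψ.hasStrictDerivAt.localInverse _ _ _ hd
  have hχ : AnalyticAt ℝ χ 0 := hψ0 ▸ hψ.analyticAt_localInverse hd
  have hχ0 : χ 0 = 0 := by
    have : χ (ψ 0) = 0 := HasStrictFDerivAt.localInverse_apply_image ..
    rwa [hψ0] at this
  have hr : ∀ᶠ t in 𝓝 (0 : ℝ), ψ (χ t) = t := by
    have := hψ.hasStrictDerivAt.eventually_right_inverse hd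
    rwa [hψ0] at this
  have ht : Tendsto χ (𝓝 0) (𝓝 0) := by simpa only [hχ0] using hχ.continuousAt.tendsto
  refine ⟨q, χ, hq, hχ, hχ0, tendsto_nhdsWithin_iff.2 ⟨ht.mono_left nhdsWithin_le_nhds, ?_⟩, ?_⟩
  · filter_upwards [hr.filter_mono nhdsWithin_le_nhds, self_mem_nhdsWithin] with t h2 h3
    have h4 : 0 < ψ (χ t) := h2.symm ▸ h3
    exact (mul_pos_iff_of_pos_right (Real.exp_pos _)).1 h4
  · filter_upwards [hr, ht.eventually hug, ht.eventually (hg.continuousAt.eventually_ne hg0)]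
      with t h2 h3 h4
    conv_rhs => rw [← h2]
    have h5 : v (χ t) ^ (2 * q) = g (χ t) ^ 2 := by
      simp only [v]
      rw [← Real.exp_nat_mul, Nat.cast_mul, Nat.cast_ofNat, mul_div_cancel₀ _ (by positivity),
        Real.exp_log (by positivity)]
    simp only [h3, ψ, mul_pow, h5, sub_zero, smul_eq_mul]
    ring

theorem poly_approx {u : ℝ → ℝ} (hu : AnalyticAt ℝ u 0) (h0 : u 0 = 0) (K : ℕ) :
    ∃ g : Polynomial ℝ, g.coeff 0 = 0 ∧ (fun t => u t - g.eval t) =O[𝓝 0] fun t : ℝ => t ^ K := by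
  obtain ⟨p, hp⟩ := hu
  refine ⟨∑ n ∈ Finset.range K, Polynomial.monomial n (p.coeff n), ?_, ?_⟩
  · have h1 : p.coeff 0 = 0 := (hp.coeff_zero _).trans h0
    simp only [Polynomial.finsetSum_coeff, Polynomial.coeff_monomial, Finset.sum_ite_eq', h1,
      ite_self]
  · refine ((hp.isBigO_sub_partialSum_pow K).congr_left fun t => ?_).trans ?_
    · simp [FormalMultilinearSeries.partialSum, Polynomial.eval_finsetSum, mul_comm]
    · exact IsBigO.of_bound 1 (Eventually.of_forall fun t => by simp)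

variable {ι κ : Type*}

/-- The blow up chart in the direction `l`. -/
noncomputable def chart (l : ι → ℝ) : ι ⊕ κ → MvPowerSeries (Option (ι ⊕ κ)) ℝ :=
  Sum.elim (fun j => X none * (C (l j) + X (some (Sum.inl j)))) fun k => X (some (Sum.inr k))

theorem const_chart (l : ι → ℝ) (i : ι ⊕ κ) : constantCoeff (chart l i) = 0 := by
  cases i <;> simp [chart]

theorem chart_mem (l : ι → ℝ) (i : ι ⊕ κ) (ρ0 : ℝ) : chart l i ∈ Gev ℝ none 1 ρ0 := by
  cases i with
  | inl j => exact mul_mem (X_mem_Gev _) (add_mem (C_mem_Gev _) (X_mem_Gev _))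
  | inr k => exact X_mem_Gev _

variable [Fintype ι] [Fintype κ]

theorem weight_eq (ω : ι ⊕ κ → ℕ) (μ : ι ⊕ κ →₀ ℕ) : Finsupp.weight ω μ = ∑ i, ω i * μ i := by
  rw [Finsupp.weight_apply, Finsupp.sum_fintype _ _ (by simp)]
  simp [mul_comm]

theorem Seq.chart_gev {H : ℝ → (ι ⊕ κ → ℂ) → ℂ} {r w1 C : ℝ} (h : Seq H r w1 C) {l : ι → ℝ}
    (hl : ∀ j, |l j| ≤ 1) :
    subst (chart l) (lin Complex.reCLM (lim H)) ∈ Gev ℝ (none : Option (ι ⊕ κ)) 1 (17 / 20) := by
  refine isGev_of fun ρ hρ hρ1 => ?_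
  obtain ⟨A, hA⟩ := h.gevrey_bound hρ.le hρ1.le
  have hr := h.r_pos
  obtain ⟨a, ha1, ha2⟩ : ∃ a : ℝ, Real.exp (-a) < 1 / 21 ∧ Real.exp (-a) < r :=
    ((Real.tendsto_exp_neg_atTop_nhds_zero.eventually (gt_mem_nhds (by norm_num))).and
      (Real.tendsto_exp_neg_atTop_nhds_zero.eventually (gt_mem_nhds hr))).exists
  set e := Real.exp (-a) with he
  have he0 : 0 < e := Real.exp_pos _
  let w : (ι ⊕ κ →₀ ℕ) → ℝ≥0∞ := fun μ => om ρ a (Finsupp.weight (oa ι κ) μ) *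
    (ENNReal.ofReal (1 + e) ^ Finsupp.weight (oa ι κ) μ *
      ENNReal.ofReal e ^ Finsupp.weight (ob ι κ) μ)
  refine ⟨a, ne_top_of_le_ne_top ?_ (wn_subst (w := w)
    (hasSubst_of_constantCoeff_zero (const_chart l)) (fun μ => ?_) _)⟩
  · have h1 := (summable_geo' (x := rad ι κ (21 / 22 * (1 + e)) (r⁻¹ * e))
      (fun i => (rad_pos (by positivity) (by positivity) i).le) (by
        rintro (j | k)
        · change 21 / 22 * (1 + e) < 1
          linarith
        · change r⁻¹ * e < 1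
          rwa [inv_mul_lt_iff₀ hr, mul_one])).mul_left A
    refine ne_top_of_le_ne_top h1.tsum_ofReal_ne_top (ENNReal.tsum_le_tsum fun μ => ?_)
    have h2 := hA a μ
    have h3 : |(coeff μ (lim H)).re| ≤ ‖coeff μ (lim H)‖ := Complex.abs_re_le_norm _
    simp only [w]
    rw [coeff_lin, prod_rad, ← ofReal_norm, ← ENNReal.ofReal_toReal (om_ne_top ρ a _),
      ← ENNReal.ofReal_pow (by positivity), ← ENNReal.ofReal_pow he0.le,
      ← ENNReal.ofReal_mul (by positivity), ← ENNReal.ofReal_mul ENNReal.toReal_nonneg,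
      ← ENNReal.ofReal_mul (norm_nonneg _)]
    refine ENNReal.ofReal_le_ofReal ?_
    rw [← mul_assoc]
    refine (mul_le_mul_of_nonneg_right ((mul_le_mul_of_nonneg_right h3
      ENNReal.toReal_nonneg).trans h2) (by positivity)).trans (le_of_eq ?_)
    simp only [mul_pow]
    ring
  · let b : ι ⊕ κ → MvPowerSeries (Option (ι ⊕ κ)) ℝ :=
      Sum.elim (fun j => MvPowerSeries.C (l j) + X (some (Sum.inl j))) fun k => X (some (Sum.inr k))
    have h1 : ∀ i, chart l i = X none ^ oa ι κ i * b i := by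
      rintro (j | k) <;> simp [chart, oa, b]
    have hw := wt_subMul (none : Option (ι ⊕ κ)) 1 hρ.le a
    have hw0 := (wt_zero (none : Option (ι ⊕ κ)) 1 hρ.le a)
    have hX : ∀ i : ι ⊕ κ, wn (wt none 1 ρ a) (X (some i) : MvPowerSeries (Option (ι ⊕ κ)) ℝ) =
        ENNReal.ofReal e := fun i => by
      rw [← pow_one (X _), wn_X_pow, wt_single_ne (by simp) 1 hρ.le, pow_one]
    rw [Finsupp.prod_fintype _ _ (by simp)]
    simp only [h1, mul_pow, ← pow_mul, Finset.prod_mul_distrib, Finset.prod_pow_eq_pow_sum,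
      ← weight_eq]
    refine (wn_mul hw _ _).trans (mul_le_mul' ?_ ?_)
    · rw [wn_X_pow, wt_single, Nat.cast_one, div_one]
    · rw [← prod_elim]
      refine (wn_prod hw hw0.le _ _).trans (Finset.prod_le_prod' fun i _ =>
        (wn_pow hw hw0.le _ _).trans (pow_le_pow_left' ?_ _))
      cases i with
      | inl j =>
        refine (wn_add _ _ _).trans ?_
        rw [wn_C, hw0, mul_one, hX, Sum.elim_inl, ENNReal.ofReal_add zero_le_one he0.le,
          ← ofReal_norm]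
        exact add_le_add (ENNReal.ofReal_le_ofReal (hl j)) le_rfl
      | inr k => exact (hX _).le

end Vale.Agent.P218GV
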