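import Vale.Agent.P218GV.GV6

/-! From approximate arcs to exact Gevrey arcs: the induction. -/

open MvPowerSeries Filter Topology

namespace Vale.Agent.P218GV

variable {𝕜 : Type*} [NormedField 𝕜] {I : Type*}

theorem exists_not_dvd {σ : Type*} [Finite σ] {U : Ultrafilter I} {P : I → ℕ} (hP : ∀ N, P N ≠ 0)
    {o : σ} {ρ0 : ℝ} {γ : I → σ → MvPowerSeries Unit 𝕜} (hγ : ∀ N, Arc o (P N) ρ0 (γ N))
    {G : MvPowerSeries σ 𝕜} (hG0 : G ≠ 0) (hG : G ∈ Gev 𝕜 o 1 ρ0)
    (hGs : G ∈ sm U P γ fun N => (hγ N).zero) :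
    ∃ G' ∈ Gev 𝕜 o 1 ρ0, G' ∈ (sm U P γ fun N => (hγ N).zero) ∧ ¬ X o ∣ G' := by
  obtain ⟨μ, hμ⟩ : ∃ μ, coeff μ G ≠ 0 := by
    by_contra! h
    exact hG0 (MvPowerSeries.ext h)
  have hX : (X o : MvPowerSeries σ 𝕜) ∉ sm U P γ fun N => (hγ N).zero := by
    intro h
    obtain ⟨N, hN⟩ := (h 2).exists
    rw [subst_X (hγ N).hs, (hγ N).ho] at hN
    have h1 := X_pow_dvd_iff.1 hN (Finsupp.single () (P N)) (by
      have := hP N
      simp only [Finsupp.single_eq_same]
      omega)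
    simp [coeff_X_pow] at h1
  induction h : μ o generalizing G μ with
  | zero => exact ⟨G, hG, hGs, fun h1 => hμ (X_dvd_iff.1 h1 μ h)⟩
  | succ n ih =>
    by_cases h1 : X o ∣ G
    · obtain ⟨G', rfl⟩ := h1
      have h2 : Finsupp.single o 1 ≤ μ := Finsupp.single_le_iff.2 (by omega)
      rw [X, coeff_monomial_mul, if_pos h2, one_mul] at hμ
      refine ih (G := G') (fun h3 => hG0 (by rw [h3, mul_zero])) (mem_Gev_of_X_mul one_ne_zero hG)
        (((sm_isPrime hP).mem_or_mem hGs).resolve_left hX) _ hμ ?_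
      simp [h]
    · exact ⟨G, hG, hGs, h1⟩

universe u

theorem lift [CharZero 𝕜] {U : Ultrafilter I} {P : I → ℕ} (hP : ∀ N, P N ≠ 0) (ρ0 : ℝ) (n : ℕ) :
    ∀ (σ : Type u) [Finite σ], Nat.card σ = n → ∀ o : σ, Lift 𝕜 U P o ρ0 := by
  induction n with
  | zero =>
    intro σ _ h o
    have : Nonempty σ := ⟨o⟩
    exact absurd h Nat.card_pos.ne'
  | succ n ih =>
    intro σ _ hcard o γ hγ S hS hS1 hS2 K
    classical
    by_cases hz : ∀ F ∈ S, F = 0
    · refine Eventually.of_forall fun N => ⟨γ N, hγ N, fun i => by simp, fun F hF => ?_⟩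
      rw [hz F hF, ← substAlgHom_apply (R := 𝕜) (hγ N).hs, map_zero]
    push Not at hz
    obtain ⟨G0, hG0, hG0'⟩ := hz
    obtain ⟨G, hG, hGs, hGX⟩ := exists_not_dvd hP hγ hG0' (hS1 _ hG0) (hS2 _ hG0)
    obtain ⟨v, hvo, hv⟩ := exists_line hGX
    obtain ⟨j, hj⟩ : ∃ j, v j ≠ 0 := by
      by_contra! h
      refine hv ?_
      simp only [h, map_zero, zero_mul]
      exact subst_zero_of_constantCoeff_zero (const_of_mem_sm hP hGs)
    have hoj : o ≠ j := fun h => hj (h ▸ hvo)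
    let τ := {i : σ // i ≠ j}
    let o' : τ := ⟨o, hoj⟩
    have hτ : Nat.card τ = n := by
      have h1 := Nat.card_congr (Equiv.optionSubtypeNe j)
      rw [Finite.card_option] at h1
      have h2 : Nat.card τ + 1 = n + 1 := h1.trans hcard
      omega
    let a : σ → MvPowerSeries (Option τ) 𝕜 := fun i =>
      C (v i) * X none + if h : i = j then 0 else X (some ⟨i, h⟩)
    let b : Option τ → MvPowerSeries σ 𝕜 := fun k =>
      k.elim (C (v j)⁻¹ * X j) fun i => X i.1 - C (v i.1 * (v j)⁻¹) * X j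
    have ha0 : ∀ i, constantCoeff (a i) = 0 := fun i => by
      simp only [a]
      split_ifs <;> simp
    have hb0 : ∀ k, constantCoeff (b k) = 0 := by
      rintro (_ | k) <;> simp [b]
    have hsa := hasSubst_of_constantCoeff_zero ha0
    have hsb := hasSubst_of_constantCoeff_zero hb0
    have hao : a o = X (some o') := by simp [a, hvo, hoj, o']
    have hbo : b (some o') = X o := by simp [b, hvo, o']
    have haG : ∀ i, a i ∈ Gev 𝕜 (some o') 1 ρ0 := fun i => by
      refine add_mem (mul_mem (C_mem_Gev _) (X_mem_Gev _)) ?_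
      split_ifs
      · exact zero_mem _
      · exact X_mem_Gev _
    have hbG : ∀ k, b k ∈ Gev 𝕜 o 1 ρ0 := by
      rintro (_ | k)
      · exact mul_mem (C_mem_Gev _) (X_mem_Gev _)
      · exact sub_mem (X_mem_Gev _) (mul_mem (C_mem_Gev _) (X_mem_Gev _))
    have hba : ∀ i, subst b (a i) = X i := fun i => by
      simp only [a]
      rw [subst_add hsb, subst_mul hsb, subst_C, subst_X hsb]
      split_ifs with h
      · rw [← substAlgHom_apply hsb, map_zero, h]
        simp only [b, Option.elim_none, add_zero]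
        rw [← mul_assoc, ← map_mul, mul_inv_cancel₀ hj, map_one, one_mul]
      · rw [subst_X hsb]
        simp only [b, Option.elim_none, Option.elim_some, map_mul]
        ring
    let γ2 : I → Option τ → MvPowerSeries Unit 𝕜 := fun N k => subst (γ N) (b k)
    have hγ2 : ∀ N, Arc (some o') (P N) ρ0 (γ2 N) := fun N =>
      ⟨by simp only [γ2]; rw [hbo, subst_X (hγ N).hs, (hγ N).ho],
        fun k => (hγ N).subst_mem (hP N) (hbG k),
        fun k => (constantCoeff_subst' (hγ N).zero _).trans (hb0 k)⟩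
    have hγa : ∀ N i, subst (γ2 N) (a i) = γ N i := fun N i => by
      simp only [γ2]
      rw [← subst_comp_subst_apply hsb (hγ N).hs, hba, subst_X (hγ N).hs]
    have hsub : ∀ N (F : MvPowerSeries σ 𝕜), subst (γ2 N) (subst a F) = subst (γ N) F := by
      intro N F
      rw [subst_comp_subst_apply hsa (hγ2 N).hs]
      simp only [hγa]
    have hsm : ∀ F ∈ (sm U P γ fun N => (hγ N).zero),
        subst a F ∈ sm U P γ2 fun N => (hγ2 N).zero := fun F hF K => by
      simpa only [hsub] using hF K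
    have hGev : ∀ F ∈ Gev 𝕜 o 1 ρ0, subst a F ∈ Gev 𝕜 (some o') 1 ρ0 := fun F hF =>
      subst_mem_Gev1 one_ne_zero hao (fun i _ => haG i) ha0 hF
    let e : Unit ↪ Option τ := ⟨fun _ => none, fun _ _ _ => rfl⟩
    have hk : killCompl e (subst a G) =
        subst (fun i => (C (v i) * X () : MvPowerSeries Unit 𝕜)) G := by
      rw [killCompl_subst e ha0]
      congr 1
      funext i
      simp only [a, map_add, map_mul, killCompl_C]
      rw [show (none : Option τ) = e () from rfl, killCompl_X]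
      split_ifs with h
      · simp
      · rw [killCompl_X_eq_zero, add_zero]
        rintro ⟨_, h1⟩
        simp [e] at h1
    obtain ⟨d, hd0, hd1⟩ := exists_first hv
    simp only [← hk, coeff_killCompl, Finsupp.embDomain_single] at hd0 hd1
    have hstep := lift_step hP (ih τ hτ o') γ2 hγ2 (hGev G hG) (hsm G hGs) hd0 hd1
      ((subst a) '' S) (hS.image _) (by rintro _ ⟨F, hF, rfl⟩; exact hGev F (hS1 F hF))
      (by rintro _ ⟨F, hF, rfl⟩; exact hsm F (hS2 F hF)) K
    filter_upwards [hstep] with N ⟨γ3, hγ3, hc, hkill⟩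
    refine ⟨fun i => subst γ3 (a i), ⟨by rw [hao, subst_X hγ3.hs, hγ3.ho],
      fun i => hγ3.subst_mem (hP N) (haG i),
      fun i => (constantCoeff_subst' hγ3.zero _).trans (ha0 i)⟩, fun i => ?_, fun F hF => ?_⟩
    · rw [← hγa N i]
      exact dvd_subst_sub hγ3.zero (hγ2 N).zero hc _
    · rw [← subst_comp_subst_apply hsa hγ3.hs]
      exact hkill _ ⟨F, hF, rfl⟩

/-- If finitely many Gevrey series vanish to arbitrarily high order along Gevrey arcs, then they
vanish identically along some Gevrey arc. -/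
theorem exists_arc [CharZero 𝕜] {σ : Type*} [Finite σ] {o : σ} {ρ0 : ℝ}
    {S : Set (MvPowerSeries σ 𝕜)} (hS : S.Finite) (hS1 : ∀ F ∈ S, F ∈ Gev 𝕜 o 1 ρ0)
    (h : ∀ N : ℕ, ∃ (p : ℕ) (γ : σ → MvPowerSeries Unit 𝕜), p ≠ 0 ∧ Arc o p ρ0 γ ∧
      ∀ F ∈ S, X () ^ (N * p) ∣ subst γ F) :
    ∃ (p : ℕ) (γ : σ → MvPowerSeries Unit 𝕜), p ≠ 0 ∧ Arc o p ρ0 γ ∧ ∀ F ∈ S, subst γ F = 0 := by
  choose P γ hP hγ hS2 using h
  have h1 := lift (𝕜 := 𝕜) (U := hyperfilter ℕ) hP ρ0 _ σ rfl o γ hγ S hS hS1 (fun F hF K => ?_) 0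
  · obtain ⟨N, γ', h2, -, h3⟩ := h1.exists
    exact ⟨P N, γ', hP N, h2, h3⟩
  · filter_upwards [Nat.hyperfilter_le_atTop (eventually_ge_atTop K)] with N hN
    exact (pow_dvd_pow _ (Nat.mul_le_mul_right _ hN)).trans (hS2 N F hF)

end Vale.Agent.P218GV
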