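import Vale.Agent.P218GV.GV16
import Vale.Agent.P218GV.GV7

/-! Existence of a real Gevrey critical arc. -/

open MvPowerSeries Filter Topology Metric Asymptotics Function

namespace Vale.Agent.P218GV

open P218SQ

variable {ι κ : Type*} [Fintype ι] [Fintype κ] [DecidableEq ι] [DecidableEq κ]

/-- The real limit series. -/
noncomputable def fh (f : (ι → ℝ) → Pt ι κ → ℂ) : MvPowerSeries (ι ⊕ κ) ℝ :=
  lin Complex.reCLM (lim (uni f))

/-- Partial derivatives of the truncations at real points. -/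
noncomputable def phi (f : (ι → ℝ) → Pt ι κ → ℂ) (M : ℕ) (i : ι ⊕ κ) (x : ι ⊕ κ → ℝ) : ℝ :=
  Complex.reCLM (fderiv ℂ (ev (low M (lim (uni f)))) (cx x) (Pi.single i 1))

/-- The real blow up chart. -/
def chartR (l : ι → ℝ) (p : Option (ι ⊕ κ) → ℝ) : ι ⊕ κ → ℝ :=
  Sum.elim (fun j => p none ^ 2 * (l j + p (some (Sum.inl j)))) fun k => p (some (Sum.inr k))

namespace Seq

variable {f : (ι → ℝ) → Pt ι κ → ℂ} {r w1 C : ℝ}

theorem phi_hasExp (h : Seq (uni f) r w1 C) (M : ℕ) (i : ι ⊕ κ) :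
    HasExp (phi f M i) (pderiv ℝ i (low M (fh f))) := by
  obtain ⟨A, hA⟩ := h.cb_low M
  have hR := rad_pos (ι := ι) (κ := κ) one_pos h.r_pos
  have h1 := ((hA.hasExp hR).fderiv (mem_of_superset (pd_mem_nhds hR) fun z hz =>
    (hA.differentiableOn hR).differentiableAt ((isOpen_pd _).mem_nhds hz)) i).lin Complex.reCLM
  have h2 : pderiv ℝ i (low M (fh f)) =
      lin Complex.reCLM (pderiv ℂ i (low M (lim (uni f)))) := by
    ext μ
    simp only [coeff_lin, coeff_pderiv, coeff_low, fh]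
    split_ifs <;> simp
  rw [h2]
  exact h1

theorem phi_analytic (h : Seq (uni f) r w1 C) (M : ℕ) (i : ι ⊕ κ) : AnalyticAt ℝ (phi f M i) 0 := by
  obtain ⟨A, hA⟩ := h.cb_low M
  have hR := rad_pos (ι := ι) (κ := κ) one_pos h.r_pos
  have h1 := P268.analyticAt_of_differentiableOn (isOpen_pd _)
    (P268.differentiableOn_fderiv_apply (isOpen_pd _) (hA.differentiableOn hR) (Pi.single i 1))
    (mem_of_mem_nhds (pd_mem_nhds hR))
  have h2 : AnalyticAt ℝ (cx : (ι ⊕ κ → ℝ) → ι ⊕ κ → ℂ) 0 :=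
    (ContinuousLinearMap.pi fun j => Complex.ofRealCLM.comp
      (ContinuousLinearMap.proj (R := ℝ) (φ := fun _ : ι ⊕ κ => ℝ) j)).analyticAt 0
  have h3 : cx (0 : ι ⊕ κ → ℝ) = 0 := by
    ext
    simp [cx]
  exact (Complex.reCLM.analyticAt _).comp (h1.restrictScalars.comp_of_eq h2 h3)

theorem abs_phi_le (h : Seq (uni f) r w1 C) (M : ℕ) (i : ι ⊕ κ) {x : (ι → ℝ) × (κ → ℝ)}
    (h1 : ‖x.1‖ < 1) (h2 : ‖x‖ < r) :
    |phi f M i (Sum.elim x.1 x.2)| ≤ ‖fderiv ℂ (trn f M) (ofReal x)‖ := by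
  have h3 : spl ι κ (cx (Sum.elim x.1 x.2)) = ofReal x := rfl
  have h4 := (h.trn_analytic M (p := spl ι κ (cx (Sum.elim x.1 x.2)))
    (by rwa [h3, norm_ofReal_fst])
    (by rw [h3]; exact (norm_snd_le _).trans_lt (by rwa [norm_ofReal]))).differentiableAt
  have h5 := (h4.hasFDerivAt.comp _ (spl ι κ).hasFDerivAt).fderiv
  have h6 : trn f M ∘ spl ι κ = ev (low M (lim (uni f))) := by
    funext z
    simp [trn]
  rw [h6, h3] at h5
  rw [phi, h5]
  refine (Complex.abs_re_le_norm _).trans (((fderiv ℂ (trn f M) (ofReal x)).le_opNorm _).trans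
    (mul_le_of_le_one_right (norm_nonneg _) ?_))
  have h7 : ∀ j, ‖(Pi.single i 1 : ι ⊕ κ → ℂ) j‖ ≤ 1 := fun j =>
    (norm_le_pi_norm _ j).trans (by rw [Pi.norm_single, norm_one])
  exact norm_prod_le_iff.2 ⟨(pi_norm_le_iff_of_nonneg zero_le_one).2 fun j => h7 _,
    (pi_norm_le_iff_of_nonneg zero_le_one).2 fun j => h7 _⟩

theorem exists_dir (h : Seq (uni f) r w1 C) (hf : Fails f) :
    ∃ l : ι → ℝ, ‖l‖ = 1 ∧ ∀ N : ℕ, ∃ᶠ p in 𝓝 (0 : Option (ι ⊕ κ) → ℝ),
      ∑ i, phi f (N + 7) i (chartR l p) ^ 2 - p none ^ (4 * N) < 0 := by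
  choose x hx1 hx2 hx3 using fun n : ℕ => hf n (1 / (n + 1)) (by positivity)
  have hpos : ∀ n, 0 < ‖(x n).1‖ := fun n => norm_pos_iff.2 (hx2 n)
  obtain ⟨l, hl, ψ, hψ, hlim⟩ := (isCompact_sphere (0 : ι → ℝ) 1).tendsto_subseq
    (x := fun n => ‖(x n).1‖⁻¹ • (x n).1) fun n => by
      simp [norm_smul, (hpos n).ne']
  have hx0 : Tendsto (fun n => x (ψ n)) atTop (𝓝 0) :=
    (squeeze_zero_norm (fun n => (hx1 n).le) tendsto_one_div_add_atTop_nhds_zero_nat).comp
      hψ.tendsto_atTop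
  have ha0 : Tendsto (fun n => ‖(x (ψ n)).1‖) atTop (𝓝 0) := by
    simpa using ((continuous_fst.tendsto _).comp hx0).norm
  let p : ℕ → Option (ι ⊕ κ) → ℝ := fun n k => k.elim (Real.sqrt ‖(x (ψ n)).1‖)
    (Sum.elim (fun j => ‖(x (ψ n)).1‖⁻¹ * (x (ψ n)).1 j - l j) (x (ψ n)).2)
  have hp : Tendsto p atTop (𝓝 0) := by
    rw [tendsto_pi_nhds]
    rintro (_ | j | k)
    · simpa [p] using ha0.sqrt
    · simpa [p] using (tendsto_pi_nhds.1 hlim j).sub_const (l j)
    · exact tendsto_pi_nhds.1 ((continuous_snd.tendsto _).comp hx0) k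
  have hch : ∀ n, chartR l (p n) = Sum.elim (x (ψ n)).1 (x (ψ n)).2 := fun n => by
    funext i
    cases i with
    | inl j =>
      simp only [chartR, p, Sum.elim_inl, Option.elim_none, Option.elim_some]
      rw [Real.sq_sqrt (norm_nonneg _)]
      field_simp [(hpos _).ne']
      ring
    | inr k => rfl
  refine ⟨l, by simpa using hl, fun N => hp.frequently (Eventually.frequently ?_)⟩
  obtain ⟨A, δ, w2, hA, hδ, h1⟩ := h.grad_approx (N + 1)
  set A' := 1 + A * ((N + 1).factorial * 4 ^ (N + 1) + 1) with hA'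
  have hw : Tendsto (fun n => 1 / (2 * ‖(x (ψ n)).1‖)) atTop atTop := by
    simp only [one_div]
    refine tendsto_inv_nhdsGT_zero.comp (tendsto_nhdsWithin_iff.2 ⟨by simpa using ha0.const_mul 2,
      Eventually.of_forall fun n => mul_pos two_pos (hpos _)⟩)
  have hs : Tendsto (fun n => (Fintype.card (ι ⊕ κ) : ℝ) * (A' * ‖(x (ψ n)).1‖) ^ 2) atTop (𝓝 0) := by
    simpa using ((ha0.const_mul A').pow 2).const_mul (Fintype.card (ι ⊕ κ) : ℝ)
  filter_upwards [hw.eventually (eventually_ge_atTop w2), hs.eventually (gt_mem_nhds one_pos),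
    hx0.norm.eventually (gt_mem_nhds (show ‖(0 : (ι → ℝ) × (κ → ℝ))‖ < min δ r by
      simpa using ⟨hδ, h.r_pos⟩)), ha0.eventually (gt_mem_nhds one_pos),
    hψ.tendsto_atTop.eventually (eventually_ge_atTop (N + 1))] with n h2 h3 h4 h5 h6
  set y := x (ψ n) with hy
  set s := ‖y.1‖ with hs
  have hs0 : 0 < s := hpos _
  have h7 := h1 _ h2 (ofReal y) (by rw [norm_ofReal]; exact h4.trans_le (min_le_left _ _))
    (by rw [norm_ofReal_fst, ← hs]; field_simp; rfl)
  rw [norm_ofReal_fst, ← hs] at h7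
  have h8 : Real.exp (-(1 / (2 * s)) / 2) ≤ (N + 1).factorial * 4 ^ (N + 1) * s ^ (N + 1) := by
    have h9 := pow_le_exp (N + 1) (ε := 1) (v := 1 / (4 * s)) one_pos (by positivity)
    rw [show -(1 / (2 * s)) / 2 = -(1 * (1 / (4 * s))) by field_simp; norm_num, Real.exp_neg,
      inv_le_iff_one_le_mul₀ (Real.exp_pos _)]
    rw [one_pow, div_one, div_pow, one_pow, div_le_iff₀ (by positivity), mul_pow] at h9
    linarith
  have h9 : ∀ i, |phi f (N + 7) i (chartR l (p n))| ≤ A' * s * s ^ N := fun i => by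
    rw [hch]
    refine (h.abs_phi_le _ i h5 (h4.trans_le (min_le_right _ _))).trans ?_
    have h10 := (hx3 (ψ n)).le.trans (pow_le_pow_of_le_one hs0.le h5.le h6)
    have h11 := norm_le_insert (fderiv ℂ (f fun _ => 1 / (2 * s)) (ofReal y))
      (fderiv ℂ (trn f (N + 1 + 6)) (ofReal y))
    have h12 := mul_le_mul_of_nonneg_left h8 hA
    rw [mul_assoc, ← pow_succ', hA']
    linarith
  have h10 : p n none ^ (4 * N) = (s ^ N) ^ 2 := by
    simp only [p, Option.elim_none]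
    rw [show 4 * N = 2 * (N * 2) by ring, pow_mul, Real.sq_sqrt (norm_nonneg _), pow_mul]
  have h11 : ∑ i, phi f (N + 7) i (chartR l (p n)) ^ 2 ≤
      Fintype.card (ι ⊕ κ) * (A' * s * s ^ N) ^ 2 := by
    rw [← nsmul_eq_mul, ← Finset.card_univ]
    exact Finset.sum_le_card_nsmul _ _ _ fun i _ => sq_le_sq' (abs_le.1 (h9 i)).1 (abs_le.1 (h9 i)).2
  have h12 : 0 < (s ^ N) ^ 2 := by positivity
  rw [h10, sub_neg]
  refine h11.trans_lt ?_
  rw [mul_pow, ← mul_assoc]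
  exact mul_lt_of_lt_one_left h12 h3

end Seq

omit [DecidableEq ι] [DecidableEq κ] in
theorem analytic_chartR (l : ι → ℝ) : AnalyticAt ℝ (chartR (κ := κ) l) 0 := by
  have h1 : ∀ k, AnalyticAt ℝ (fun p : Option (ι ⊕ κ) → ℝ => p k) 0 := fun k =>
    (ContinuousLinearMap.proj (R := ℝ) (φ := fun _ : Option (ι ⊕ κ) => ℝ) k).analyticAt 0
  refine AnalyticAt.pi fun i => ?_
  cases i with
  | inl j => exact ((h1 none).pow 2).mul (analyticAt_const.add (h1 _))
  | inr k => exact h1 _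

theorem ps_mem_Gev {𝕜 : Type*} [NontriviallyNormedField 𝕜] {p : ℕ} {ρ0 : ℝ} (g : Polynomial 𝕜) :
    ps g ∈ Gev 𝕜 () p ρ0 := by
  induction g using Polynomial.induction_on' with
  | add P Q hP hQ =>
    rw [ps, Polynomial.coe_add]
    exact add_mem hP hQ
  | monomial n a =>
    rw [ps, Polynomial.coe_monomial]
    exact isGev_monomial _ _ _ _ _

theorem Ord.scale {σ 𝕜 : Type*} [NormedField 𝕜] {ω : σ → ℕ} {K : ℕ} {F : MvPowerSeries σ 𝕜}
    (h : Ord ω K F) (p : ℕ) : Ord (fun i => ω i * p) (K * p) F := by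
  intro μ hμ
  refine h μ (lt_of_mul_lt_mul_right (a := p) ?_ (Nat.zero_le _))
  rw [Finsupp.weight_apply, Finsupp.sum] at hμ ⊢
  simpa only [smul_eq_mul, Finset.sum_mul, mul_assoc] using hμ

theorem Seq.approx_arc {f : (ι → ℝ) → Pt ι κ → ℂ} {r w1 C : ℝ} (h : Seq (uni f) r w1 C)
    {l : ι → ℝ} {N : ℕ} (hN : N ≠ 0) (hf : ∃ᶠ p in 𝓝 (0 : Option (ι ⊕ κ) → ℝ),
      ∑ i, phi f (N + 7) i (chartR l p) ^ 2 - p none ^ (4 * N) < 0) (ρ0 : ℝ) :
    ∃ (p : ℕ) (γ : Option (ι ⊕ κ) → MvPowerSeries Unit ℝ), p ≠ 0 ∧ Arc none p ρ0 γ ∧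
      ∀ i, X () ^ (N * p) ∣ subst (fun i => subst γ (chart l i)) (pderiv ℝ i (fh f)) := by
  have hpr : ∀ k, AnalyticAt ℝ (fun p : Option (ι ⊕ κ) → ℝ => p k) 0 := fun k =>
    (ContinuousLinearMap.proj (R := ℝ) (φ := fun _ : Option (ι ⊕ κ) => ℝ) k).analyticAt 0
  have hc0 : chartR l (0 : Option (ι ⊕ κ) → ℝ) = 0 := by
    funext i
    cases i <;> simp [chartR]
  have hGa : AnalyticAt ℝ (fun p : Option (ι ⊕ κ) → ℝ =>
      ∑ i, phi f (N + 7) i (chartR l p) ^ 2 - p none ^ (4 * N)) 0 :=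
    (Finset.analyticAt_fun_sum _ fun i _ =>
      ((h.phi_analytic (N + 7) i).comp_of_eq (analytic_chartR l) hc0).pow 2).sub
      ((hpr none).pow (4 * N))
  obtain ⟨σ, h1, h2, h3⟩ := curve_selection' hGa hf
  have hσ : ∀ k, AnalyticAt ℝ (fun t => σ t k) 0 := fun k => (hpr k).comp_of_eq h1 h2
  have h4 : ∀ᶠ t in 𝓝[>] (0 : ℝ), ∀ i, |phi f (N + 7) i (chartR l (σ t))| ≤ (σ t none ^ 2) ^ N ∧
      σ t none ≠ 0 := by
    filter_upwards [h3] with t ht i
    have h5 : phi f (N + 7) i (chartR l (σ t)) ^ 2 < ((σ t none ^ 2) ^ N) ^ 2 := by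
      have h6 := Finset.single_le_sum (f := fun i => phi f (N + 7) i (chartR l (σ t)) ^ 2)
        (fun i _ => sq_nonneg _) (Finset.mem_univ i)
      have h7 : ∑ i, phi f (N + 7) i (chartR l (σ t)) ^ 2 - σ t none ^ (4 * N) < 0 := ht
      rw [← pow_mul, ← pow_mul, show 2 * (N * 2) = 4 * N by ring]
      linarith
    refine ⟨(abs_lt_of_sq_lt_sq h5 (by positivity)).le, fun h6 => ?_⟩
    rw [h6] at h5
    simp [hN] at h5
    exact absurd h5 (not_lt.2 (sq_nonneg _))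
  have h5 : ∀ᶠ t in 𝓝[>] (0 : ℝ), σ t none ≠ 0 := by
    filter_upwards [h3] with t ht h6
    have h7 : ∑ i, phi f (N + 7) i (chartR l (σ t)) ^ 2 - σ t none ^ (4 * N) < 0 := ht
    rw [h6, zero_pow (by omega), sub_zero] at h7
    exact absurd h7 (not_lt.2 (Finset.sum_nonneg fun i _ => sq_nonneg _))
  obtain ⟨q, χ, hq, hχ, hχ0, hχt, hχq⟩ := reparam (hσ none) (by simp [h2]) h5
  set p := 2 * q with hp
  have hp0 : p ≠ 0 := by omega
  choose g hg0 hg using fun i : ι ⊕ κ => poly_approx (u := fun t => σ (χ t) (some i))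
    ((hσ (some i)).comp_of_eq hχ hχ0) (by simp [hχ0, h2]) (N * p)
  let γ : Option (ι ⊕ κ) → MvPowerSeries Unit ℝ := fun k => k.elim (X () ^ p) fun i => ps (g i)
  have hγ : Arc none p ρ0 γ := ⟨rfl, by
    rintro (_ | i)
    · exact pow_mem (X_mem_Gev _) _
    · exact ps_mem_Gev _, by
    rintro (_ | i)
    · simp [γ, hp0]
    · exact (const_ps _).trans (hg0 i)⟩
  let G : ι ⊕ κ → Polynomial ℝ := Sum.elim
    (fun j => Polynomial.X ^ p * (Polynomial.C (l j) + g (Sum.inl j))) fun k => g (Sum.inr k)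
  have hG : (fun i => subst γ (chart l i)) = fun i => ps (G i) := by
    funext i
    cases i with
    | inl j =>
      simp only [chart, G, Sum.elim_inl, ps, Polynomial.coe_mul, Polynomial.coe_pow,
        Polynomial.coe_add, Polynomial.coe_C, Polynomial.coe_X]
      rw [subst_mul hγ.hs, subst_add hγ.hs, subst_C, subst_X hγ.hs, subst_X hγ.hs]
      rfl
    | inr k => exact subst_X hγ.hs _
  have hG0 : ∀ i, (G i).coeff 0 = 0 := by
    rintro (j | k)
    · simp [G, hp0.symm]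
    · exact hg0 _
  refine ⟨p, γ, hp0, hγ, fun i => ?_⟩
  rw [hG]
  have h6 := (h.phi_hasExp (N + 7) i).dvd hG0 (K := N * p) (γ := fun t => chartR l (σ (χ t))) (by
    rw [isBigO_pi]
    rintro (j | k)
    · have h7 := ((((continuous_pow p).tendsto (0 : ℝ)).isBigO_one ℝ).mul (hg (Sum.inl j))).mono
        (nhdsWithin_le_nhds (s := Set.Ioi 0))
      refine h7.congr' ?_ (Eventually.of_forall fun t => by simp)
      filter_upwards [hχq.filter_mono nhdsWithin_le_nhds] with t ht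
      simp only [Pi.sub_apply, chartR, G, Sum.elim_inl, ht, Polynomial.eval_mul,
        Polynomial.eval_pow, Polynomial.eval_X, Polynomial.eval_add, Polynomial.eval_C]
      ring
    · exact (hg (Sum.inr k)).mono nhdsWithin_le_nhds) (by
    refine IsBigO.of_bound 1 ?_
    filter_upwards [hχt.eventually h4, hχq.filter_mono nhdsWithin_le_nhds] with t ht1 ht2
    have h7 := (ht1 i).1
    rw [ht2, ← pow_mul, mul_comm p] at h7
    rw [one_mul]
    exact h7.trans (le_abs_self _))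
  have hc : ∀ i, constantCoeff (ps (G i)) = 0 := fun i => (const_ps _).trans (hG0 i)
  have h7 := ord_unit.1 (ord_subst (ω' := fun _ => 1) hc (fun k => ord_unit.2 (by
    cases k with
    | inl j =>
      rw [← congrFun hG]
      simp only [chart, oa, Sum.elim_inl, one_mul]
      rw [subst_mul hγ.hs, subst_X hγ.hs]
      exact Dvd.intro _ rfl
    | inr k => simp [oa])) ((((ord_hi (N + 7) (fh f)).mono (m := N + oa ι κ i) (by
      cases i <;> simp [oa])).pderiv i).scale p))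
  rw [map_sub, subst_sub (hasSubst_of_constantCoeff_zero hc)] at h7
  simpa using dvd_add h7 h6

end Vale.Agent.P218GV
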