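import Vale.Agent.P218GV.GV17

/-! The truncations of the critical arc. -/

open MvPowerSeries Filter Topology Metric Asymptotics Function
open scoped ENNReal

namespace Vale.Agent.P218GV

open P218SQ

theorem pow_le_om {p : ℕ} (hp : p ≠ 0) {N n : ℕ} (hn : (n : ℝ) ≤ 14 / 25 * p * N) {x : ℝ}
    (hx : 0 ≤ x) (hxN : x ^ p * N ≤ 4) (a : ℝ) :
    ENNReal.ofReal (x ^ n * Real.exp (-(21 / 25 * Real.exp a))) ≤ om (21 / 25) a (n / p) := by
  refine le_om fun L _ => ENNReal.ofReal_le_ofReal ?_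
  have hp0 : (0 : ℝ) < p := by positivity
  have h1 : x ^ n ≤ Real.exp (21 / 25 * Real.exp L - n / p * L) := by
    rcases hx.eq_or_lt with rfl | hx0
    · rcases Nat.eq_zero_or_pos n with rfl | h
      · simpa using (Real.exp_pos L).le
      · rw [zero_pow h.ne']
        exact (Real.exp_pos _).le
    · set l := -(p * Real.log x) with hl
      have h2 : x ^ n = Real.exp (-(n / p * l)) := by
        rw [hl, ← Real.exp_log (pow_pos hx0 n), Real.log_pow]
        congr 1
        field_simp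
      have h3 : x ^ p = Real.exp (-l) := by
        rw [hl, neg_neg, Real.exp_nat_mul, Real.exp_log hx0]
      have h4 : (n : ℝ) / p ≤ 56 / 25 * Real.exp l := by
        rw [h3, Real.exp_neg, inv_mul_le_iff₀ (Real.exp_pos _)] at hxN
        rw [div_le_iff₀ hp0]
        nlinarith
      have h5 : 0 ≤ (n : ℝ) / p := by positivity
      rw [h2, Real.exp_le_exp]
      have h6 := Real.exp_pos L
      rcases le_total L l with h7 | h7
      · nlinarith
      · have h8 := Real.add_one_le_exp (L - l - 1)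
        have h9 : Real.exp l * Real.exp (L - l - 1) * Real.exp 1 = Real.exp L := by
          rw [← Real.exp_add, ← Real.exp_add]
          congr 1
          ring
        have h10 := Real.exp_one_gt_d9
        have h11 : 0 < Real.exp l * Real.exp (L - l - 1) := by positivity
        have h12 : (n : ℝ) / p * (L - l) ≤ 56 / 25 * Real.exp l * Real.exp (L - l - 1) :=
          mul_le_mul h4 (by linarith) (by linarith) (by positivity)
        nlinarith
  refine (mul_le_mul_of_nonneg_right h1 (Real.exp_pos _).le).trans (le_of_eq ?_)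
  rw [← Real.exp_add]
  congr 1
  ring

/-- Truncation of a series in one variable. -/
noncomputable def tr (n : ℕ) (F : MvPowerSeries Unit ℝ) : Polynomial ℝ := PowerSeries.trunc n F

theorem coeff_tr (n : ℕ) (F : MvPowerSeries Unit ℝ) (k : ℕ) :
    (tr n F).coeff k = if k < n then coeff (Finsupp.single () k) F else 0 :=
  PowerSeries.coeff_trunc k n F

theorem dvd_ps_tr_sub (n : ℕ) (F : MvPowerSeries Unit ℝ) : X () ^ n ∣ ps (tr n F) - F := by
  rw [X_pow_dvd_unit]
  intro k hk
  rw [map_sub, coeff_ps, coeff_tr, if_pos hk, sub_self]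

theorem gev_small {p : ℕ} (hp : p ≠ 0) {F : MvPowerSeries Unit ℝ} (hF : F ∈ Gev ℝ () p (17 / 20)) :
    ∃ C, 0 ≤ C ∧ ∀ N J : ℕ, (J : ℝ) ≤ 14 / 25 * p * N → ∀ s : ℂ, ‖s‖ ^ p * N ≤ 4 →
      ‖Polynomial.aeval s (tr J F)‖ ≤ C := by
  obtain ⟨a, ha⟩ := (hF (21 / 25) (by norm_num) (by norm_num)).exists
  set c := ENNReal.ofReal (Real.exp (21 / 25 * Real.exp a)) with hc
  refine ⟨(c * wn (wt () p (21 / 25) a) F).toReal, ENNReal.toReal_nonneg, fun N J hJ s hs => ?_⟩
  rw [← ENNReal.ofReal_le_iff_le_toReal (ENNReal.mul_ne_top ENNReal.ofReal_ne_top ha), ofReal_norm]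
  have h1 : tr J F = ∑ n ∈ Finset.range J, Polynomial.monomial n (coeff (Finsupp.single () n) F) := by
    ext k
    simp [coeff_tr, Polynomial.coeff_monomial]
  rw [h1, map_sum]
  refine (enorm_sum_le _ _).trans ?_
  have h2 : ∑ n ∈ Finset.range J, ‖coeff (Finsupp.single () n) F‖ₑ *
      wt () p (21 / 25) a (Finsupp.single () n) ≤ wn (wt () p (21 / 25) a) F :=
    (ENNReal.sum_le_tsum _).trans (ENNReal.tsum_comp_le_tsum_of_injective
      (Finsupp.single_injective ()) fun μ => ‖coeff μ F‖ₑ * wt () p (21 / 25) a μ)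
  refine le_trans ?_ (mul_le_mul_right h2 c)
  rw [Finset.mul_sum]
  refine Finset.sum_le_sum fun n hn => ?_
  have h3 := pow_le_om hp (n := n) (le_trans (by exact_mod_cast (Finset.mem_range.1 hn).le) hJ)
    (norm_nonneg s) hs a
  rw [Polynomial.aeval_monomial, enorm_mul, wt_single, mul_left_comm]
  refine mul_le_mul' (le_of_eq ?_) (le_trans (le_of_eq ?_) (mul_le_mul_right h3 c))
  · rw [← ofReal_norm, ← ofReal_norm]
    simp
  · rw [hc, ← ENNReal.ofReal_mul (Real.exp_pos _).le, ← ofReal_norm, norm_pow, mul_left_comm,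
      ← Real.exp_add]
    simp

theorem gev_small' {p : ℕ} (hp : p ≠ 0) {F : MvPowerSeries Unit ℝ} (hF : F ∈ Gev ℝ () p (17 / 20))
    {m : ℕ} {Q : Polynomial ℝ} (hQ : ∀ k, m ≤ k → Q.coeff k = 0) (h : X () ^ m ∣ F - ps Q) :
    ∃ C, 0 ≤ C ∧ ∀ N J : ℕ, m ≤ J → (J : ℝ) ≤ 14 / 25 * p * N → ∀ s : ℂ, ‖s‖ ^ p * N ≤ 4 →
      ‖Polynomial.aeval s (tr J F) - Polynomial.aeval s Q‖ ≤ C * ‖s‖ ^ m := by
  obtain ⟨δ, hδ⟩ := h
  obtain ⟨C, hC, h1⟩ := gev_small hp (mem_Gev_of_X_pow_mul hp m (hδ ▸ sub_mem hF (ps_mem_Gev Q)))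
  refine ⟨C, hC, fun N J hm hJ s hs => ?_⟩
  have h2 : tr J F - Q = Polynomial.X ^ m * tr (J - m) δ := by
    ext k
    have h3 := congrArg (coeff (Finsupp.single () k)) hδ
    rw [map_sub, coeff_ps, X_pow_eq, coeff_monomial_mul, ← Finsupp.single_tsub] at h3
    simp only [Finsupp.single_le_iff, Finsupp.single_eq_same, one_mul] at h3
    rw [Polynomial.coeff_sub, Polynomial.coeff_X_pow_mul', coeff_tr, coeff_tr]
    by_cases h4 : k < J
    · rw [if_pos h4, h3]
      split_ifs with h5 h6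
      · rfl
      · omega
      · rfl
    · rw [if_neg h4, hQ k (by omega), if_pos (by omega), if_neg (by omega), sub_zero]
  rw [← map_sub, h2, map_mul, map_pow, Polynomial.aeval_X, norm_mul, norm_pow, mul_comm]
  refine mul_le_mul_of_nonneg_right (h1 N _ (le_trans ?_ hJ) s hs) (by positivity)
  exact_mod_cast Nat.sub_le J m

theorem coeff_subst_ps {σ 𝕜 : Type*} [Fintype σ] [NontriviallyNormedField 𝕜]
    {g : σ → Polynomial 𝕜} (hg : ∀ i, (g i).coeff 0 = 0) (c : MvPowerSeries σ 𝕜) (n : ℕ) :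
    coeff (Finsupp.single () n) (subst (fun i => ps (g i)) c) =
      ∑ μ ∈ (Finsupp.finite_of_degree_lt (σ := σ) (n + 1)).toFinset,
        coeff μ c * (μ.prod fun i e => g i ^ e).coeff n := by
  rw [← coeff_aeval_trunc hg c (lt_add_one n), truncTotal, truncFinset_apply, map_sum,
    Polynomial.finsetSum_coeff]
  refine Finset.sum_congr rfl fun μ _ => ?_
  rw [MvPolynomial.aeval_monomial, Polynomial.algebraMap_apply, Polynomial.coeff_C_mul]
  rfl

variable {ι κ : Type*} [Fintype ι] [Fintype κ] [DecidableEq ι] [DecidableEq κ]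

theorem subst_pderiv_chart (l : ι → ℝ) {γ : Option (ι ⊕ κ) → MvPowerSeries Unit ℝ}
    (hγ : ∀ i, constantCoeff (γ i) = 0) (F : MvPowerSeries (ι ⊕ κ) ℝ) (i : ι ⊕ κ) :
    subst γ (pderiv ℝ (some i) (subst (chart l) F)) =
      subst (fun i => subst γ (chart l i)) (pderiv ℝ i F) * γ none ^ oa ι κ i := by
  have hs := hasSubst_of_constantCoeff_zero hγ
  have h1 : ∀ k, pderiv ℝ (some i) (chart l k) = if k = i then X none ^ oa ι κ i else 0 := by
    rintro (j | k) <;> cases i <;> simp [chart, oa, pderiv_X, Pi.single_apply, pderiv_C]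
  rw [chain (const_chart l)]
  simp only [h1, mul_ite, mul_zero, Finset.sum_ite_eq', Finset.mem_univ, if_true]
  rw [subst_mul hs, subst_pow hs, subst_X hs,
    subst_comp_subst_apply (hasSubst_of_constantCoeff_zero (const_chart l)) hs]

theorem Seq.exists_crit {f : (ι → ℝ) → Pt ι κ → ℂ} {r w1 C : ℝ} (h : Seq (uni f) r w1 C)
    (hf : Fails f) : ∃ (l : ι → ℝ) (p : ℕ) (γ : Option (ι ⊕ κ) → MvPowerSeries Unit ℝ),
      ‖l‖ = 1 ∧ p ≠ 0 ∧ Arc none p (17 / 20) γ ∧
      ∀ i, subst (fun i => subst γ (chart l i)) (pderiv ℝ i (fh f)) = 0 := by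
  obtain ⟨l, hl, h1⟩ := h.exists_dir hf
  have hF := h.chart_gev (l := l) fun j => (norm_le_pi_norm l j).trans hl.le
  obtain ⟨p, γ, hp, hγ, h2⟩ := exists_arc (o := (none : Option (ι ⊕ κ))) (ρ0 := 17 / 20)
    (Set.finite_range fun i => pderiv ℝ (some i) (subst (chart l) (fh f)))
    (by rintro _ ⟨i, rfl⟩; exact pderiv_mem_Gev (by simp) hF) fun N => by
      obtain ⟨p, γ, hp, hγ, h2⟩ := h.approx_arc (Nat.succ_ne_zero N) (h1 _) (17 / 20)
      refine ⟨p, γ, hp, hγ, ?_⟩
      rintro _ ⟨i, rfl⟩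
      rw [subst_pderiv_chart l hγ.zero]
      exact ((pow_dvd_pow _ (Nat.mul_le_mul_right _ (Nat.le_succ N))).trans (h2 i)).mul_right _
  refine ⟨l, p, γ, hl, hp, hγ, fun i => ?_⟩
  have h3 := h2 _ ⟨i, rfl⟩
  rw [subst_pderiv_chart l hγ.zero, hγ.ho] at h3
  exact (mul_eq_zero.1 h3).resolve_right
    (pow_ne_zero _ (pow_ne_zero _ (nonZeroDivisors.ne_zero X_mem_nonzeroDivisors)))

theorem Seq.arcData {f : (ι → ℝ) → Pt ι κ → ℂ} {r w1 C : ℝ} (h : Seq (uni f) r w1 C)
    (hf : Fails f) : ∃ q U g, ArcData f q U g := by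
  obtain ⟨l, p, γ, hl, hp, hγ, hcrit⟩ := h.exists_crit hf
  set A : ι ⊕ κ → MvPowerSeries Unit ℝ := fun i => subst γ (chart l i) with hA
  have hAG : ∀ i, A i ∈ Gev ℝ () p (17 / 20) := fun i => hγ.subst_mem hp (chart_mem l i _)
  have hA0 : ∀ i, constantCoeff (A i) = 0 := fun i =>
    (constantCoeff_subst' hγ.zero _).trans (const_chart l i)
  have hAl : ∀ j, A (Sum.inl j) =
      X () ^ p * (MvPowerSeries.C (l j) + γ (some (Sum.inl j))) := fun j => by
    simp only [hA, chart, Sum.elim_inl]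
    rw [subst_mul hγ.hs, subst_add hγ.hs, subst_C, subst_X hγ.hs, subst_X hγ.hs, hγ.ho]
  let J : ℕ → ℕ := fun N => 11 * p * N / 20 + 1
  let U : ι → Polynomial ℝ := fun j => tr (p + 1) (MvPowerSeries.C (l j) + γ (some (Sum.inl j)))
  have hU : ∀ j, (U j).coeff 0 = l j := fun j => by
    simp [U, coeff_tr, hγ.zero]
  refine ⟨p, U, fun N s => spl ι κ fun i => Polynomial.aeval s (tr (J N + 1) (A i)),
    Nat.pos_of_ne_zero hp, fun j => ?_, ?_, fun N => ?_, ?_, Eventually.of_forall fun N => ?_⟩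
  · rw [hU]
    exact (norm_le_pi_norm l j).trans hl.le
  · by_contra! h1
    refine ((pi_norm_lt_iff one_pos).2 fun j => ?_).ne hl
    exact lt_of_le_of_ne ((norm_le_pi_norm l j).trans hl.le) (hU j ▸ h1 j)
  · exact (spl ι κ).differentiable.comp
      (differentiable_pi.2 fun i => Polynomial.differentiable_aeval _)
  · choose C1 hC1 h1 using fun j => gev_small' hp (hAG (Sum.inl j)) (m := 2 * p + 1)
      (Q := Polynomial.X ^ p * U j) (fun k hk => by
        rw [Polynomial.coeff_X_pow_mul', if_pos (by omega), coeff_tr, if_neg (by omega)]) (by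
        have h1 : ps (Polynomial.X ^ p * U j) = X () ^ p * ps (U j) := by
          simp only [ps, Polynomial.coe_mul, Polynomial.coe_pow, Polynomial.coe_X]
          rfl
        rw [hAl, h1, ← mul_sub, show 2 * p + 1 = p + (p + 1) by ring, pow_add]
        exact mul_dvd_mul_left _ (dvd_sub_comm.1 (dvd_ps_tr_sub _ _)))
    choose C2 hC2 h2 using fun k => gev_small' hp (hAG (Sum.inr k)) (m := 1) (Q := 0)
      (fun k _ => by simp) (by simpa [ps] using X_dvd_of_const (hA0 _))
    have h3 := Finset.sum_nonneg (s := Finset.univ) fun j _ => hC1 j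
    have h4 := Finset.sum_nonneg (s := Finset.univ) fun j _ => hC2 j
    refine ⟨∑ j, C1 j + ∑ k, C2 k, ?_⟩
    filter_upwards [eventually_ge_atTop 200] with N hN s hs
    have h5 : 200 * p ≤ N * p := Nat.mul_le_mul_right _ hN
    have h6 : 11 * p * N = 11 * (N * p) := by ring
    have h7 : 2 * p + 1 ≤ J N + 1 := by
      simp only [J]
      omega
    have h8 : ((J N + 1 : ℕ) : ℝ) ≤ 14 / 25 * p * N := by
      have h9 : 25 * (J N + 1) ≤ 14 * (N * p) := by
        simp only [J]
        omega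
      have h10 : (25 : ℝ) * ((J N + 1 : ℕ) : ℝ) ≤ 14 * (N * p) := by exact_mod_cast h9
      linarith
    refine ⟨fun j => ?_, (pi_norm_le_iff_of_nonneg (by positivity)).2 fun k => ?_⟩
    · have h9 := h1 j N _ h7 h8 s hs
      rw [map_mul, map_pow, Polynomial.aeval_X] at h9
      refine h9.trans (mul_le_mul_of_nonneg_right ?_ (by positivity))
      linarith [Finset.single_le_sum (fun j _ => hC1 j) (Finset.mem_univ j)]
    · have h9 := h2 k N _ (by omega) h8 s hs
      rw [map_zero, sub_zero, pow_one] at h9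
      refine h9.trans (mul_le_mul_of_nonneg_right ?_ (by positivity))
      linarith [Finset.single_le_sum (fun j _ => hC2 j) (Finset.mem_univ k)]
  · set P : ι ⊕ κ → Polynomial ℝ := fun i => tr (J N + 1) (A i) with hP
    have hP0 : ∀ i, (P i).coeff 0 = 0 := fun i => by simp [hP, coeff_tr, hA0]
    set Pc : ι ⊕ κ → Polynomial ℂ := fun i => (P i).map (algebraMap ℝ ℂ) with hPc
    have hPc0 : ∀ i, (Pc i).coeff 0 = 0 := fun i => by simp [hPc, hP0]
    refine ⟨2 * J N + 1, fun w n => coeff (Finsupp.single () n)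
      (subst (fun i => ps (Pc i)) (tay (uni f w))), by simp only [J]; omega, fun n h1 h2 => ?_, ?_⟩
    · have h3 := X_pow_dvd_unit.1 (dvd_of_critical hA0 (fun i => (const_ps _).trans (hP0 i))
        (fun i => dvd_ps_tr_sub (J N + 1) (A i)) hcrit) n (by omega)
      rw [map_sub, coeff_eq_zero_of_critical hA0 hcrit h1, sub_zero, coeff_subst_ps hP0] at h3
      have h4 := congrArg (fun x : ℝ => (x : ℂ)) h3
      simp only [Complex.ofReal_sum, Complex.ofReal_mul, Complex.ofReal_zero] at h4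
      simp only [coeff_subst_ps hPc0]
      rw [← h4]
      refine tendsto_finsetSum _ fun μ _ => ?_
      have h5 : ((coeff μ (fh f) : ℝ) : ℂ) = coeff μ (lim (uni f)) :=
        Complex.ext (Complex.ofReal_re _) (by rw [h.lim_im, Complex.ofReal_im])
      have h6 : (μ.prod fun i e => Pc i ^ e) = (μ.prod fun i e => P i ^ e).map (algebraMap ℝ ℂ) := by
        simp only [Finsupp.prod, Polynomial.map_prod, Polynomial.map_pow, hPc]
      rw [h5, h6, Polynomial.coeff_map]
      exact ((h.tendsto_coeff μ).comp tendsto_natCast_atTop_atTop).mul_const _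
    · filter_upwards [tendsto_natCast_atTop_atTop.eventually (eventually_ge_atTop w1)] with w hw
      have h1 := (h.spec hw).2.1.jet hPc0 (2 * J N + 1 + 1)
      simpa only [uni, hPc, Polynomial.eval_map_algebraMap] using h1

/-- If no polynomial lower bound for the gradient holds, there is a real Gevrey critical arc. -/
theorem arcData {ι κ : Type*} [Fintype ι] [Fintype κ] [DecidableEq ι]
    {f : (ι → ℝ) → Pt ι κ → ℂ} {β K r w0 C : ℝ} {B : ℕ} (h : SeqData f β K r w0 C B)
    (hf : Fails f) : ∃ q U g, ArcData f q U g := by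
  classical
  obtain ⟨w1, C', h1⟩ := exists_seq h
  exact h1.arcData hf

end Vale.Agent.P218GV
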