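import Vale.Agent.P218GV.GV1

/-! Gevrey weights and the Gevrey algebra. -/

open MvPowerSeries Filter Topology
open scoped ENNReal

namespace Vale.Agent.P218GV

variable {σ τ : Type*} {𝕜 : Type*} [NormedField 𝕜]

/-- The Gevrey weight: the infimum over `X = exp L ≥ exp a` of `exp (ρ (X - exp a)) X ^ (-x)`. -/
noncomputable def om (ρ a x : ℝ) : ℝ≥0∞ :=
  ⨅ L : Set.Ici a, ENNReal.ofReal (Real.exp (ρ * (Real.exp L - Real.exp a) - x * L))

theorem om_le {ρ a x L : ℝ} (hL : a ≤ L) :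
    om ρ a x ≤ ENNReal.ofReal (Real.exp (ρ * (Real.exp L - Real.exp a) - x * L)) :=
  iInf_le (fun L : Set.Ici a =>
    ENNReal.ofReal (Real.exp (ρ * (Real.exp L - Real.exp a) - x * L))) ⟨L, hL⟩

theorem le_om {ρ a x : ℝ} {c : ℝ≥0∞} (h : ∀ L, a ≤ L →
    c ≤ ENNReal.ofReal (Real.exp (ρ * (Real.exp L - Real.exp a) - x * L))) : c ≤ om ρ a x :=
  le_iInf fun L => h L L.2

theorem om_le_self (ρ a x : ℝ) : om ρ a x ≤ ENNReal.ofReal (Real.exp (-(x * a))) := by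
  simpa using om_le (ρ := ρ) (x := x) (le_refl a)

theorem om_ne_top (ρ a x : ℝ) : om ρ a x ≠ ∞ :=
  ne_top_of_le_ne_top ENNReal.ofReal_ne_top (om_le_self ρ a x)

theorem om_zero {ρ : ℝ} (hρ : 0 ≤ ρ) (a : ℝ) : om ρ a 0 = 1 := by
  refine le_antisymm (by simpa using om_le_self ρ a 0) (le_om fun L hL => ?_)
  rw [ENNReal.one_le_ofReal, Real.one_le_exp_iff]
  have := Real.exp_le_exp.2 hL
  nlinarith

theorem om_add {ρ a x y : ℝ} (hρ : 0 ≤ ρ) (hx : 0 ≤ x) (hy : 0 ≤ y) :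
    om ρ a (x + y) ≤ om ρ a x * om ρ a y := by
  refine ENNReal.le_iInf_mul_iInf ⟨⟨a, le_refl a⟩, ENNReal.ofReal_ne_top⟩
    ⟨⟨a, le_refl a⟩, ENNReal.ofReal_ne_top⟩ ?_
  rintro ⟨L, hL⟩ ⟨M, hM⟩
  have hL' := Real.exp_le_exp.2 (show a ≤ L from hL)
  have hM' := Real.exp_le_exp.2 (show a ≤ M from hM)
  rw [← ENNReal.ofReal_mul (Real.exp_pos _).le, ← Real.exp_add]
  rcases le_total L M with h | h
  · refine (om_le hM).trans (ENNReal.ofReal_le_ofReal (Real.exp_le_exp.2 ?_))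
    have h1 := mul_le_mul_of_nonneg_left h hx
    have h2 := mul_nonneg hρ (sub_nonneg.2 hL')
    simp only
    linarith
  · refine (om_le hL).trans (ENNReal.ofReal_le_ofReal (Real.exp_le_exp.2 ?_))
    have h1 := mul_le_mul_of_nonneg_left h hy
    have h2 := mul_nonneg hρ (sub_nonneg.2 hM')
    simp only
    linarith

theorem om_anti {ρ a a' x : ℝ} (hρ : 0 ≤ ρ) (hx : 0 ≤ x) (h : a ≤ a') : om ρ a' x ≤ om ρ a x := by
  refine le_om fun L hL => ?_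
  have h0 := Real.exp_le_exp.2 h
  rcases le_total a' L with h1 | h1
  · refine (om_le h1).trans (ENNReal.ofReal_le_ofReal (Real.exp_le_exp.2 ?_))
    have := mul_le_mul_of_nonneg_left h0 hρ
    linarith
  · refine (om_le_self ρ a' x).trans (ENNReal.ofReal_le_ofReal (Real.exp_le_exp.2 ?_))
    have h2 := mul_le_mul_of_nonneg_left h1 hx
    have h3 := mul_nonneg hρ (sub_nonneg.2 (Real.exp_le_exp.2 hL))
    linarith

theorem om_shift {ρ ρ' a η : ℝ} (ha : 0 ≤ a) (h : ρ' < ρ) (hη : η ≤ 1) :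
    ∃ C : ℝ, ∀ x, om ρ' a x ≤ ENNReal.ofReal C * om ρ a (x + η) := by
  refine ⟨Real.exp ((ρ - ρ') * Real.exp a - Real.log (ρ - ρ') - 1), fun x => ?_⟩
  unfold om
  rw [ENNReal.mul_iInf_of_ne (by simpa using Real.exp_pos _) ENNReal.ofReal_ne_top]
  refine le_iInf fun L => (iInf_le _ L).trans ?_
  rw [← ENNReal.ofReal_mul (Real.exp_pos _).le, ← Real.exp_add]
  refine ENNReal.ofReal_le_ofReal (Real.exp_le_exp.2 ?_)
  have hd : 0 < ρ - ρ' := sub_pos.2 h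
  have hL : (0 : ℝ) ≤ L := ha.trans L.2
  have h1 := Real.log_le_sub_one_of_pos (mul_pos hd (Real.exp_pos (L : ℝ)))
  rw [Real.log_mul hd.ne' (Real.exp_pos _).ne', Real.log_exp] at h1
  have h2 := mul_le_mul_of_nonneg_right hη hL
  nlinarith

/-- Total degree in the variables other than `o`. -/
noncomputable def dy (o : σ) (μ : σ →₀ ℕ) : ℕ := (μ.erase o).degree

theorem dy_add (o : σ) (μ ν : σ →₀ ℕ) : dy o (μ + ν) = dy o μ + dy o ν := by
  simp [dy, Finsupp.erase_add]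

@[simp] theorem dy_zero (o : σ) : dy o 0 = 0 := by simp [dy]

@[simp] theorem dy_single (o : σ) (n : ℕ) : dy o (Finsupp.single o n) = 0 := by simp [dy]

theorem dy_single_ne {o i : σ} (h : i ≠ o) (n : ℕ) : dy o (Finsupp.single i n) = n := by
  simp [dy, Finsupp.erase_single_ne h.symm]

theorem degree_eq_add_dy (o : σ) (μ : σ →₀ ℕ) : μ.degree = μ o + dy o μ := by
  conv_lhs => rw [← Finsupp.single_add_erase o μ]
  simp [dy]

/-- The weight: Gevrey in the variable `o`, geometric in the other variables. -/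
noncomputable def wt (o : σ) (p : ℕ) (ρ a : ℝ) (μ : σ →₀ ℕ) : ℝ≥0∞ :=
  om ρ a (μ o / p) * ENNReal.ofReal (Real.exp (-a)) ^ dy o μ

theorem wt_subMul (o : σ) (p : ℕ) {ρ : ℝ} (hρ : 0 ≤ ρ) (a : ℝ) : SubMul (wt o p ρ a) := by
  intro μ ν
  unfold wt
  rw [dy_add, pow_add, Finsupp.add_apply, Nat.cast_add, add_div]
  calc _ ≤ (om ρ a (μ o / p) * om ρ a (ν o / p)) * _ :=
        mul_le_mul_left (om_add hρ (by positivity) (by positivity)) _
    _ = _ := by ring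

theorem wt_zero (o : σ) (p : ℕ) {ρ : ℝ} (hρ : 0 ≤ ρ) (a : ℝ) : wt o p ρ a 0 = 1 := by
  simp [wt, om_zero hρ]

theorem wt_ne_top (o : σ) (p : ℕ) (ρ a : ℝ) (μ : σ →₀ ℕ) : wt o p ρ a μ ≠ ∞ :=
  ENNReal.mul_ne_top (om_ne_top _ _ _) (ENNReal.pow_ne_top ENNReal.ofReal_ne_top)

theorem wt_anti (o : σ) (p : ℕ) {ρ a a' : ℝ} (hρ : 0 ≤ ρ) (h : a ≤ a') (μ : σ →₀ ℕ) :
    wt o p ρ a' μ ≤ wt o p ρ a μ := by
  unfold wt
  refine mul_le_mul' (om_anti hρ (by positivity) h) (pow_le_pow_left' ?_ _)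
  exact ENNReal.ofReal_le_ofReal (Real.exp_le_exp.2 (by linarith))

theorem wt_single (o : σ) (p : ℕ) (ρ a : ℝ) (n : ℕ) :
    wt o p ρ a (Finsupp.single o n) = om ρ a (n / p) := by
  simp [wt]

theorem wt_single_ne {o i : σ} (h : i ≠ o) (p : ℕ) {ρ : ℝ} (hρ : 0 ≤ ρ) (a : ℝ) (n : ℕ) :
    wt o p ρ a (Finsupp.single i n) = ENNReal.ofReal (Real.exp (-a)) ^ n := by
  simp [wt, dy_single_ne h, Finsupp.single_eq_of_ne h.symm, om_zero hρ]

theorem tendsto_ofReal_exp {c : ℝ} (hc : 0 < c) :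
    Tendsto (fun a : ℝ => ENNReal.ofReal (Real.exp (-(c * a)))) atTop (𝓝 0) := by
  have h1 : Tendsto (fun a : ℝ => -(c * a)) atTop atBot :=
    tendsto_neg_atTop_atBot.comp (tendsto_id.const_mul_atTop hc)
  simpa using ENNReal.tendsto_ofReal (Real.tendsto_exp_atBot.comp h1)

theorem tendsto_wt (o : σ) {p : ℕ} (hp : p ≠ 0) (ρ : ℝ) {μ : σ →₀ ℕ} (hμ : μ ≠ 0) :
    Tendsto (fun a => wt o p ρ a μ) atTop (𝓝 0) := by
  have hp' : (0 : ℝ) < p := by positivity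
  have hc : (0 : ℝ) < μ o / p + dy o μ := by
    have h1 : 0 < μ o + dy o μ := by
      rw [← degree_eq_add_dy]
      exact Nat.pos_of_ne_zero fun h => hμ ((Finsupp.degree_eq_zero_iff _).1 h)
    rcases Nat.eq_zero_or_pos (μ o) with h | h
    · have : 0 < dy o μ := by omega
      positivity
    · positivity
  refine tendsto_of_tendsto_of_tendsto_of_le_of_le tendsto_const_nhds (tendsto_ofReal_exp hc)
    (fun _ => zero_le) fun a => ?_
  unfold wt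
  refine (mul_le_mul_left (om_le_self _ _ _) _).trans (le_of_eq ?_)
  rw [← ENNReal.ofReal_pow (Real.exp_pos _).le, ← ENNReal.ofReal_mul (Real.exp_pos _).le,
    ← Real.exp_nat_mul, ← Real.exp_add]
  congr 2
  ring

/-- Power series that are Gevrey of order `1/p` and type `ρ0` in the variable `o` and convergent in
the other variables. -/
def IsGev (o : σ) (p : ℕ) (ρ0 : ℝ) (F : MvPowerSeries σ 𝕜) : Prop :=
  ∀ ρ, 0 < ρ → ρ < ρ0 → ∀ᶠ a in atTop, wn (wt o p ρ a) F ≠ ∞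

theorem isGev_of {o : σ} {p : ℕ} {ρ0 : ℝ} {F : MvPowerSeries σ 𝕜}
    (h : ∀ ρ, 0 < ρ → ρ < ρ0 → ∃ a, wn (wt o p ρ a) F ≠ ∞) : IsGev o p ρ0 F := by
  intro ρ h1 h2
  obtain ⟨a, ha⟩ := h ρ h1 h2
  filter_upwards [eventually_ge_atTop a] with a' ha'
  exact ne_top_of_le_ne_top ha (wn_mono (wt_anti o p h1.le ha') F)

theorem isGev_monomial (o : σ) (p : ℕ) (ρ0 : ℝ) (μ : σ →₀ ℕ) (c : 𝕜) :
    IsGev o p ρ0 (monomial μ c) := fun ρ _ _ => Eventually.of_forall fun a => by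
  rw [wn_monomial]
  exact ENNReal.mul_ne_top enorm_ne_top (wt_ne_top _ _ _ _ _)

/-- The Gevrey algebra. -/
def Gev (𝕜 : Type*) [NormedField 𝕜] (o : σ) (p : ℕ) (ρ0 : ℝ) :
    Subalgebra 𝕜 (MvPowerSeries σ 𝕜) where
  carrier := {F | IsGev o p ρ0 F}
  mul_mem' := by
    intro F G hF hG ρ h1 h2
    filter_upwards [hF ρ h1 h2, hG ρ h1 h2] with a h3 h4
    exact ne_top_of_le_ne_top (ENNReal.mul_ne_top h3 h4) (wn_mul (wt_subMul o p h1.le a) F G)
  add_mem' := by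
    intro F G hF hG ρ h1 h2
    filter_upwards [hF ρ h1 h2, hG ρ h1 h2] with a h3 h4
    exact ne_top_of_le_ne_top (ENNReal.add_ne_top.2 ⟨h3, h4⟩) (wn_add _ F G)
  algebraMap_mem' := fun c => by
    rw [← c_eq_algebraMap, ← monomial_zero_eq_C_apply]
    exact isGev_monomial o p ρ0 0 c

variable {o : σ} {p : ℕ} {ρ0 : ℝ}

theorem mem_Gev {F : MvPowerSeries σ 𝕜} : F ∈ Gev 𝕜 o p ρ0 ↔ IsGev o p ρ0 F := Iff.rfl

theorem X_mem_Gev (i : σ) : (X i : MvPowerSeries σ 𝕜) ∈ Gev 𝕜 o p ρ0 :=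
  isGev_monomial o p ρ0 _ _

theorem C_mem_Gev (c : 𝕜) : (C c : MvPowerSeries σ 𝕜) ∈ Gev 𝕜 o p ρ0 := by
  rw [c_eq_algebraMap]
  exact (Gev 𝕜 o p ρ0).algebraMap_mem c

theorem coe_mem_Gev (f : MvPolynomial σ 𝕜) : (f : MvPowerSeries σ 𝕜) ∈ Gev 𝕜 o p ρ0 := by
  induction f using MvPolynomial.induction_on with
  | C a => simpa using C_mem_Gev a
  | add P Q hP hQ => simpa using add_mem hP hQ
  | mul_X P i hP => simpa using mul_mem hP (X_mem_Gev i)

theorem mem_Gev_of_coeff {F G : MvPowerSeries σ 𝕜} (hG : G ∈ Gev 𝕜 o p ρ0)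
    (h : ∀ μ, ‖coeff μ F‖ₑ ≤ ‖coeff μ G‖ₑ) : F ∈ Gev 𝕜 o p ρ0 := fun ρ h1 h2 =>
  (hG ρ h1 h2).mono fun _ ha => ne_top_of_le_ne_top ha (wn_le_of_coeff h)

/-- Elements without constant term have small norm. -/
theorem tendsto_wn_wt (hp : p ≠ 0) {F : MvPowerSeries σ 𝕜} (hF : F ∈ Gev 𝕜 o p ρ0)
    (h0 : constantCoeff F = 0) {ρ : ℝ} (h1 : 0 < ρ) (h2 : ρ < ρ0) :
    Tendsto (fun a => wn (wt o p ρ a) F) atTop (𝓝 0) := by
  obtain ⟨a0, ha0⟩ := (hF ρ h1 h2).exists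
  refine tendsto_wn_zero ha0 ?_ fun μ hμ => tendsto_wt o hp ρ ?_
  · filter_upwards [eventually_ge_atTop a0] with a ha using wt_anti o p h1.le ha
  · rintro rfl
    exact hμ (by simpa using h0)

/-- Division by the Gevrey variable. -/
theorem mem_Gev_of_X_mul (hp : p ≠ 0) {F : MvPowerSeries σ 𝕜}
    (hF : X o * F ∈ Gev 𝕜 o p ρ0) : F ∈ Gev 𝕜 o p ρ0 := by
  intro ρ h1 h2
  have h3 : ρ < (ρ + ρ0) / 2 := by linarith
  filter_upwards [hF ((ρ + ρ0) / 2) (by linarith) (by linarith), eventually_ge_atTop 0]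
    with a h4 ha
  have hp1 : (1 : ℝ) / p ≤ 1 := by
    rw [div_le_one (by positivity)]
    exact_mod_cast Nat.pos_of_ne_zero hp
  obtain ⟨c, hc⟩ := om_shift ha h3 hp1
  refine ne_top_of_le_ne_top (ENNReal.mul_ne_top (ENNReal.ofReal_ne_top (r := c)) h4) ?_
  unfold wn
  rw [← ENNReal.tsum_mul_left]
  refine le_trans ?_ (ENNReal.tsum_comp_le_tsum_of_injective
    (add_right_injective (Finsupp.single o 1)) _)
  refine ENNReal.tsum_le_tsum fun μ => ?_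
  have h5 : coeff (Finsupp.single o 1 + μ) (X o * F) = coeff μ F := by
    rw [X, coeff_add_monomial_mul, one_mul]
  simp only [h5]
  have h6 : wt o p ρ a μ ≤ ENNReal.ofReal c * wt o p ((ρ + ρ0) / 2) a (Finsupp.single o 1 + μ) := by
    unfold wt
    rw [dy_add, dy_single, zero_add, ← mul_assoc]
    refine mul_le_mul_left ((hc _).trans (le_of_eq ?_)) _
    congr 2
    simp only [Finsupp.coe_add, Pi.add_apply, Finsupp.single_eq_same]
    push_cast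
    ring
  calc ‖coeff μ F‖ₑ * wt o p ρ a μ ≤ ‖coeff μ F‖ₑ * _ := mul_le_mul_right h6 _
    _ = _ := by ring

theorem mem_Gev_of_X_pow_mul (hp : p ≠ 0) (n : ℕ) {F : MvPowerSeries σ 𝕜}
    (hF : X o ^ n * F ∈ Gev 𝕜 o p ρ0) : F ∈ Gev 𝕜 o p ρ0 := by
  induction n with
  | zero => simpa using hF
  | succ n ih =>
    rw [pow_succ', mul_assoc] at hF
    exact ih (mem_Gev_of_X_mul hp hF)

/-- Substitution preserves the Gevrey class. -/
theorem subst_mem_Gev [Finite σ] {o' : τ} {q : ℕ} (hp : p ≠ 0) (hq : q ≠ 0)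
    {a : σ → MvPowerSeries τ 𝕜} (ho : a o = X o' ^ q)
    (ha : ∀ i, i ≠ o → a i ∈ Gev 𝕜 o' (p * q) ρ0) (ha0 : ∀ i, constantCoeff (a i) = 0)
    {F : MvPowerSeries σ 𝕜} (hF : F ∈ Gev 𝕜 o p ρ0) : subst a F ∈ Gev 𝕜 o' (p * q) ρ0 := by
  intro ρ h1 h2
  obtain ⟨a1, ha1⟩ := (hF ρ h1 h2).exists
  have h3 : ∀ᶠ b in atTop, ∀ i, i ≠ o →
      wn (wt o' (p * q) ρ b) (a i) ≤ ENNReal.ofReal (Real.exp (-a1)) := by
    refine eventually_all.2 fun i => ?_
    by_cases hi : i = o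
    · simp [hi]
    · have := (tendsto_wn_wt (mul_ne_zero hp hq) (ha i hi) (ha0 i) h1 h2).eventually
        (ge_mem_nhds (ENNReal.ofReal_pos.2 (Real.exp_pos (-a1))))
      exact this.mono fun b hb _ => hb
  filter_upwards [h3, eventually_ge_atTop a1] with b hb hb1
  refine ne_top_of_le_ne_top ha1 (wn_subst (hasSubst_of_constantCoeff_zero ha0) (fun μ => ?_) F)
  have hw := wt_subMul o' (p * q) h1.le b
  have hw0 := (wt_zero o' (p * q) h1.le b).le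
  rw [← Finsupp.mul_prod_erase' μ o _ (by simp)]
  refine (wn_mul hw _ _).trans (mul_le_mul' ?_ ?_)
  · rw [ho, ← pow_mul, wn_X_pow, wt_single]
    refine le_trans (le_of_eq ?_) (om_anti h1.le (by positivity) hb1)
    congr 1
    have : (q : ℝ) ≠ 0 := by positivity
    have : (p : ℝ) ≠ 0 := by positivity
    push_cast
    field_simp
  · rw [Finsupp.prod, dy, Finsupp.degree_apply, ← Finset.prod_pow_eq_pow_sum]
    refine (wn_prod hw hw0 _ _).trans (Finset.prod_le_prod' fun i hi => ?_)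
    refine (wn_pow hw hw0 _ _).trans (pow_le_pow_left' (hb i ?_) _)
    rintro rfl
    simp at hi

end Vale.Agent.P218GV
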