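import Vale.Agent.P218GV.GV2

/-! Weierstrass division in the Gevrey algebra. -/

open MvPowerSeries Filter Topology
open scoped ENNReal

namespace Vale.Agent.P218GV

variable {σ τ : Type*} {𝕜 : Type*} [NormedField 𝕜]

/-- Quotient of the division by `X j ^ d`. -/
noncomputable def tl (j : σ) (d : ℕ) (H : MvPowerSeries σ 𝕜) : MvPowerSeries σ 𝕜 :=
  fun μ => coeff (Finsupp.single j d + μ) H

theorem coeff_tl (j : σ) (d : ℕ) (H : MvPowerSeries σ 𝕜) (μ : σ →₀ ℕ) :
    coeff μ (tl j d H) = coeff (Finsupp.single j d + μ) H := rfl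

theorem tl_sub (j : σ) (d : ℕ) (F G : MvPowerSeries σ 𝕜) :
    tl j d (F - G) = tl j d F - tl j d G := by
  ext μ
  simp [coeff_tl]

theorem tl_X_pow_mul (j : σ) (d : ℕ) (F : MvPowerSeries σ 𝕜) : tl j d (X j ^ d * F) = F := by
  ext μ
  rw [coeff_tl, X_pow_eq, coeff_add_monomial_mul, one_mul]

theorem coeff_eq_tl {j : σ} {d : ℕ} (H : MvPowerSeries σ 𝕜) {μ : σ →₀ ℕ} (h : d ≤ μ j) :
    coeff μ H = coeff (μ - Finsupp.single j d) (tl j d H) := by
  rw [coeff_tl, add_tsub_cancel_of_le (Finsupp.single_le_iff.2 h)]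

theorem coeff_X_pow_mul_tl (j : σ) (d : ℕ) (H : MvPowerSeries σ 𝕜) (μ : σ →₀ ℕ) :
    coeff μ (X j ^ d * tl j d H) = if d ≤ μ j then coeff μ H else 0 := by
  rw [X_pow_eq, coeff_monomial_mul]
  simp only [Finsupp.single_le_iff, one_mul]
  split_ifs with h
  · exact (coeff_eq_tl H h).symm
  · rfl

theorem wn_tl {w : (σ →₀ ℕ) → ℝ≥0∞} {j : σ} {d : ℕ} {r : ℝ≥0∞}
    (hw : ∀ μ, r * w μ ≤ w (Finsupp.single j d + μ)) (H : MvPowerSeries σ 𝕜) :
    r * wn w (tl j d H) ≤ wn w H := by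
  unfold wn
  rw [← ENNReal.tsum_mul_left]
  refine le_trans ?_ (ENNReal.tsum_comp_le_tsum_of_injective
    (add_right_injective (Finsupp.single j d)) _)
  refine ENNReal.tsum_le_tsum fun μ => ?_
  rw [coeff_tl, mul_left_comm]
  exact mul_le_mul_right (hw μ) _

/-- Vanishing of the coefficients of weighted degree less than `n`. -/
def Ord (ω : σ → ℕ) (n : ℕ) (F : MvPowerSeries σ 𝕜) : Prop :=
  ∀ μ, Finsupp.weight ω μ < n → coeff μ F = 0

theorem Ord.mul {ω : σ → ℕ} {m n : ℕ} {F G : MvPowerSeries σ 𝕜} (hF : Ord ω m F)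
    (hG : Ord ω n G) : Ord ω (m + n) (F * G) := by
  classical
  intro μ hμ
  rw [coeff_mul]
  refine Finset.sum_eq_zero fun p hp => ?_
  rw [← Finset.HasAntidiagonal.mem_antidiagonal.1 hp, map_add] at hμ
  by_cases h : Finsupp.weight ω p.1 < m
  · rw [hF _ h, zero_mul]
  · rw [hG _ (by omega), mul_zero]

theorem Ord.tl {ω : σ → ℕ} {j : σ} (hj : ω j = 1) {d n : ℕ} {F : MvPowerSeries σ 𝕜}
    (hF : Ord ω (n + d) F) : Ord ω n (tl j d F) := by
  intro μ hμ
  rw [coeff_tl]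
  refine hF _ ?_
  rw [map_add, Finsupp.weight_single, hj]
  simp only [smul_eq_mul, mul_one]
  omega

/-- The Picard iteration for the division. -/
noncomputable def qit (j : σ) (d : ℕ) (H E : MvPowerSeries σ 𝕜) : ℕ → MvPowerSeries σ 𝕜
  | 0 => 0
  | k + 1 => tl j d (H - qit j d H E k * E)

theorem qit_ord {ω : σ → ℕ} {j : σ} (hj : ω j = 1) {d : ℕ} (H : MvPowerSeries σ 𝕜)
    {E : MvPowerSeries σ 𝕜} (hE : Ord ω (d + 1) E) (k : ℕ) :
    Ord ω k (qit j d H E (k + 1) - qit j d H E k) := by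
  induction k with
  | zero => intro μ hμ; omega
  | succ k ih =>
    have h1 : qit j d H E (k + 1 + 1) - qit j d H E (k + 1) =
        tl j d ((qit j d H E (k + 1) - qit j d H E k) * (-E)) := by
      conv_lhs => rw [qit]; rhs; rw [qit]
      rw [← tl_sub]
      congr 1
      ring
    rw [h1]
    refine Ord.tl hj ?_
    have h2 : Ord ω (d + 1) (-E) := fun μ hμ => by rw [map_neg, hE μ hμ, neg_zero]
    have h3 := ih.mul h2
    rwa [show k + (d + 1) = k + 1 + d by ring] at h3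

theorem qit_stab {ω : σ → ℕ} {j : σ} (hj : ω j = 1) {d : ℕ} (H : MvPowerSeries σ 𝕜)
    {E : MvPowerSeries σ 𝕜} (hE : Ord ω (d + 1) E) (μ : σ →₀ ℕ) {k : ℕ}
    (hk : Finsupp.weight ω μ + 1 ≤ k) :
    coeff μ (qit j d H E k) = coeff μ (qit j d H E (Finsupp.weight ω μ + 1)) := by
  induction k, hk using Nat.le_induction with
  | base => rfl
  | succ k hk ih =>
    have := qit_ord hj H hE k μ (by omega)
    rw [map_sub, sub_eq_zero] at this
    rw [this, ih]

/-- Formal division with bounds in all suitable norms. -/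
theorem exists_quot {ω : σ → ℕ} {j : σ} (hj : ω j = 1) {d : ℕ} (H : MvPowerSeries σ 𝕜)
    {E : MvPowerSeries σ 𝕜} (hE : Ord ω (d + 1) E) :
    ∃ q, q = tl j d (H - q * E) ∧ ∀ (w : (σ →₀ ℕ) → ℝ≥0∞) (r : ℝ≥0∞), SubMul w → r ≠ 0 → r ≠ ∞ →
      (∀ μ, r * w μ ≤ w (Finsupp.single j d + μ)) → 2 * wn w E ≤ r →
      wn w q ≤ 2 * wn w (tl j d H) := by
  let q : MvPowerSeries σ 𝕜 := fun μ => coeff μ (qit j d H E (Finsupp.weight ω μ + 1))
  have hq : ∀ μ k, Finsupp.weight ω μ + 1 ≤ k → coeff μ (qit j d H E k) = coeff μ q :=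
    fun μ k hk => qit_stab hj H hE μ hk
  refine ⟨q, ?_, fun w r hw hr0 hr1 hr hEr => ?_⟩
  · ext μ
    set k := Finsupp.weight ω μ + 1 with hk
    have h1 : Ord ω k (qit j d H E k - q) := fun ν hν => by
      rw [map_sub, hq ν k hν, sub_self]
    have h2 : Ord ω k (tl j d ((qit j d H E k - q) * E)) := by
      refine Ord.tl hj fun ν hν => (h1.mul hE) ν (by omega)
    have h3 : tl j d (H - q * E) = qit j d H E (k + 1) - -tl j d ((qit j d H E k - q) * E) := by
      have h4 : -tl j d ((qit j d H E k - q) * E) = tl j d (0 - (qit j d H E k - q) * E) := by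
        rw [tl_sub]
        ext ν
        simp [coeff_tl]
      rw [qit, h4, ← tl_sub]
      congr 1
      ring
    rw [h3, map_sub, map_neg, h2 μ (by omega), neg_zero, sub_zero, hq μ (k + 1) (by omega)]
  · refine wn_le_of_eventually (G := qit j d H E) (fun k => ?_) fun μ => ?_
    · induction k with
      | zero => simp [qit]
      | succ k ih =>
        rw [qit, tl_sub, two_mul]
        refine (wn_sub _ _ _).trans (add_le_add le_rfl ?_)
        have h1 := (wn_tl hr (qit j d H E k * E)).trans (wn_mul hw _ _)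
        rw [← ENNReal.mul_le_mul_iff_right hr0 hr1]
        refine h1.trans ((mul_le_mul_left ih _).trans ?_)
        calc 2 * wn w (tl j d H) * wn w E = (2 * wn w E) * wn w (tl j d H) := by ring
          _ ≤ _ := mul_le_mul_left hEr _
    · filter_upwards [eventually_ge_atTop (Finsupp.weight ω μ + 1)] with k hk using hq μ k hk

/-- Two parameter weights. -/
noncomputable def wt2 (o j : σ) (p : ℕ) (ρ a b : ℝ) (μ : σ →₀ ℕ) : ℝ≥0∞ :=
  ENNReal.ofReal (Real.exp (-b)) ^ μ j * wt o p ρ a (μ.erase j)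

theorem wt2_self {o j : σ} (h : j ≠ o) (p : ℕ) (ρ a : ℝ) (μ : σ →₀ ℕ) :
    wt2 o j p ρ a a μ = wt o p ρ a μ := by
  unfold wt2 wt
  conv_rhs => rw [← Finsupp.single_add_erase j μ, dy_add, dy_single_ne h, pow_add]
  rw [Finsupp.add_apply, Finsupp.single_eq_of_ne h.symm, zero_add]
  ring

theorem wt2_subMul (o j : σ) (p : ℕ) {ρ : ℝ} (hρ : 0 ≤ ρ) (a b : ℝ) :
    SubMul (wt2 o j p ρ a b) := by
  intro μ ν
  unfold wt2
  rw [Finsupp.erase_add, Finsupp.add_apply, pow_add]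
  calc _ ≤ _ * (wt o p ρ a (μ.erase j) * wt o p ρ a (ν.erase j)) :=
        mul_le_mul_right (wt_subMul o p hρ a _ _) _
    _ = _ := by ring

theorem wt2_add (o j : σ) (p : ℕ) (ρ a b : ℝ) (d : ℕ) (μ : σ →₀ ℕ) :
    wt2 o j p ρ a b (Finsupp.single j d + μ) =
      ENNReal.ofReal (Real.exp (-b)) ^ d * wt2 o j p ρ a b μ := by
  unfold wt2
  rw [Finsupp.erase_add, Finsupp.erase_single, zero_add, Finsupp.add_apply,
    Finsupp.single_eq_same, pow_add, mul_assoc]

theorem wt2_le {o j : σ} (h : j ≠ o) (p : ℕ) {ρ a b : ℝ} (hρ : 0 ≤ ρ) (hab : b ≤ a)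
    (μ : σ →₀ ℕ) : wt2 o j p ρ a b μ ≤ wt o p ρ b μ := by
  rw [← wt2_self h]
  exact mul_le_mul_right (wt_anti o p hρ hab _) _

theorem le_wt2 {o j : σ} (h : j ≠ o) (p : ℕ) (ρ : ℝ) {a b : ℝ} (hab : b ≤ a)
    (μ : σ →₀ ℕ) : wt o p ρ a μ ≤ wt2 o j p ρ a b μ := by
  rw [← wt2_self h]
  refine mul_le_mul_left (pow_le_pow_left' ?_ _) _
  exact ENNReal.ofReal_le_ofReal (Real.exp_le_exp.2 (by linarith))

variable {o : σ} {p : ℕ} {ρ0 : ℝ}

theorem ofReal_exp_pow_ne_zero (b : ℝ) (d : ℕ) : ENNReal.ofReal (Real.exp (-b)) ^ d ≠ 0 :=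
  pow_ne_zero _ (ENNReal.ofReal_pos.2 (Real.exp_pos _)).ne'

theorem tl_mem_Gev {j : σ} (h : j ≠ o) (d : ℕ) {H : MvPowerSeries σ 𝕜}
    (hH : H ∈ Gev 𝕜 o p ρ0) : tl j d H ∈ Gev 𝕜 o p ρ0 := by
  intro ρ h1 h2
  filter_upwards [hH ρ h1 h2] with a ha
  have h3 := wn_tl (w := wt o p ρ a) (j := j) (d := d) (r := ENNReal.ofReal (Real.exp (-a)) ^ d)
    (fun μ => by rw [← wt2_self h, ← wt2_self h, wt2_add]) H
  intro h4
  rw [h4, ENNReal.mul_top (ofReal_exp_pow_ne_zero a d)] at h3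
  exact ha (top_le_iff.1 h3)

/-- Weierstrass division in the Gevrey algebra, normalised form. -/
theorem wdiv_one (hp : p ≠ 0) {j : σ} (h : j ≠ o) {d : ℕ} {G H : MvPowerSeries σ 𝕜}
    (hG : G ∈ Gev 𝕜 o p ρ0) (hH : H ∈ Gev 𝕜 o p ρ0)
    (h0 : ∀ i < d, coeff (Finsupp.single j i) G = 0) (h1 : coeff (Finsupp.single j d) G = 1) :
    ∃ q ∈ Gev 𝕜 o p ρ0, constantCoeff q = coeff (Finsupp.single j d) H ∧
      ∀ μ, d ≤ μ j → coeff μ (H - q * G) = 0 := by
  classical
  set E := G - X j ^ d with hEdef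
  have hEG : E ∈ Gev 𝕜 o p ρ0 := sub_mem hG (pow_mem (X_mem_Gev j) d)
  have hE0 : ∀ i ≤ d, coeff (Finsupp.single j i) E = 0 := by
    intro i hi
    rw [hEdef, map_sub, coeff_X_pow]
    rcases hi.lt_or_eq with hi | hi
    · rw [h0 i hi, if_neg, sub_zero]
      intro h2
      exact hi.ne (Finsupp.single_injective j h2)
    · rw [hi, h1, if_pos rfl, sub_self]
  let ω : σ → ℕ := fun i => if i = j then 1 else d + 1
  have hj : ω j = 1 := if_pos rfl
  have hE : Ord ω (d + 1) E := by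
    intro μ hμ
    have h2 : μ = Finsupp.single j (μ j) := by
      ext i
      by_cases hi : i = j
      · rw [hi, Finsupp.single_eq_same]
      · rw [Finsupp.single_eq_of_ne hi]
        by_contra h3
        have h4 := Finsupp.le_weight_of_ne_zero' ω h3
        have h5 : ω i = d + 1 := if_neg hi
        omega
    have h3 : Finsupp.weight ω μ = μ j := by
      conv_lhs => rw [h2, Finsupp.weight_single, hj]
      simp
    rw [h2]
    exact hE0 _ (by omega)
  obtain ⟨q, hq1, hq2⟩ := exists_quot hj H hE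
  refine ⟨q, isGev_of fun ρ hρ hρ0 => ?_, ?_, fun μ hμ => ?_⟩
  · have hT := tendsto_wn_wt hp (tl_mem_Gev h d hEG)
      (by rw [← coeff_zero_eq_constantCoeff_apply, coeff_tl, add_zero, hE0 d le_rfl]) hρ hρ0
    obtain ⟨b, hb1, hb2, hb3⟩ := ((hT.eventually (ge_mem_nhds (show (0 : ℝ≥0∞) < 4⁻¹ by simp))).and
      ((hEG ρ hρ hρ0).and (tl_mem_Gev h d hH ρ hρ hρ0))).exists
    set r := ENNReal.ofReal (Real.exp (-b)) ^ d with hr
    have hr0 : r ≠ 0 := ofReal_exp_pow_ne_zero b d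
    have hr1 : r ≠ ∞ := ENNReal.pow_ne_top ENNReal.ofReal_ne_top
    set L := E - X j ^ d * tl j d E with hL
    have hLc : ∀ μ, coeff μ L = if d ≤ μ j then 0 else coeff μ E := by
      intro μ
      rw [hL, map_sub, coeff_X_pow_mul_tl]
      split_ifs <;> simp
    have hL1 : wn (wt o p ρ b) L ≠ ∞ := by
      refine ne_top_of_le_ne_top hb2 (wn_le_of_coeff fun μ => ?_)
      rw [hLc]
      split_ifs <;> simp
    have hT2 : Tendsto (fun a => wn (wt2 o j p ρ a b) L) atTop (𝓝 0) := by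
      refine tendsto_wn_zero hL1 ?_ fun μ hμ => ?_
      · filter_upwards [eventually_ge_atTop b] with a ha using wt2_le h p hρ.le ha
      · have h2 : μ.erase j ≠ 0 := by
          intro h3
          have h4 : μ = Finsupp.single j (μ j) := by
            conv_lhs => rw [← Finsupp.single_add_erase j μ, h3, add_zero]
          rw [hLc] at hμ
          split_ifs at hμ with h5
          · exact hμ rfl
          · exact hμ (by rw [h4]; exact hE0 _ (by omega))
        have := ENNReal.Tendsto.const_mul (a := ENNReal.ofReal (Real.exp (-b)) ^ μ j)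
          (tendsto_wt o hp ρ h2) (Or.inr (ENNReal.pow_ne_top ENNReal.ofReal_ne_top))
        simpa [wt2] using this
    have hr4 : 0 < r * 4⁻¹ := ENNReal.mul_pos hr0 (by simp)
    obtain ⟨a, ha1, ha2⟩ := ((hT2.eventually (ge_mem_nhds hr4)).and (eventually_ge_atTop b)).exists
    have hw := wt2_subMul o j p hρ.le a b
    have h5 : wn (wt2 o j p ρ a b) E ≤ r * 4⁻¹ + r * 4⁻¹ := by
      have h6 : E = L + X j ^ d * tl j d E := by rw [hL, sub_add_cancel]
      conv_lhs => rw [h6]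
      refine (wn_add _ _ _).trans (add_le_add ha1 ((wn_mul hw _ _).trans (mul_le_mul' ?_ ?_)))
      · rw [wn_X_pow, ← add_zero (Finsupp.single j d), wt2_add]
        simp [wt2, wt_zero o p hρ.le, hr]
      · exact (wn_mono (wt2_le h p hρ.le ha2) _).trans hb1
    have h6 : 2 * wn (wt2 o j p ρ a b) E ≤ r := by
      refine (mul_le_mul_right h5 _).trans (le_of_eq ?_)
      have : (4 : ℝ≥0∞) * 4⁻¹ = 1 := ENNReal.mul_inv_cancel (by simp) (by simp)
      calc 2 * (r * 4⁻¹ + r * 4⁻¹) = r * (4 * 4⁻¹) := by ring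
        _ = r := by rw [this, mul_one]
    have h7 := hq2 _ r hw hr0 hr1 (fun μ => (wt2_add o j p ρ a b d μ).ge) h6
    refine ⟨a, ne_top_of_le_ne_top ?_ ((wn_mono (le_wt2 h p ρ ha2) q).trans h7)⟩
    exact ENNReal.mul_ne_top (by simp)
      (ne_top_of_le_ne_top hb3 (wn_mono (wt2_le h p hρ.le ha2) _))
  · have h2 : Ord ω (0 + (d + 1)) (q * E) := Ord.mul (fun μ hμ => by omega) hE
    rw [← coeff_zero_eq_constantCoeff_apply, hq1, coeff_tl, add_zero, map_sub, h2, sub_zero]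
    rw [Finsupp.weight_single, hj]
    simp
  · have h2 : H - q * G = (H - q * E) - X j ^ d * q := by
      rw [hEdef]
      ring
    rw [coeff_eq_tl _ hμ, h2, tl_sub, tl_X_pow_mul, ← hq1, sub_self, map_zero]

/-- Weierstrass division in the Gevrey algebra. -/
theorem wdiv (hp : p ≠ 0) {j : σ} (h : j ≠ o) {d : ℕ} {G H : MvPowerSeries σ 𝕜}
    (hG : G ∈ Gev 𝕜 o p ρ0) (hH : H ∈ Gev 𝕜 o p ρ0)
    (h0 : ∀ i < d, coeff (Finsupp.single j i) G = 0) (h1 : coeff (Finsupp.single j d) G ≠ 0) :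
    ∃ q ∈ Gev 𝕜 o p ρ0, (coeff (Finsupp.single j d) H ≠ 0 → constantCoeff q ≠ 0) ∧
      ∀ μ, d ≤ μ j → coeff μ (H - q * G) = 0 := by
  set c := coeff (Finsupp.single j d) G with hc
  obtain ⟨q, hq1, hq2, hq3⟩ := wdiv_one hp h (G := c⁻¹ • G) (d := d)
    ((Gev 𝕜 o p ρ0).smul_mem hG _) hH (fun i hi => by simp [h0 i hi])
    (by rw [map_smul, ← hc, smul_eq_mul, inv_mul_cancel₀ h1])
  refine ⟨c⁻¹ • q, (Gev 𝕜 o p ρ0).smul_mem hq1 _, fun h2 => ?_, fun μ hμ => ?_⟩
  · rw [← coeff_zero_eq_constantCoeff_apply, map_smul, coeff_zero_eq_constantCoeff_apply, hq2]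
    exact mul_ne_zero (inv_ne_zero h1) h2
  · rw [smul_mul_assoc, ← mul_smul_comm]
    exact hq3 μ hμ

end Vale.Agent.P218GV
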