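import Vale.Agent.P218GV.GV3

/-! Polynomial form of the division and the lemma of Newton. -/

open MvPowerSeries Filter Topology
open scoped ENNReal

namespace Vale.Agent.P218GV

variable {σ τ : Type*} {𝕜 : Type*} [NormedField 𝕜]

/-- Adding a variable. -/
noncomputable def up : MvPowerSeries τ 𝕜 →ₐ[𝕜] MvPowerSeries (Option τ) 𝕜 :=
  rename (Function.Embedding.some : τ ↪ Option τ)

theorem coeff_up (F : MvPowerSeries τ 𝕜) (μ : Option τ →₀ ℕ) :
    coeff μ (up F) = if μ none = 0 then coeff μ.some F else 0 := by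
  split_ifs with h
  · have h1 : μ = Finsupp.embDomain Function.Embedding.some μ.some := by
      ext i
      cases i with
      | none => simp [h]
      | some i => simp
    conv_lhs => rw [h1]
    exact coeff_embDomain_rename _ F _
  · refine coeff_rename_eq_zero _ F ?_
    rintro ⟨ν, rfl⟩
    refine h (Finsupp.mapDomain_of_notMem_range _ _ ?_)
    rintro ⟨i, hi⟩
    simp at hi

theorem up_X (i : τ) : up (X i : MvPowerSeries τ 𝕜) = X (some i) := rename_X _ i

theorem constantCoeff_up (F : MvPowerSeries τ 𝕜) : constantCoeff (up F) = constantCoeff F :=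
  constantCoeff_rename _ F

theorem up_eq_subst (F : MvPowerSeries τ 𝕜) :
    up F = subst (fun i => (X (some i) : MvPowerSeries (Option τ) 𝕜)) F :=
  rename_eq_subst _ F

theorem subst_up [Finite τ] {γ : Type*} {a : Option τ → MvPowerSeries γ 𝕜}
    (ha : ∀ i, constantCoeff (a i) = 0) (F : MvPowerSeries τ 𝕜) :
    subst a (up F) = subst (fun i => a (some i)) F := by
  have h1 := hasSubst_of_constantCoeff_zero ha
  rw [up_eq_subst, subst_comp_subst_apply (hasSubst_of_constantCoeff_zero (by simp)) h1]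
  simp only [subst_X h1]

theorem constantCoeff_subst' [Finite σ] {a : σ → MvPowerSeries τ 𝕜}
    (ha : ∀ i, constantCoeff (a i) = 0) (F : MvPowerSeries σ 𝕜) :
    constantCoeff (subst a F) = constantCoeff F := by
  have h1 := hasSubst_of_constantCoeff_zero ha
  have h2 := constantCoeff_subst_eq_zero h1 ha (f := F - C (constantCoeff F)) (by simp)
  rw [subst_sub h1, subst_C, map_sub, sub_eq_zero] at h2
  simpa using h2

/-- Substitution respects congruences modulo ideals generated by a power of a variable. -/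
theorem dvd_subst_sub [Finite σ] {a b : σ → MvPowerSeries τ 𝕜}
    (ha : ∀ i, constantCoeff (a i) = 0) (hb : ∀ i, constantCoeff (b i) = 0) {t : τ} {n : ℕ}
    (h : ∀ i, X t ^ n ∣ a i - b i) (F : MvPowerSeries σ 𝕜) :
    X t ^ n ∣ subst a F - subst b F := by
  rw [X_pow_dvd_iff]
  intro m hm
  rw [map_sub, coeff_subst (hasSubst_of_constantCoeff_zero ha),
    coeff_subst (hasSubst_of_constantCoeff_zero hb), sub_eq_zero]
  refine finsum_congr fun μ => ?_
  congr 1
  rw [← sub_eq_zero, ← map_sub]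
  refine X_pow_dvd_iff.1 ?_ m hm
  rw [← Ideal.mem_span_singleton, ← Ideal.Quotient.eq, map_finsuppProd, map_finsuppProd]
  refine Finsupp.prod_congr fun i _ => ?_
  rw [map_pow, map_pow, Ideal.Quotient.eq.2 (Ideal.mem_span_singleton.2 (h i))]

/-- Coefficient of a power of the added variable. -/
noncomputable def hd (i : ℕ) (R : MvPowerSeries (Option τ) 𝕜) : MvPowerSeries τ 𝕜 :=
  fun ν => coeff (ν.optionElim i) R

theorem coeff_hd (i : ℕ) (R : MvPowerSeries (Option τ) 𝕜) (ν : τ →₀ ℕ) :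
    coeff ν (hd i R) = coeff (ν.optionElim i) R := rfl

theorem eq_sum_hd {d : ℕ} {R : MvPowerSeries (Option τ) 𝕜}
    (h : ∀ μ : Option τ →₀ ℕ, d ≤ μ none → coeff μ R = 0) :
    R = ∑ i ∈ Finset.range d, up (hd i R) * X none ^ i := by
  ext μ
  have h1 : ∀ i, coeff μ (up (hd i R) * X none ^ i) = if μ none = i then coeff μ R else 0 := by
    intro i
    rw [X_pow_eq, coeff_mul_monomial, coeff_up, coeff_hd]
    simp only [Finsupp.single_le_iff, mul_one, Finsupp.coe_tsub, Pi.sub_apply,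
      Finsupp.single_eq_same]
    by_cases h2 : μ none = i
    · rw [if_pos h2.ge, if_pos (by omega), if_pos h2]
      congr 2
      ext k
      cases k with
      | none => simp [h2]
      | some k => simp
    · rw [if_neg h2]
      split_ifs with h3 h4
      · omega
      · rfl
      · rfl
  simp only [map_sum, h1, Finset.sum_ite_eq, Finset.mem_range]
  split_ifs with h2
  · rfl
  · exact h μ (by omega)

theorem dy_optionElim (o : τ) (i : ℕ) (ν : τ →₀ ℕ) :
    dy (some o) (ν.optionElim i) = i + dy o ν := by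
  have h1 : ν.optionElim i = Finsupp.single none i + ν.mapDomain some := by
    ext k
    cases k with
    | none => simp [Finsupp.mapDomain_of_notMem_range]
    | some k => simp [Finsupp.mapDomain_apply (Option.some_injective τ)]
  have h2 := degree_eq_add_dy (some o) (ν.optionElim i)
  have h3 := degree_eq_add_dy o ν
  rw [Finsupp.optionElim_apply_some] at h2
  rw [h1, map_add, Finsupp.degree_single, Finsupp.degree_mapDomain, ← h1] at h2
  omega

variable {p : ℕ} {ρ0 : ℝ}

theorem hd_mem_Gev {o : τ} (i : ℕ) {R : MvPowerSeries (Option τ) 𝕜}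
    (hR : R ∈ Gev 𝕜 (some o) p ρ0) : hd i R ∈ Gev 𝕜 o p ρ0 := by
  intro ρ h1 h2
  filter_upwards [hR ρ h1 h2] with a ha
  have h3 : ENNReal.ofReal (Real.exp (-a)) ^ i * wn (wt o p ρ a) (hd i R) ≤
      wn (wt (some o) p ρ a) R := by
    unfold wn
    rw [← ENNReal.tsum_mul_left]
    have hinj : Function.Injective fun ν : τ →₀ ℕ => ν.optionElim i := fun ν ν' h => by
      simpa using congrArg Finsupp.some h
    refine le_trans ?_ (ENNReal.tsum_comp_le_tsum_of_injective hinj _)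
    refine ENNReal.tsum_le_tsum fun ν => le_of_eq ?_
    simp only [coeff_hd, wt, dy_optionElim, Finsupp.optionElim_apply_some, pow_add]
    ring
  intro h4
  rw [h4, ENNReal.mul_top (ofReal_exp_pow_ne_zero a i)] at h3
  exact ha (top_le_iff.1 h3)

theorem subst_mem_Gev1 [Finite σ] {o : σ} {o' : τ} (hp : p ≠ 0)
    {a : σ → MvPowerSeries τ 𝕜} (ho : a o = X o')
    (ha : ∀ i, i ≠ o → a i ∈ Gev 𝕜 o' p ρ0) (ha0 : ∀ i, constantCoeff (a i) = 0)
    {F : MvPowerSeries σ 𝕜} (hF : F ∈ Gev 𝕜 o p ρ0) : subst a F ∈ Gev 𝕜 o' p ρ0 := by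
  have := subst_mem_Gev (o' := o') (q := 1) hp one_ne_zero (by rw [ho, pow_one])
    (by simpa using ha) ha0 hF
  simpa using this

theorem up_mem_Gev [Finite τ] {o : τ} (hp : p ≠ 0) {F : MvPowerSeries τ 𝕜}
    (hF : F ∈ Gev 𝕜 o p ρ0) : up F ∈ Gev 𝕜 (some o) p ρ0 := by
  rw [up_eq_subst]
  refine subst_mem_Gev1 (o := o) (o' := some o) hp ?_ (fun i _ => ?_) (fun i => ?_) hF
  · rfl
  · exact X_mem_Gev (some i)
  · exact constantCoeff_X (some i)

/-- The inclusion of the Gevrey algebra into the series with one more variable. -/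
noncomputable def upG (o : τ) (p : ℕ) (ρ0 : ℝ) :
    Gev 𝕜 o p ρ0 →+* MvPowerSeries (Option τ) 𝕜 :=
  (up : MvPowerSeries τ 𝕜 →ₐ[𝕜] _).toRingHom.comp (Gev 𝕜 o p ρ0).val.toRingHom

theorem upG_apply (o : τ) (F : Gev 𝕜 o p ρ0) : upG o p ρ0 F = up (F : MvPowerSeries τ 𝕜) := rfl

/-- Weierstrass division with polynomial remainder. -/
theorem wdiv_poly (hp : p ≠ 0) {o : τ} {d : ℕ} {G H : MvPowerSeries (Option τ) 𝕜}
    (hG : G ∈ Gev 𝕜 (some o) p ρ0) (hH : H ∈ Gev 𝕜 (some o) p ρ0)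
    (h0 : ∀ i < d, coeff (Finsupp.single none i) G = 0)
    (h1 : coeff (Finsupp.single none d) G ≠ 0) :
    ∃ q ∈ Gev 𝕜 (some o) p ρ0, ∃ r : Polynomial (Gev 𝕜 o p ρ0), r.degree < d ∧
      (coeff (Finsupp.single none d) H ≠ 0 → constantCoeff q ≠ 0) ∧
      H = q * G + r.eval₂ (upG o p ρ0) (X none) := by
  obtain ⟨q, hq1, hq2, hq3⟩ := wdiv hp (j := none) (by simp) hG hH h0 h1
  have hR : H - q * G ∈ Gev 𝕜 (some o) p ρ0 := sub_mem hH (mul_mem hq1 hG)
  refine ⟨q, hq1, ∑ i ∈ Finset.range d, Polynomial.monomial i ⟨hd i (H - q * G), hd_mem_Gev i hR⟩,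
    ?_, hq2, ?_⟩
  · refine lt_of_le_of_lt (Polynomial.degree_sum_le _ _) ?_
    refine (Finset.sup_lt_iff (WithBot.bot_lt_coe d)).2 fun i hi => ?_
    refine lt_of_le_of_lt (Polynomial.degree_monomial_le _ _) ?_
    exact WithBot.coe_lt_coe.2 (Finset.mem_range.1 hi)
  · rw [Polynomial.eval₂_finsetSum]
    simp only [Polynomial.eval₂_monomial, upG_apply]
    rw [← eq_sum_hd hq3]
    ring

theorem exists_exact {e : ℕ} {F : MvPowerSeries Unit 𝕜} (h : ¬ X () ^ (e + 1) ∣ F) :
    ∃ e' ≤ e, ∃ u, F = X () ^ e' * u ∧ constantCoeff u ≠ 0 := by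
  induction e generalizing F with
  | zero =>
    refine ⟨0, le_rfl, F, by simp, fun h1 => h ?_⟩
    rw [zero_add, pow_one, X_dvd_iff]
    intro m hm
    have : m = 0 := by
      ext
      simpa using hm
    rw [this]
    simpa using h1
  | succ e ih =>
    by_cases h1 : X () ^ (e + 1) ∣ F
    · obtain ⟨u, rfl⟩ := h1
      refine ⟨e + 1, le_rfl, u, rfl, fun h2 => h ?_⟩
      rw [pow_succ _ (e + 1)]
      refine mul_dvd_mul_left _ ?_
      rw [X_dvd_iff]
      intro m hm
      have : m = 0 := by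
        ext
        simpa using hm
      rw [this]
      simpa using h2
    · obtain ⟨e', he', u, hu⟩ := ih h1
      exact ⟨e', by omega, u, hu⟩

theorem constantCoeff_eq_zero_of_dvd {t : σ} {n : ℕ} (hn : n ≠ 0) {F : MvPowerSeries σ 𝕜}
    (h : X t ^ n ∣ F) : constantCoeff F = 0 := by
  have := X_pow_dvd_iff.1 h 0 (by simpa using Nat.pos_of_ne_zero hn)
  simpa using this

/-- The lemma of Newton in the Gevrey algebra in one variable. -/
theorem newton (hp : p ≠ 0) (Q : Polynomial (Gev 𝕜 () p ρ0)) (x0 : Gev 𝕜 () p ρ0) {e m : ℕ}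
    (hm : 2 * e < m) (h1 : X () ^ m ∣ ((Q.eval x0 : Gev 𝕜 () p ρ0) : MvPowerSeries Unit 𝕜))
    (h2 : ¬ X () ^ (e + 1) ∣ ((Q.derivative.eval x0 : Gev 𝕜 () p ρ0) : MvPowerSeries Unit 𝕜)) :
    ∃ x : Gev 𝕜 () p ρ0, Q.eval x = 0 ∧
      X () ^ (m - e) ∣ (x : MvPowerSeries Unit 𝕜) - (x0 : MvPowerSeries Unit 𝕜) := by
  obtain ⟨e, he, u, hu, hu0⟩ := exists_exact h2
  obtain ⟨β, hβ⟩ := h1
  set α : MvPowerSeries Unit 𝕜 := X () ^ (m - 2 * e) * β with hα
  have hα1 : ((Q.eval x0 : Gev 𝕜 () p ρ0) : MvPowerSeries Unit 𝕜) = X () ^ (2 * e) * α := by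
    rw [hβ, hα, ← mul_assoc, ← pow_add]
    congr 2
    omega
  have huG : u ∈ Gev 𝕜 () p ρ0 := mem_Gev_of_X_pow_mul hp e (hu ▸ (Q.derivative.eval x0).2)
  have hαG : α ∈ Gev 𝕜 () p ρ0 := mem_Gev_of_X_pow_mul hp _ (hα1 ▸ (Q.eval x0).2)
  have hα0 : constantCoeff α = 0 :=
    constantCoeff_eq_zero_of_dvd (t := ()) (n := m - 2 * e) (by omega) ⟨β, hα⟩
  let ι : Gev 𝕜 () p ρ0 →+* Gev 𝕜 (some ()) p ρ0 :=
    (upG () p ρ0).codRestrict (Gev 𝕜 (some ()) p ρ0) fun F => up_mem_Gev hp F.2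
  have hι : ∀ F, (ι F : MvPowerSeries (Option Unit) 𝕜) = up (F : MvPowerSeries Unit 𝕜) :=
    fun F => rfl
  let y : Gev 𝕜 (some ()) p ρ0 := ⟨X (some ()) ^ e * X none,
    mul_mem (pow_mem (X_mem_Gev _) _) (X_mem_Gev _)⟩
  obtain ⟨k, hk⟩ := (Q.map ι).binomExpansion (ι x0) y
  set Φ : MvPowerSeries (Option Unit) 𝕜 :=
    up α + up u * X none + (k : MvPowerSeries (Option Unit) 𝕜) * X none ^ 2 with hΦ
  have hΦG : Φ ∈ Gev 𝕜 (some ()) p ρ0 :=
    add_mem (add_mem (up_mem_Gev hp hαG) (mul_mem (up_mem_Gev hp huG) (X_mem_Gev _)))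
      (mul_mem k.2 (pow_mem (X_mem_Gev _) _))
  have hk1 : (((Q.map ι).eval (ι x0 + y) : Gev 𝕜 (some ()) p ρ0) : MvPowerSeries (Option Unit) 𝕜)
      = X (some ()) ^ (2 * e) * Φ := by
    rw [hk, Polynomial.derivative_map, Polynomial.eval_map_apply, Polynomial.eval_map_apply]
    simp only [Subalgebra.coe_add, Subalgebra.coe_mul, Subalgebra.coe_pow, hι, hα1, hu, map_mul,
      map_pow, up_X, y, hΦ]
    ring
  have hX2 : ∀ i < 2, coeff (Finsupp.single none i) ((k : MvPowerSeries (Option Unit) 𝕜) *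
      X none ^ 2) = 0 := fun i hi =>
    X_pow_dvd_iff.1 (Dvd.intro_left _ rfl) _ (by simpa using hi)
  obtain ⟨q, hq, r, hr, hq0, hZ⟩ := wdiv_poly hp (d := 1) hΦG (X_mem_Gev none)
    (fun i hi => by
      have h3 : i = 0 := by omega
      subst h3
      rw [hΦ, map_add, map_add, hX2 0 (by omega)]
      simp [constantCoeff_up, hα0])
    (by
      rw [hΦ, map_add, map_add, hX2 1 (by omega), coeff_up, if_neg (by simp), X,
        coeff_mul_monomial, if_pos le_rfl, tsub_self]
      simpa [constantCoeff_up] using hu0)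
  have hq1 := hq0 (by simp [coeff_X])
  rw [Polynomial.eq_C_of_degree_le_zero (Order.lt_succ_iff.1 hr), Polynomial.eval₂_C,
    upG_apply] at hZ
  set r0 := r.coeff 0 with hr0
  have hr1 : constantCoeff (r0 : MvPowerSeries Unit 𝕜) = 0 := by
    have h3 := congrArg constantCoeff hZ
    simpa [hΦ, constantCoeff_up, hα0] using h3.symm
  let a : Option Unit → MvPowerSeries Unit 𝕜 := fun i => i.elim (r0 : MvPowerSeries Unit 𝕜) X
  have ha0 : ∀ i, constantCoeff (a i) = 0 := by
    rintro (_ | i)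
    · exact hr1
    · simp [a]
  have ha := hasSubst_of_constantCoeff_zero ha0
  have hup : ∀ F, subst a (up F) = F := fun F => by
    rw [subst_up ha0]
    exact congrFun subst_self F
  have hs : subst a Φ = 0 := by
    have h3 := congrArg (subst a) hZ
    rw [subst_add ha, subst_mul ha, hup, subst_X ha] at h3
    have h4 : subst a q * subst a Φ = 0 := by simpa [a] using h3
    refine (mul_eq_zero.1 h4).resolve_left fun h5 => hq1 ?_
    rw [← constantCoeff_subst' ha0, h5, map_zero]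
  let s : Gev 𝕜 (some ()) p ρ0 →+* MvPowerSeries Unit 𝕜 :=
    (substAlgHom ha : _ →ₐ[𝕜] _).toRingHom.comp (Gev 𝕜 (some ()) p ρ0).val.toRingHom
  have hs1 : ∀ F, s F = subst a (F : MvPowerSeries (Option Unit) 𝕜) := fun F =>
    substAlgHom_apply ha _
  let x : Gev 𝕜 () p ρ0 := x0 + ⟨X () ^ e * (r0 : MvPowerSeries Unit 𝕜),
    mul_mem (pow_mem (X_mem_Gev _) _) r0.2⟩
  have hx : (x : MvPowerSeries Unit 𝕜) =
      (x0 : MvPowerSeries Unit 𝕜) + X () ^ e * (r0 : MvPowerSeries Unit 𝕜) := rfl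
  refine ⟨x, Subtype.ext ?_, ?_⟩
  · have h3 : s.comp ι = (Gev 𝕜 () p ρ0).val.toRingHom := by
      ext1 F
      exact (hs1 _).trans (hup F)
    have h4 : s (ι x0 + y) = (Gev 𝕜 () p ρ0).val.toRingHom x := by
      rw [map_add, hs1, hs1, hι, hup]
      simp only [y]
      rw [subst_mul ha, subst_pow ha, subst_X ha, subst_X ha]
      rfl
    have h5 := hs1 ((Q.map ι).eval (ι x0 + y))
    rw [hk1, subst_mul ha, hs, mul_zero, Polynomial.eval_map, Polynomial.hom_eval₂, h3, h4,
      Polynomial.eval₂_at_apply] at h5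
    exact h5
  · rw [hx, add_sub_cancel_left]
    have h3 : X () ^ (m - 2 * e) ∣ (r0 : MvPowerSeries Unit 𝕜) := by
      rw [hΦ, subst_add ha, subst_add ha, subst_mul ha, subst_mul ha, subst_pow ha, hup, hup,
        subst_X ha] at hs
      have h4 : (r0 : MvPowerSeries Unit 𝕜) * (u + subst a (k : MvPowerSeries (Option Unit) 𝕜) *
          (r0 : MvPowerSeries Unit 𝕜)) = X () ^ (m - 2 * e) * (-β) := by
        simp only [a, Option.elim_none] at hs
        linear_combination hs - hα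
      have h5 : IsUnit (u + subst a (k : MvPowerSeries (Option Unit) 𝕜) *
          (r0 : MvPowerSeries Unit 𝕜)) := by
        rw [isUnit_iff_constantCoeff]
        simpa [hr1] using hu0
      exact h5.dvd_mul_right.1 ⟨_, h4⟩
    refine dvd_trans (pow_dvd_pow _ (show _ ≤ e + (m - 2 * e) by omega)) ?_
    rw [pow_add]
    exact mul_dvd_mul_left _ h3

end Vale.Agent.P218GV
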