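import Vale.Agent.P218GV.GV4

/-! Algebraic lemmas: minimal polynomial modulo a prime, regular directions. -/

open MvPowerSeries Filter Topology

namespace Vale.Agent.P218GV

section minpoly

open Polynomial

variable {A B : Type*} [CommRing A] [CommRing B]

theorem pseudo_div (Q : A[X]) (hQ : 0 < Q.natDegree) (R : A[X]) :
    ∃ (k : ℕ) (H R' : A[X]), Polynomial.C Q.leadingCoeff ^ k * R = H * Q + R' ∧
      R'.natDegree < Q.natDegree := by
  induction h : R.natDegree using Nat.strong_induction_on generalizing R with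
  | _ n ih =>
    by_cases h1 : R.natDegree < Q.natDegree
    · exact ⟨0, 0, R, by simp, h1⟩
    · have h2 : Q.natDegree ≤ R.natDegree := not_lt.1 h1
      have h3 := natDegree_cancelLeads_lt_of_natDegree_le_natDegree h2 (by omega)
      obtain ⟨k, H, R', h4, h5⟩ := ih _ (h ▸ h3) (Q.cancelLeads R) rfl
      refine ⟨k + 1, H + Polynomial.C Q.leadingCoeff ^ k * (Polynomial.C R.leadingCoeff *
        Polynomial.X ^ (R.natDegree - Q.natDegree)), R', ?_, h5⟩
      rw [cancelLeads, Nat.sub_eq_zero_of_le h2] at h4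
      linear_combination h4

theorem minpoly_step (ι : A →+* B) (Y : B) (𝔓 : Ideal B) (h𝔓 : 𝔓.IsPrime)
    (hchar : ∀ n : ℕ, ((n + 1 : ℕ) : B) ∉ 𝔓) (W : A[X]) (hW : W.eval₂ ι Y ∈ 𝔓)
    (hW1 : ι W.leadingCoeff ∉ 𝔓) :
    ∃ Q : A[X], Q.eval₂ ι Y ∈ 𝔓 ∧ ι Q.leadingCoeff ∉ 𝔓 ∧ Q.derivative.eval₂ ι Y ∉ 𝔓 ∧
      ∀ R : A[X], R.eval₂ ι Y ∈ 𝔓 → ∃ (k : ℕ) (H R' : A[X]),
        Polynomial.C Q.leadingCoeff ^ k * R = H * Q + R' ∧ ∀ i, ι (R'.coeff i) ∈ 𝔓 := by
  classical
  have hex : ∃ n, ∃ Q : A[X], Q.natDegree = n ∧ Q.eval₂ ι Y ∈ 𝔓 ∧ ι Q.leadingCoeff ∉ 𝔓 :=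
    ⟨_, W, rfl, hW, hW1⟩
  obtain ⟨Q, hQ0, hQ1, hQ2⟩ := Nat.find_spec hex
  have hA : ∀ R : A[X], R.eval₂ ι Y ∈ 𝔓 → R.natDegree < Q.natDegree → ∀ i, ι (R.coeff i) ∈ 𝔓 := by
    intro R
    induction R using degree_lt_wf.induction with
    | _ R ih =>
      intro h1 h2 i
      by_cases h0 : R = 0
      · simp [h0]
      have h3 : ι R.leadingCoeff ∈ 𝔓 := by
        by_contra h4
        exact Nat.find_min hex (hQ0 ▸ h2) ⟨R, rfl, h1, h4⟩
      by_cases hi : i = R.natDegree
      · rw [hi]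
        exact h3
      · rw [← eraseLead_coeff_of_ne i hi]
        refine ih _ (degree_eraseLead_lt h0) ?_ (lt_of_le_of_lt eraseLead_natDegree_le_aux h2) i
        have h5 := congrArg (eval₂ ι Y) (eraseLead_add_monomial_natDegree_leadingCoeff R)
        rw [eval₂_add, eval₂_monomial] at h5
        rw [eq_sub_of_add_eq h5]
        exact sub_mem h1 (Ideal.mul_mem_right _ _ h3)
  have hpos : 0 < Q.natDegree := by
    by_contra h
    have h1 : Q.natDegree = 0 := by omega
    rw [eq_C_of_natDegree_eq_zero h1, Polynomial.eval₂_C] at hQ1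
    rw [leadingCoeff, h1] at hQ2
    exact hQ2 hQ1
  refine ⟨Q, hQ1, hQ2, fun h => ?_, fun R hR => ?_⟩
  · have h1 := hA _ h (natDegree_derivative_lt hpos.ne') (Q.natDegree - 1)
    rw [coeff_derivative, Nat.sub_add_cancel hpos, map_mul] at h1
    rcases h𝔓.mem_or_mem h1 with h2 | h2
    · exact hQ2 h2
    · refine hchar (Q.natDegree - 1) ?_
      simpa using h2
  · obtain ⟨k, H, R', h1, h2⟩ := pseudo_div Q hpos R
    refine ⟨k, H, R', h1, hA R' ?_ h2⟩
    have h3 := congrArg (eval₂ ι Y) h1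
    rw [eval₂_add, eval₂_mul, eval₂_mul] at h3
    rw [eq_sub_of_add_eq' h3.symm]
    exact sub_mem (Ideal.mul_mem_left _ _ hR) (Ideal.mul_mem_left _ _ hQ1)

end minpoly

variable {σ τ : Type*} {𝕜 : Type*} [NormedField 𝕜]

theorem killCompl_subst [Finite σ] {γ : Type*} (e : γ ↪ τ) {a : σ → MvPowerSeries τ 𝕜}
    (ha : ∀ i, constantCoeff (a i) = 0) (F : MvPowerSeries σ 𝕜) :
    killCompl e (subst a F) = subst (fun i => killCompl e (a i)) F := by
  have hb : ∀ i, constantCoeff (killCompl e (a i)) = 0 := fun i => by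
    rw [← coeff_zero_eq_constantCoeff_apply, coeff_killCompl]
    simpa using ha i
  ext x
  rw [coeff_killCompl, coeff_subst (hasSubst_of_constantCoeff_zero ha),
    coeff_subst (hasSubst_of_constantCoeff_zero hb)]
  refine finsum_congr fun μ => ?_
  rw [← coeff_killCompl, map_finsuppProd]
  simp only [map_pow]

/-- A series which is not divisible by the variable `o` does not vanish on some line in the
hyperplane where that variable vanishes. -/
theorem exists_line [Finite σ] [CharZero 𝕜] {o : σ} {F : MvPowerSeries σ 𝕜} (h : ¬ X o ∣ F) :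
    ∃ v : σ → 𝕜, v o = 0 ∧ subst (fun i => (C (v i) * X () : MvPowerSeries Unit 𝕜)) F ≠ 0 := by
  classical
  rw [X_dvd_iff] at h
  push Not at h
  obtain ⟨μ0, hμ0, hc⟩ := h
  set S := (Finsupp.finite_of_degree_eq (σ := σ) μ0.degree).toFinset with hS
  have hmem : ∀ ν, ν ∈ S ↔ ν.degree = μ0.degree := fun ν => by simp [hS]
  let g : MvPolynomial σ 𝕜 := ∑ ν ∈ S, MvPolynomial.monomial ν (if ν o = 0 then coeff ν F else 0)
  have hg : g ≠ 0 := by
    intro h1
    have h2 := congrArg (MvPolynomial.coeff μ0) h1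
    simp only [g, MvPolynomial.coeff_sum, MvPolynomial.coeff_monomial, Finset.sum_ite_eq',
      (hmem μ0).2 rfl, if_true, hμ0, MvPolynomial.coeff_zero] at h2
    exact hc h2
  obtain ⟨v', hv'⟩ : ∃ v', MvPolynomial.eval v' g ≠ 0 := by
    by_contra! h1
    exact hg (MvPolynomial.funext fun x => by simp [h1 x])
  refine ⟨Function.update v' o 0, by simp, fun h1 => hv' ?_⟩
  set v := Function.update v' o 0 with hv
  have h2 := congrArg (coeff (Finsupp.single () μ0.degree)) h1
  have h3 : ∀ μ : σ →₀ ℕ, coeff (Finsupp.single () μ0.degree)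
      (μ.prod fun i e => (C (v i) * X () : MvPowerSeries Unit 𝕜) ^ e) =
      if μ.degree = μ0.degree then μ.prod fun i e => v i ^ e else 0 := by
    intro μ
    simp only [mul_pow, Finsupp.prod, Finset.prod_mul_distrib, Finset.prod_pow_eq_pow_sum,
      ← map_pow, ← map_prod, coeff_C_mul, coeff_X_pow, ← Finsupp.degree_apply]
    by_cases h4 : μ.degree = μ0.degree
    · simp [h4]
    · rw [if_neg h4, if_neg, mul_zero]
      intro h5
      exact h4 (Finsupp.single_injective _ h5).symm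
  rw [coeff_subst (hasSubst_of_constantCoeff_zero (by simp)), map_zero,
    finsum_eq_sum_of_support_subset (s := S)] at h2
  · rw [← h2]
    simp only [g, map_sum, MvPolynomial.eval_monomial, h3]
    refine Finset.sum_congr rfl fun ν hν => ?_
    rw [if_pos ((hmem ν).1 hν), smul_eq_mul]
    split_ifs with h4
    · congr 1
      refine Finsupp.prod_congr fun i hi => ?_
      rw [hv, Function.update_of_ne]
      rintro rfl
      simp [h4] at hi
    · rw [zero_mul, Finsupp.prod, Finset.prod_eq_zero (i := o) (by simpa using h4), mul_zero]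
      simp [hv, h4]
  · intro ν hν
    rw [Finset.mem_coe, hmem]
    by_contra h4
    exact hν (by simp only [h3, if_neg h4, smul_zero])

/-- A nonzero series in one variable has a first nonzero coefficient. -/
theorem exists_first {F : MvPowerSeries Unit 𝕜} (h : F ≠ 0) :
    ∃ d, (∀ i < d, coeff (Finsupp.single () i) F = 0) ∧ coeff (Finsupp.single () d) F ≠ 0 := by
  classical
  have hex : ∃ d, coeff (Finsupp.single () d) F ≠ 0 := by
    by_contra! h1
    refine h (MvPowerSeries.ext fun μ => ?_)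
    rw [Finsupp.unique_single μ]
    exact h1 _
  exact ⟨Nat.find hex, fun i hi => not_not.1 (Nat.find_min hex hi), Nat.find_spec hex⟩

theorem dvd_of_mul {m n : ℕ} {F G : MvPowerSeries Unit 𝕜} (h : X () ^ (m + n) ∣ F * G)
    (hF : ¬ X () ^ m ∣ F) : X () ^ n ∣ G := by
  rcases m with _ | m
  · simp at hF
  obtain ⟨e, he, u, rfl, hu⟩ := exists_exact hF
  have h1 : IsUnit u := isUnit_iff_constantCoeff.2 (IsUnit.mk0 _ hu)
  have h2 : (X () : MvPowerSeries Unit 𝕜) ^ e * X () ^ n ∣ X () ^ e * (u * G) := by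
    rw [← pow_add, ← mul_assoc]
    exact (pow_dvd_pow _ (by omega)).trans h
  have h3 : (X () : MvPowerSeries Unit 𝕜) ^ e ≠ 0 :=
    pow_ne_zero _ (nonZeroDivisors.ne_zero X_mem_nonzeroDivisors)
  exact h1.dvd_mul_left.1 ((mul_dvd_mul_iff_left h3).1 h2)

end Vale.Agent.P218GV
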