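import Vale.Agent.P218GV.GV5

/-! From approximate arcs to exact Gevrey arcs: the induction step. -/

open MvPowerSeries Filter Topology

namespace Vale.Agent.P218GV

variable {σ τ : Type*} {𝕜 : Type*} [NormedField 𝕜] {I : Type*}

/-- A Gevrey arc through the origin on which the variable `o` is `t ^ p`. -/
structure Arc (o : σ) (p : ℕ) (ρ0 : ℝ) (γ : σ → MvPowerSeries Unit 𝕜) : Prop where
  ho : γ o = X () ^ p
  gev : ∀ i, γ i ∈ Gev 𝕜 () p ρ0
  zero : ∀ i, constantCoeff (γ i) = 0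

theorem Arc.hs [Finite σ] {o : σ} {p : ℕ} {ρ0 : ℝ} {γ : σ → MvPowerSeries Unit 𝕜}
    (h : Arc o p ρ0 γ) : HasSubst γ := hasSubst_of_constantCoeff_zero h.zero

theorem Arc.subst_mem [Finite σ] {o : σ} {p : ℕ} {ρ0 : ℝ} {γ : σ → MvPowerSeries Unit 𝕜}
    (h : Arc o p ρ0 γ) (hp : p ≠ 0) {F : MvPowerSeries σ 𝕜} (hF : F ∈ Gev 𝕜 o 1 ρ0) :
    subst γ F ∈ Gev 𝕜 () p ρ0 := by
  have := subst_mem_Gev (o' := ()) (q := p) one_ne_zero hp h.ho
    (fun i _ => by simpa using h.gev i) h.zero hF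
  simpa using this

/-- Series vanishing to arbitrarily high order along the ultrafilter of arcs. -/
def sm [Finite σ] (U : Ultrafilter I) (P : I → ℕ) (γ : I → σ → MvPowerSeries Unit 𝕜)
    (hγ : ∀ N i, constantCoeff (γ N i) = 0) : Ideal (MvPowerSeries σ 𝕜) where
  carrier := {F | ∀ K : ℕ, ∀ᶠ N in U, X () ^ (K * P N) ∣ subst (γ N) F}
  add_mem' := by
    intro F G hF hG K
    filter_upwards [hF K, hG K] with N h1 h2
    rw [subst_add (hasSubst_of_constantCoeff_zero (hγ N))]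
    exact dvd_add h1 h2
  zero_mem' := fun K => Eventually.of_forall fun N => by
    rw [← substAlgHom_apply (R := 𝕜) (hasSubst_of_constantCoeff_zero (hγ N)), map_zero]
    exact dvd_zero _
  smul_mem' := by
    intro F G hG K
    filter_upwards [hG K] with N h1
    rw [smul_eq_mul, subst_mul (hasSubst_of_constantCoeff_zero (hγ N))]
    exact h1.mul_left _

section

variable [Finite σ] {U : Ultrafilter I} {P : I → ℕ} {γ : I → σ → MvPowerSeries Unit 𝕜}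
  {hγ : ∀ N i, constantCoeff (γ N i) = 0}

theorem mem_sm {F : MvPowerSeries σ 𝕜} :
    F ∈ sm U P γ hγ ↔ ∀ K : ℕ, ∀ᶠ N in U, X () ^ (K * P N) ∣ subst (γ N) F := Iff.rfl

theorem not_mem_sm {F : MvPowerSeries σ 𝕜} (h : F ∉ sm U P γ hγ) :
    ∃ K : ℕ, ∀ᶠ N in U, ¬ X () ^ (K * P N) ∣ subst (γ N) F := by
  rw [mem_sm] at h
  push Not at h
  exact h

theorem const_of_mem_sm (hP : ∀ N, P N ≠ 0) {F : MvPowerSeries σ 𝕜} (h : F ∈ sm U P γ hγ) :
    constantCoeff F = 0 := by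
  obtain ⟨N, hN⟩ := (h 1).exists
  rw [← constantCoeff_subst' (hγ N)]
  exact constantCoeff_eq_zero_of_dvd (by simpa using hP N) hN

theorem sm_isPrime (hP : ∀ N, P N ≠ 0) : (sm U P γ hγ).IsPrime := by
  refine ⟨fun h => ?_, fun {F G} h => ?_⟩
  · have := const_of_mem_sm hP ((Ideal.eq_top_iff_one _).1 h)
    simp at this
  · by_contra h1
    push Not at h1
    obtain ⟨K1, hK1⟩ := not_mem_sm h1.1
    obtain ⟨K2, hK2⟩ := not_mem_sm h1.2
    obtain ⟨N, h2, h3, h4⟩ := ((h (K1 + K2)).and (hK1.and hK2)).exists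
    rw [subst_mul (hasSubst_of_constantCoeff_zero (hγ N)), add_mul] at h2
    exact h4 (dvd_of_mul h2 h3)

end

/-- The lifting property for a set of variables. -/
def Lift (𝕜 : Type*) [NormedField 𝕜] [Finite σ] (U : Ultrafilter I) (P : I → ℕ) (o : σ)
    (ρ0 : ℝ) : Prop :=
  ∀ (γ : I → σ → MvPowerSeries Unit 𝕜) (hγ : ∀ N, Arc o (P N) ρ0 (γ N))
    (S : Set (MvPowerSeries σ 𝕜)), S.Finite → (∀ F ∈ S, F ∈ Gev 𝕜 o 1 ρ0) →
    (∀ F ∈ S, F ∈ sm U P γ fun N => (hγ N).zero) → ∀ K : ℕ, ∀ᶠ N in U,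
      ∃ γ' : σ → MvPowerSeries Unit 𝕜, Arc o (P N) ρ0 γ' ∧
        (∀ i, X () ^ (K * P N) ∣ γ' i - γ N i) ∧ ∀ F ∈ S, subst γ' F = 0

theorem subst_eval₂ [Finite τ] {o : τ} {ρ0 : ℝ} {p : ℕ} {a : Option τ → MvPowerSeries Unit 𝕜}
    (ha : ∀ i, constantCoeff (a i) = 0) (φ : Gev 𝕜 o 1 ρ0 →+* Gev 𝕜 () p ρ0)
    (hφ : ∀ F, (φ F : MvPowerSeries Unit 𝕜) =
      subst (fun i => a (some i)) (F : MvPowerSeries τ 𝕜))
    (x : Gev 𝕜 () p ρ0) (hx : a none = x) (R : Polynomial (Gev 𝕜 o 1 ρ0)) :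
    subst a (R.eval₂ (upG o 1 ρ0) (X none)) =
      (((R.map φ).eval x : Gev 𝕜 () p ρ0) : MvPowerSeries Unit 𝕜) := by
  have h1 := hasSubst_of_constantCoeff_zero ha
  have h2 := Polynomial.hom_eval₂ R (upG o 1 ρ0) (substAlgHom h1 : _ →ₐ[𝕜] _).toRingHom (X none)
  have h3 := Polynomial.hom_eval₂ R φ (Gev 𝕜 () p ρ0).val.toRingHom x
  have h4 : (substAlgHom h1 : _ →ₐ[𝕜] _).toRingHom.comp (upG o 1 ρ0) =
      (Gev 𝕜 () p ρ0).val.toRingHom.comp φ := by
    ext1 F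
    exact ((substAlgHom_apply h1 _).trans (subst_up ha _)).trans (hφ F).symm
  have h5 : (substAlgHom h1 : _ →ₐ[𝕜] _).toRingHom (X none) =
      (Gev 𝕜 () p ρ0).val.toRingHom x := (substAlgHom_X h1 none).trans hx
  rw [h4, h5, ← h3] at h2
  rw [Polynomial.eval_map]
  exact (substAlgHom_apply h1 _).symm.trans h2

theorem lift_step [Finite τ] [CharZero 𝕜] {U : Ultrafilter I} {P : I → ℕ} (hP : ∀ N, P N ≠ 0)
    {o : τ} {ρ0 : ℝ} (IH : Lift 𝕜 U P o ρ0) (γ : I → Option τ → MvPowerSeries Unit 𝕜)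
    (hγ : ∀ N, Arc (some o) (P N) ρ0 (γ N)) {G : MvPowerSeries (Option τ) 𝕜}
    (hG : G ∈ Gev 𝕜 (some o) 1 ρ0) (hGs : G ∈ sm U P γ fun N => (hγ N).zero) {d : ℕ}
    (h0 : ∀ i < d, coeff (Finsupp.single none i) G = 0)
    (h1 : coeff (Finsupp.single none d) G ≠ 0)
    (S : Set (MvPowerSeries (Option τ) 𝕜)) (hS : S.Finite)
    (hS1 : ∀ F ∈ S, F ∈ Gev 𝕜 (some o) 1 ρ0)
    (hS2 : ∀ F ∈ S, F ∈ sm U P γ fun N => (hγ N).zero) (K : ℕ) : ∀ᶠ N in U,
      ∃ γ' : Option τ → MvPowerSeries Unit 𝕜, Arc (some o) (P N) ρ0 γ' ∧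
        (∀ i, X () ^ (K * P N) ∣ γ' i - γ N i) ∧ ∀ F ∈ S, subst γ' F = 0 := by
  classical
  set 𝔓 := sm U P γ fun N => (hγ N).zero with h𝔓
  have hprime : 𝔓.IsPrime := sm_isPrime hP
  have hconst : ∀ F, constantCoeff F ≠ 0 → F ∉ 𝔓 := fun F h2 h3 => h2 (const_of_mem_sm hP h3)
  set ι := upG (𝕜 := 𝕜) o 1 ρ0 with hι
  -- the distinguished polynomial
  obtain ⟨qW, -, rW, hrW, hqW, hW⟩ := wdiv_poly one_ne_zero hG (pow_mem (X_mem_Gev none) d) h0 h1
  have hqW0 := hqW (by simp [coeff_X_pow])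
  have hWev : (Polynomial.X ^ d - rW).eval₂ ι (X none) = qW * G := by
    rw [Polynomial.eval₂_sub, Polynomial.eval₂_X_pow, hW, add_sub_cancel_right]
  obtain ⟨Q, hQ1, hQ2, hQ3, hQ4⟩ := minpoly_step ι (X none) 𝔓 hprime
    (fun n => hconst _ (by rw [map_natCast]; exact_mod_cast Nat.succ_ne_zero n))
    (Polynomial.X ^ d - rW) (hWev ▸ Ideal.mul_mem_left _ _ hGs)
    (by rw [(Polynomial.monic_X_pow_sub hrW).leadingCoeff, map_one]; exact hconst _ (by simp))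
  -- remainders
  have hrem : ∀ F ∈ S, ∃ q, ∃ r : Polynomial (Gev 𝕜 o 1 ρ0), F = q * G + r.eval₂ ι (X none) :=
    fun F hF => by
      obtain ⟨q, -, r, -, -, h2⟩ := wdiv_poly one_ne_zero hG (hS1 F hF) h0 h1
      exact ⟨q, r, h2⟩
  choose! q r hqr using hrem
  set T : Set (Polynomial (Gev 𝕜 o 1 ρ0)) := insert (Polynomial.X ^ d - rW) (r '' S) with hT
  have hTf : T.Finite := (hS.image r).insert _
  have hTP : ∀ R ∈ T, R.eval₂ ι (X none) ∈ 𝔓 := by
    rintro R (rfl | ⟨F, hF, rfl⟩)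
    · exact hWev ▸ Ideal.mul_mem_left _ _ hGs
    · rw [eq_sub_of_add_eq' (hqr F hF).symm]
      exact sub_mem (hS2 F hF) (Ideal.mul_mem_left _ _ hGs)
  choose! k H R' hdiv hR' using hQ4
  set S' : Set (MvPowerSeries τ 𝕜) := ⋃ R ∈ T,
    (fun i => (((R' R).coeff i : Gev 𝕜 o 1 ρ0) : MvPowerSeries τ 𝕜)) '' (R' R).support with hS'
  have hS'f : S'.Finite := hTf.biUnion fun R _ => (Finset.finite_toSet _).image _
  let γ1 : I → τ → MvPowerSeries Unit 𝕜 := fun N i => γ N (some i)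
  have hγ1 : ∀ N, Arc o (P N) ρ0 (γ1 N) := fun N =>
    ⟨(hγ N).ho, fun i => (hγ N).gev _, fun i => (hγ N).zero _⟩
  obtain ⟨C1, hC1⟩ := not_mem_sm hQ3
  obtain ⟨C2, hC2⟩ := not_mem_sm hQ2
  set K' := K + 2 * C1 + C2 + 1 with hK'
  have hIH := IH γ1 hγ1 S' hS'f (by
      simp only [hS', Set.mem_iUnion]
      rintro F ⟨R, -, i, -, rfl⟩
      exact ((R' R).coeff i).2) (by
      simp only [hS', Set.mem_iUnion]
      rintro F ⟨R, hR, i, -, rfl⟩ K
      filter_upwards [hR' R (hTP R hR) i K] with N hN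
      rwa [hι, upG_apply, subst_up (hγ N).zero] at hN) K'
  filter_upwards [hIH, hC1, hC2, hQ1 K'] with N ⟨γ2, hγ2, hc, hkill⟩ hN1 hN2 hN3
  have hp := hP N
  let φ : Gev 𝕜 o 1 ρ0 →+* Gev 𝕜 () (P N) ρ0 :=
    ((substAlgHom hγ2.hs : _ →ₐ[𝕜] _).toRingHom.comp (Gev 𝕜 o 1 ρ0).val.toRingHom).codRestrict
      (Gev 𝕜 () (P N) ρ0) fun F => by
        have := hγ2.subst_mem hp F.2
        rwa [← substAlgHom_apply hγ2.hs] at this
  have hφ : ∀ F, (φ F : MvPowerSeries Unit 𝕜) = subst γ2 (F : MvPowerSeries τ 𝕜) := fun F =>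
    substAlgHom_apply hγ2.hs _
  let x0 : Gev 𝕜 () (P N) ρ0 := ⟨γ N none, (hγ N).gev none⟩
  let a0 : Option τ → MvPowerSeries Unit 𝕜 := fun i => i.elim (γ N none) γ2
  have ha0 : ∀ i, constantCoeff (a0 i) = 0 := by
    rintro (_ | i)
    · exact (hγ N).zero none
    · exact hγ2.zero i
  have hcl : ∀ F : MvPowerSeries (Option τ) 𝕜,
      X () ^ (K' * P N) ∣ subst a0 F - subst (γ N) F := by
    refine dvd_subst_sub ha0 (hγ N).zero ?_
    rintro (_ | i)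
    · simp [a0]
    · exact hc i
  have hC1pos : C1 * P N ≠ 0 := fun h => hN1 (by simp [h])
  have hle1 : C1 * P N ≤ K' * P N := Nat.mul_le_mul_right _ (by omega)
  have hle2 : C2 * P N ≤ K' * P N := Nat.mul_le_mul_right _ (by omega)
  have hK'e : K' * P N = K * P N + 2 * (C1 * P N) + C2 * P N + P N := by
    rw [hK']
    ring
  obtain ⟨x, hx1, hx2⟩ := newton hp (Q.map φ) x0 (e := C1 * P N - 1) (m := K' * P N) (by omega)
    (by
      rw [← subst_eval₂ ha0 φ hφ x0 rfl]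
      have h2 := dvd_add (hcl (Q.eval₂ ι (X none))) hN3
      rwa [sub_add_cancel] at h2)
    (by
      rw [Polynomial.derivative_map, ← subst_eval₂ ha0 φ hφ x0 rfl,
        Nat.sub_add_cancel (Nat.pos_of_ne_zero hC1pos)]
      intro h
      refine hN1 ?_
      have h2 := dvd_sub h ((pow_dvd_pow _ hle1).trans (hcl (Q.derivative.eval₂ ι (X none))))
      rwa [sub_sub_cancel] at h2)
  let a : Option τ → MvPowerSeries Unit 𝕜 := fun i => i.elim (x : MvPowerSeries Unit 𝕜) γ2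
  have ha : ∀ i, constantCoeff (a i) = 0 := by
    rintro (_ | i)
    · have h2 := constantCoeff_eq_zero_of_dvd (by omega) hx2
      rw [map_sub, sub_eq_zero] at h2
      exact h2.trans ((hγ N).zero none)
    · exact hγ2.zero i
  have hsa := hasSubst_of_constantCoeff_zero ha
  have hlc : φ Q.leadingCoeff ≠ 0 := by
    intro h
    refine hN2 ?_
    have h2 := hcl (ι Q.leadingCoeff)
    rw [hι, upG_apply, subst_up ha0] at h2
    have h3 : subst (fun i => a0 (some i)) (Q.leadingCoeff : MvPowerSeries τ 𝕜) = 0 := by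
      rw [show (fun i => a0 (some i)) = γ2 from rfl, ← hφ, h]
      rfl
    rw [h3, zero_sub, dvd_neg] at h2
    exact (pow_dvd_pow _ hle2).trans h2
  have hkillT : ∀ R ∈ T, subst a (R.eval₂ ι (X none)) = 0 := by
    intro R hR
    rw [subst_eval₂ ha φ hφ x rfl]
    have h2 : (R' R).map φ = 0 := by
      ext1 i
      rw [Polynomial.coeff_map, Polynomial.coeff_zero]
      by_cases hi : i ∈ (R' R).support
      · refine Subtype.ext ((hφ _).trans (hkill _ ?_))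
        simp only [hS', Set.mem_iUnion]
        exact ⟨R, hR, i, hi, rfl⟩
      · rw [Polynomial.notMem_support_iff.1 hi, map_zero]
    have h3 := congrArg (fun R => (Polynomial.map φ R).eval x) (hdiv R (hTP R hR))
    simp only [Polynomial.map_mul, Polynomial.map_add, Polynomial.map_pow, Polynomial.map_C,
      Polynomial.eval_mul, Polynomial.eval_pow, Polynomial.eval_C, hx1, h2,
      mul_zero, add_zero] at h3
    rw [(mul_eq_zero.1 h3).resolve_left (pow_ne_zero _ hlc)]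
    rfl
  have hGa : subst a G = 0 := by
    have h2 := hkillT _ (Set.mem_insert _ _)
    rw [hWev, subst_mul hsa] at h2
    refine (mul_eq_zero.1 h2).resolve_left fun h3 => hqW0 ?_
    rw [← constantCoeff_subst' ha, h3, map_zero]
  refine ⟨a, ⟨hγ2.ho, ?_, ha⟩, ?_, fun F hF => ?_⟩
  · rintro (_ | i)
    · exact x.2
    · exact hγ2.gev i
  · rintro (_ | i)
    · exact (pow_dvd_pow _ (by omega)).trans hx2
    · exact (pow_dvd_pow _ (by omega)).trans (hc i)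
  · rw [hqr F hF, subst_add hsa, subst_mul hsa, hGa, mul_zero, zero_add]
    exact hkillT _ (Set.mem_insert_of_mem _ ⟨F, hF, rfl⟩)

end Vale.Agent.P218GV
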