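import Vale.Agent.P268.Hol

/-! Power series expansion of holomorphic functions on polydiscs. -/

open Filter Topology Metric

namespace Vale.Agent.P218GV

variable {σ : Type*} [Fintype σ]

/-- The open polydisc. -/
def pd (R : σ → ℝ) : Set (σ → ℂ) := {z | ∀ i, ‖z i‖ < R i}

theorem isOpen_pd (R : σ → ℝ) : IsOpen (pd R) := by
  have : pd R = ⋂ i, {z : σ → ℂ | ‖z i‖ < R i} := by
    ext z
    simp [pd]
  rw [this]
  exact isOpen_iInter_of_finite fun i => isOpen_lt (by fun_prop) continuous_const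

theorem summable_geo {x : σ → ℝ} (h0 : ∀ i, 0 ≤ x i) (h1 : ∀ i, x i < 1) :
    Summable fun μ : σ → ℕ => ∏ i, x i ^ μ i := by
  classical
  refine summable_of_sum_le (c := ∏ i, (1 - x i)⁻¹)
    (fun μ => Finset.prod_nonneg fun i _ => pow_nonneg (h0 i) _) fun u => ?_
  set n := u.sup fun μ => Finset.univ.sup μ with hn
  have h2 : u ⊆ Fintype.piFinset fun _ : σ => Finset.range (n + 1) := by
    intro μ hμ
    rw [Fintype.mem_piFinset]
    intro i
    rw [Finset.mem_range, Nat.lt_succ_iff]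
    exact (Finset.le_sup (f := μ) (Finset.mem_univ i)).trans
      (Finset.le_sup (f := fun μ : σ → ℕ => Finset.univ.sup μ) hμ)
  refine (Finset.sum_le_sum_of_subset_of_nonneg h2 fun μ _ _ =>
    Finset.prod_nonneg fun i _ => pow_nonneg (h0 i) _).trans ?_
  rw [← Finset.prod_univ_sum (fun _ : σ => Finset.range (n + 1)) fun i k => x i ^ k]
  refine Finset.prod_le_prod (fun i _ => Finset.sum_nonneg fun k _ => pow_nonneg (h0 i) _)
    fun i _ => ?_
  rw [← tsum_geometric_of_lt_one (h0 i) (h1 i)]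
  exact (summable_geometric_of_lt_one (h0 i) (h1 i)).sum_le_tsum _ fun k _ => pow_nonneg (h0 i) _

theorem summable_of_bound {R : σ → ℝ} (hR : ∀ i, 0 < R i) {c : (σ → ℕ) → ℂ} {M : ℝ}
    (hc : ∀ μ, ‖c μ‖ * ∏ i, R i ^ μ i ≤ M) {z : σ → ℂ} (hz : z ∈ pd R) :
    Summable fun μ : σ → ℕ => c μ * ∏ i, z i ^ μ i := by
  have h1 := (summable_geo (x := fun i => ‖z i‖ / R i) (fun i => div_nonneg (norm_nonneg _)
    (hR i).le) fun i => (div_lt_one (hR i)).2 (hz i)).mul_left M
  refine Summable.of_norm_bounded h1 fun μ => ?_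
  have h2 : 0 ≤ ∏ i, (‖z i‖ / R i) ^ μ i :=
    Finset.prod_nonneg fun i _ => pow_nonneg (div_nonneg (norm_nonneg _) (hR i).le) _
  refine le_trans (le_of_eq ?_) (mul_le_mul_of_nonneg_right (hc μ) h2)
  rw [norm_mul, norm_prod, mul_assoc, ← Finset.prod_mul_distrib]
  congr 1
  refine Finset.prod_congr rfl fun i _ => ?_
  rw [norm_pow, ← mul_pow, mul_div_cancel₀ _ (hR i).ne']

theorem cauchy_coeff {g : ℂ → ℂ} {R M : ℝ} (hR : 0 < R) (hg : DifferentiableOn ℂ g (ball 0 R))
    (hM : ∀ t ∈ ball (0 : ℂ) R, ‖g t‖ ≤ M) (k : ℕ) :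
    ‖((k.factorial : ℂ))⁻¹ * iteratedDeriv k g 0‖ * R ^ k ≤ M := by
  have h1 : ∀ ρ ∈ Set.Ioo 0 R, ‖((k.factorial : ℂ))⁻¹ * iteratedDeriv k g 0‖ * ρ ^ k ≤ M := by
    intro ρ hρ
    have h2 := Complex.norm_iteratedDeriv_le_of_forall_mem_sphere_norm_le (C := M) k hρ.1
      (hg.mono ((closure_ball_subset_closedBall).trans (closedBall_subset_ball hρ.2))).diffContOnCl
      fun t ht => hM t (sphere_subset_closedBall.trans (closedBall_subset_ball hρ.2) ht)
    have h3 : (0 : ℝ) < k.factorial := by positivity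
    have h4 : 0 < ρ ^ k := pow_pos hρ.1 k
    rw [le_div_iff₀ h4] at h2
    rw [norm_mul, norm_inv, Complex.norm_natCast, mul_assoc, inv_mul_le_iff₀ h3]
    exact h2
  have h2 : Tendsto (fun ρ : ℝ => ‖((k.factorial : ℂ))⁻¹ * iteratedDeriv k g 0‖ * ρ ^ k)
      (𝓝[<] R) (𝓝 (‖((k.factorial : ℂ))⁻¹ * iteratedDeriv k g 0‖ * R ^ k)) :=
    Tendsto.mono_left (Continuous.tendsto (by fun_prop) R) nhdsWithin_le_nhds
  exact le_of_tendsto h2 (mem_of_superset (Ioo_mem_nhdsLT hR) h1)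

theorem exists_series_fin (n : ℕ) : ∀ (R : Fin n → ℝ) (h : (Fin n → ℂ) → ℂ) (M : ℝ),
    (∀ i, 0 < R i) → DifferentiableOn ℂ h (pd R) → (∀ z ∈ pd R, ‖h z‖ ≤ M) →
    ∃ c : (Fin n → ℕ) → ℂ, (∀ μ, ‖c μ‖ * ∏ i, R i ^ μ i ≤ M) ∧
      ∀ z ∈ pd R, HasSum (fun μ : Fin n → ℕ => c μ * ∏ i, z i ^ μ i) (h z) := by
  induction n with
  | zero =>
    intro R h M _ _ hM
    refine ⟨fun _ => h 0, fun μ => by simpa using hM 0 fun i => i.elim0, fun z _ => ?_⟩
    rw [Subsingleton.elim z 0]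
    simp
  | succ n ih =>
    intro R h M hR hd hM
    let e0 : Fin (n + 1) → ℂ := Pi.single 0 1
    let ι : (Fin n → ℂ) → Fin (n + 1) → ℂ := fun z => Fin.cons 0 z
    have hι : Differentiable ℂ ι := differentiable_pi.2 fun i => by
      refine Fin.cases ?_ (fun j => ?_) i
      · simp [ι]
      · simp only [ι, Fin.cons_succ]
        fun_prop
    have hline : ∀ (z : Fin n → ℂ) (t : ℂ), ι z + t • e0 = Fin.cons t z := fun z t => by
      ext i
      refine Fin.cases ?_ (fun j => ?_) i <;> simp [ι, e0]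
    have hmem : ∀ z ∈ pd (Fin.tail R), ∀ t ∈ ball (0 : ℂ) (R 0), ι z + t • e0 ∈ pd R := by
      intro z hz t ht i
      rw [hline]
      refine Fin.cases ?_ (fun j => ?_) i
      · simpa using ht
      · exact hz j
    let g : ℕ → (Fin n → ℂ) → ℂ := fun k z =>
      ((k.factorial : ℂ))⁻¹ * iteratedDeriv k (fun t : ℂ => h (ι z + t • e0)) 0
    have hl : ∀ z ∈ pd (Fin.tail R),
        DifferentiableOn ℂ (fun t : ℂ => h (ι z + t • e0)) (ball 0 (R 0)) := fun z hz =>
      hd.comp (by fun_prop) fun t ht => hmem z hz t ht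
    have hgd : ∀ k, DifferentiableOn ℂ (g k) (pd (Fin.tail R)) := by
      intro k
      have h1 : DifferentiableOn ℂ (fun z => ((k.factorial : ℂ))⁻¹ *
          iteratedFDeriv ℂ k h (ι z) fun _ => e0) (pd (Fin.tail R)) := by
        intro z hz
        have h2 : ι z ∈ pd R := by simpa using hmem z hz 0 (mem_ball_self (hR 0))
        have h3 := ((P268.contDiffOn_of_differentiableOn (isOpen_pd R) hd (k + 1)).contDiffAt
          ((isOpen_pd R).mem_nhds h2)).differentiableAt_iteratedFDeriv (m := k)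
          (by exact_mod_cast lt_add_one k)
        exact (((h3.comp z (hι z)).continuousMultilinear_apply_const _).const_mul
          _).differentiableWithinAt
      refine h1.congr fun z hz => ?_
      simp only [g]
      rw [P268.iteratedDeriv_line (isOpen_pd R)
        (P268.contDiffOn_of_differentiableOn (isOpen_pd R) hd k) (hmem z hz 0 (mem_ball_self (hR 0)))]
      simp
    have hgb : ∀ k, ∀ z ∈ pd (Fin.tail R), ‖g k z‖ ≤ M / R 0 ^ k := fun k z hz => by
      rw [le_div_iff₀ (pow_pos (hR 0) k)]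
      exact cauchy_coeff (hR 0) (hl z hz) (fun t ht => hM _ (hmem z hz t ht)) k
    choose c hc1 hc2 using fun k => ih (Fin.tail R) (g k) _ (fun i => hR _) (hgd k) (hgb k)
    have hb : ∀ μ : Fin (n + 1) → ℕ, ‖c (μ 0) (Fin.tail μ)‖ * ∏ i, R i ^ μ i ≤ M := fun μ => by
      have h1 := hc1 (μ 0) (Fin.tail μ)
      rw [le_div_iff₀ (pow_pos (hR 0) _)] at h1
      rw [Fin.prod_univ_succ]
      refine le_trans (le_of_eq ?_) h1
      simp only [Fin.tail]
      ring
    refine ⟨fun μ => c (μ 0) (Fin.tail μ), hb, fun z hz => ?_⟩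
    have hs := (summable_of_bound hR hb hz).hasSum
    have hz' : Fin.tail z ∈ pd (Fin.tail R) := fun i => hz _
    have hz0 : z 0 ∈ ball (0 : ℂ) (R 0) := by simpa using hz 0
    have h1 := Complex.hasSum_taylorSeries_on_ball (hl _ hz') hz0
    rw [hline, Fin.cons_self_tail] at h1
    have h2 := ((Fin.consEquiv fun _ => ℕ).hasSum_iff.2 hs).prod_fiberwise
      (g := fun k => g k (Fin.tail z) * z 0 ^ k) fun k => by
        refine ((hc2 k _ hz').mul_right (z 0 ^ k)).congr_fun fun ν => ?_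
        simp [Fin.consEquiv, Fin.prod_univ_succ, Fin.tail]
        ring
    have h3 : HasSum (fun k => g k (Fin.tail z) * z 0 ^ k) (h z) := by
      refine h1.congr_fun fun k => ?_
      simp only [g, smul_eq_mul, sub_zero]
      ring
    rwa [h2.unique h3] at hs

/-- Expansion on a polydisc with the Cauchy estimates. -/
theorem exists_series {R : σ → ℝ} {h : (σ → ℂ) → ℂ} {M : ℝ} (hR : ∀ i, 0 < R i)
    (hd : DifferentiableOn ℂ h (pd R)) (hM : ∀ z ∈ pd R, ‖h z‖ ≤ M) :
    ∃ c : MvPowerSeries σ ℂ, (∀ μ, ‖MvPowerSeries.coeff μ c‖ * ∏ i, R i ^ μ i ≤ M) ∧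
      ∀ z ∈ pd R, HasSum (fun μ : σ →₀ ℕ => MvPowerSeries.coeff μ c * ∏ i, z i ^ μ i) (h z) := by
  let e := Fintype.equivFin σ
  have hmem : ∀ z ∈ pd (R ∘ e.symm), z ∘ e ∈ pd R := fun z hz i => by simpa using hz (e i)
  obtain ⟨c, hc1, hc2⟩ := exists_series_fin _ (R ∘ e.symm) (fun z => h (z ∘ e)) M (fun i => hR _)
    (hd.comp (differentiable_pi.2 fun i => differentiable_apply (e i)).differentiableOn hmem)
    fun z hz => hM _ (hmem z hz)
  refine ⟨fun μ => c (μ ∘ e.symm), fun μ => ?_, fun z hz => ?_⟩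
  · have h1 := hc1 (μ ∘ e.symm)
    rw [← e.symm.prod_comp fun i => R i ^ μ i]
    exact h1
  · have h1 := hc2 (z ∘ e.symm) fun i => hz _
    have h2 : (z ∘ e.symm) ∘ e = z := by
      ext i
      simp
    rw [h2] at h1
    let E : (σ →₀ ℕ) ≃ (Fin (Fintype.card σ) → ℕ) :=
      Finsupp.equivFunOnFinite.trans (e.arrowCongr (Equiv.refl ℕ))
    refine (E.hasSum_iff.2 h1).congr_fun fun μ => ?_
    rw [← e.symm.prod_comp fun i => z i ^ μ i]
    rfl

theorem summable_geo' {x : σ → ℝ} (h0 : ∀ i, 0 ≤ x i) (h1 : ∀ i, x i < 1) :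
    Summable fun μ : σ →₀ ℕ => ∏ i, x i ^ μ i :=
  (Finsupp.equivFunOnFinite (α := σ) (M := ℕ)).summable_iff
    (f := fun μ : σ → ℕ => ∏ i, x i ^ μ i) |>.2 (summable_geo h0 h1)

/-- Sums of holomorphic functions. -/
theorem differentiableOn_tsum {E α : Type*} [NormedAddCommGroup E] [NormedSpace ℂ E]
    {f : α → E → ℂ} {U : Set E} (hU : IsOpen U) (hf : ∀ n, DifferentiableOn ℂ (f n) U)
    {u : α → ℝ} (hu : Summable u) (hb : ∀ n, ∀ z ∈ U, ‖f n z‖ ≤ u n) :
    DifferentiableOn ℂ (fun z => ∑' n, f n z) U := by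
  intro x hx
  obtain ⟨r, hr, hrU⟩ := Metric.isOpen_iff.1 hU x hx
  have hsub : ∀ y ∈ ball x (r / 2), ball y (r / 2) ⊆ U := fun y hy =>
    (ball_subset_ball' (by linarith [mem_ball.1 hy])).trans hrU
  have hx2 : x ∈ ball x (r / 2) := mem_ball_self (by positivity)
  refine (hasFDerivAt_tsum_of_isPreconnected (hu.div_const (r / 2)) isOpen_ball
    (convex_ball x (r / 2)).isPreconnected (f' := fun n y => fderiv ℂ (f n) y)
    (fun n y hy => ((hf n).differentiableAt (hU.mem_nhds (hsub y hy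
      (mem_ball_self (by positivity))))).hasFDerivAt)
    (fun n y hy => P268.norm_fderiv_le_of_ball (by positivity) ((hf n).mono (hsub y hy))
      fun z hz => hb n z (hsub y hy hz)) hx2
    (Summable.of_norm_bounded hu fun n => hb n x hx) hx2).differentiableAt.differentiableWithinAt

end Vale.Agent.P218GV
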