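import Vale.Agent.P218GV.GV5
import Vale.Agent.P218GV.GV8

/-! Asymptotic expansions of functions by formal power series. -/

open MvPowerSeries Filter Topology Metric Asymptotics

namespace Vale.Agent.P218GV

variable {σ : Type*} [Fintype σ]

section general

variable {𝕜 : Type*} [NontriviallyNormedField 𝕜]

/-- `c` is the asymptotic expansion of `h` at the origin. -/
def HasExp (h : (σ → 𝕜) → 𝕜) (c : MvPowerSeries σ 𝕜) : Prop :=
  ∀ K : ℕ, (fun z => h z - MvPolynomial.eval z (truncTotal K c)) =O[𝓝 0] fun z => ‖z‖ ^ K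

theorem HasExp.sub {h h' : (σ → 𝕜) → 𝕜} {c c' : MvPowerSeries σ 𝕜} (H : HasExp h c)
    (H' : HasExp h' c') : HasExp (fun z => h z - h' z) (c - c') := fun K => by
  refine ((H K).sub (H' K)).congr_left fun z => ?_
  simp only [map_sub]
  ring

theorem HasExp.congr {h h' : (σ → 𝕜) → 𝕜} {c : MvPowerSeries σ 𝕜} (H : HasExp h c)
    (hh : h =ᶠ[𝓝 0] h') : HasExp h' c := fun K =>
  (H K).congr' (hh.mono fun z hz => by simp only [hz]) EventuallyEq.rfl

theorem eval_truncTotal (K : ℕ) (c : MvPowerSeries σ 𝕜) (z : σ → 𝕜) :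
    MvPolynomial.eval z (truncTotal K c) = ∑ μ ∈ (Finsupp.finite_of_degree_lt (σ := σ) K).toFinset,
      coeff μ c * ∏ i, z i ^ μ i := by
  rw [truncTotal, truncFinset_apply, map_sum]
  refine Finset.sum_congr rfl fun μ _ => ?_
  rw [MvPolynomial.eval_monomial, Finsupp.prod_fintype _ _ (by simp)]

theorem dvd_subst_of_degree {τ : Type*} {a : σ → MvPowerSeries τ 𝕜} {t : τ}
    (ha : ∀ i, X t ∣ a i) {K : ℕ} {F : MvPowerSeries σ 𝕜}
    (hF : ∀ μ : σ →₀ ℕ, μ.degree < K → coeff μ F = 0) : X t ^ K ∣ subst a F := by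
  have ha0 : ∀ i, constantCoeff (a i) = 0 := fun i =>
    constantCoeff_eq_zero_of_dvd one_ne_zero (by simpa using ha i)
  rw [X_pow_dvd_iff]
  intro m hm
  rw [coeff_subst (hasSubst_of_constantCoeff_zero ha0)]
  refine finsum_eq_zero_of_forall_eq_zero fun μ => ?_
  by_cases h : μ.degree < K
  · rw [hF μ h, zero_smul]
  · have h1 : (X t : MvPowerSeries τ 𝕜) ^ μ.degree ∣ μ.prod fun i e => a i ^ e := by
      rw [Finsupp.degree_apply, ← Finset.prod_pow_eq_pow_sum]
      exact Finset.prod_dvd_prod_of_dvd _ _ fun i _ => pow_dvd_pow_of_dvd (ha i) _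
    rw [X_pow_dvd_iff.1 h1 m (by omega), smul_zero]

theorem X_dvd_of_const {F : MvPowerSeries Unit 𝕜} (h : constantCoeff F = 0) : X () ∣ F := by
  rw [X_dvd_iff]
  intro m hm
  have : m = 0 := by
    ext
    simpa using hm
  rw [this]
  simpa using h

theorem dvd_subst_sub_trunc {a : σ → MvPowerSeries Unit 𝕜} (ha : ∀ i, constantCoeff (a i) = 0)
    (K : ℕ) (c : MvPowerSeries σ 𝕜) :
    X () ^ K ∣ subst a c - subst a (truncTotal K c : MvPowerSeries σ 𝕜) := by
  rw [← subst_sub (hasSubst_of_constantCoeff_zero ha)]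
  refine dvd_subst_of_degree (fun i => X_dvd_of_const (ha i)) fun μ hμ => ?_
  rw [map_sub, MvPolynomial.coeff_coe, coeff_truncTotal _ hμ, sub_self]

/-- A polynomial as a power series in one variable. -/
noncomputable def ps (g : Polynomial 𝕜) : MvPowerSeries Unit 𝕜 := (g : PowerSeries 𝕜)

theorem coeff_ps (g : Polynomial 𝕜) (n : ℕ) : coeff (Finsupp.single () n) (ps g) = g.coeff n :=
  Polynomial.coeff_coe g n

theorem const_ps (g : Polynomial 𝕜) : constantCoeff (ps g) = g.coeff 0 := by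
  rw [← coeff_ps, ← coeff_zero_eq_constantCoeff_apply, Finsupp.single_zero]

omit [Fintype σ] in
theorem subst_ps (g : σ → Polynomial 𝕜) (P : MvPolynomial σ 𝕜) :
    subst (fun i => ps (g i)) (P : MvPowerSeries σ 𝕜) = ps (MvPolynomial.aeval g P) := by
  rw [subst_coe]
  exact (MvPolynomial.comp_aeval_apply g (Polynomial.coeToPowerSeries.algHom 𝕜) P).symm

omit [Fintype σ] in
theorem eval_aeval (g : σ → Polynomial 𝕜) (P : MvPolynomial σ 𝕜) (s : 𝕜) :
    (MvPolynomial.aeval g P).eval s = MvPolynomial.eval (fun i => (g i).eval s) P := by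
  have := MvPolynomial.comp_aeval_apply g (Polynomial.aeval s : Polynomial 𝕜 →ₐ[𝕜] 𝕜) P
  simpa [MvPolynomial.aeval_eq_eval] using this

theorem X_pow_dvd_unit {F : MvPowerSeries Unit 𝕜} {K : ℕ} :
    X () ^ K ∣ F ↔ ∀ n < K, coeff (Finsupp.single () n) F = 0 := by
  rw [X_pow_dvd_iff]
  refine ⟨fun h n hn => h _ (by simpa using hn), fun h m hm => ?_⟩
  rw [Finsupp.unique_single m]
  exact h _ hm

theorem coeff_aeval_trunc {g : σ → Polynomial 𝕜} (hg : ∀ i, (g i).coeff 0 = 0)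
    (c : MvPowerSeries σ 𝕜) {K n : ℕ} (hn : n < K) :
    (MvPolynomial.aeval g (truncTotal K c)).coeff n =
      coeff (Finsupp.single () n) (subst (fun i => ps (g i)) c) := by
  have h1 := X_pow_dvd_unit.1 (dvd_subst_sub_trunc (a := fun i => ps (g i))
    (fun i => by rw [const_ps, hg]) K c) n hn
  rw [map_sub, sub_eq_zero, subst_ps, coeff_ps] at h1
  exact h1.symm

theorem isBigO_poly {g : Polynomial 𝕜} {K : ℕ} (h : Polynomial.X ^ K ∣ g) :
    (fun s => g.eval s) =O[𝓝 0] fun s : 𝕜 => s ^ K := by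
  obtain ⟨q, rfl⟩ := h
  simp only [Polynomial.eval_mul, Polynomial.eval_pow, Polynomial.eval_X]
  have := (isBigO_refl (fun s : 𝕜 => s ^ K) (𝓝 0)).mul
    (q.continuous.continuousAt.tendsto.isBigO_one 𝕜 (l := 𝓝 (0 : 𝕜)))
  simpa using this

theorem isBigO_arc {g : σ → Polynomial 𝕜} (hg : ∀ i, (g i).coeff 0 = 0) :
    (fun s : 𝕜 => fun i => (g i).eval s) =O[𝓝 0] fun s : 𝕜 => s := by
  rw [isBigO_pi]
  intro i
  simpa using isBigO_poly (K := 1) (by simpa using Polynomial.X_dvd_iff.2 (hg i))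

/-- Jets of a function along a polynomial arc. -/
theorem HasExp.jet {h : (σ → 𝕜) → 𝕜} {c : MvPowerSeries σ 𝕜} (H : HasExp h c)
    {g : σ → Polynomial 𝕜} (hg : ∀ i, (g i).coeff 0 = 0) (K : ℕ) :
    (fun s : 𝕜 => h (fun i => (g i).eval s) - ∑ n ∈ Finset.range K,
      coeff (Finsupp.single () n) (subst (fun i => ps (g i)) c) * s ^ n) =O[𝓝 0]
      fun s : 𝕜 => s ^ K := by
  have h1 := isBigO_arc hg
  have h2 : Tendsto (fun s : 𝕜 => fun i => (g i).eval s) (𝓝 0) (𝓝 0) :=
    h1.trans_tendsto tendsto_id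
  have h3 := ((H K).comp_tendsto h2).trans ((h1.norm_left.pow K))
  set Q := MvPolynomial.aeval g (truncTotal K c) with hQ
  have h4 : Polynomial.X ^ K ∣ Q - ∑ n ∈ Finset.range K, Polynomial.monomial n (Q.coeff n) := by
    rw [Polynomial.X_pow_dvd_iff]
    intro n hn
    simp [Polynomial.coeff_monomial, hn]
  refine (h3.add (isBigO_poly h4)).congr_left fun s => ?_
  simp only [Function.comp, Polynomial.eval_sub, Polynomial.eval_finsetSum,
    Polynomial.eval_monomial, hQ, eval_aeval]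
  rw [Finset.sum_congr rfl fun n hn => by
    rw [coeff_aeval_trunc hg c (Finset.mem_range.1 hn)]]
  ring

end general

theorem poly_dvd_of_isBigO {Q : Polynomial ℝ} {K : ℕ}
    (h : (fun t => Q.eval t) =O[𝓝[>] 0] fun t : ℝ => t ^ K) : Polynomial.X ^ K ∣ Q := by
  induction K with
  | zero => simp
  | succ K ih =>
    have h1 : (fun t : ℝ => t ^ (K + 1)) =O[𝓝[>] 0] fun t : ℝ => t ^ K := by
      have := (isBigO_refl (fun t : ℝ => t ^ K) (𝓝[>] 0)).mul
        ((tendsto_id.mono_left nhdsWithin_le_nhds).isBigO_one ℝ (l := 𝓝[>] (0 : ℝ)))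
      simpa [pow_succ] using this
    obtain ⟨q, rfl⟩ := ih (h.trans h1)
    rw [pow_succ]
    refine mul_dvd_mul_left _ (Polynomial.X_dvd_iff.2 ?_)
    have h2 : (fun t => q.eval t) =O[𝓝[>] 0] fun t : ℝ => t := by
      obtain ⟨C, hC⟩ := h.bound
      refine IsBigO.of_bound C ?_
      filter_upwards [hC, self_mem_nhdsWithin] with t ht ht0
      have h3 : 0 < ‖t‖ ^ K := pow_pos (norm_pos_iff.2 (ne_of_gt ht0)) K
      simp only [Polynomial.eval_mul, Polynomial.eval_pow, Polynomial.eval_X, norm_mul, norm_pow,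
        pow_succ] at ht
      nlinarith
    have h3 := h2.trans_tendsto (tendsto_id.mono_left nhdsWithin_le_nhds)
    have h4 := (q.continuous.tendsto 0).mono_left (nhdsWithin_le_nhds (s := Set.Ioi 0))
    rw [Polynomial.coeff_zero_eq_eval_zero]
    exact tendsto_nhds_unique h4 h3

/-- Vanishing along a real arc gives vanishing of the formal substitution. -/
theorem HasExp.dvd {h : (σ → ℝ) → ℝ} {c : MvPowerSeries σ ℝ} (H : HasExp h c)
    {g : σ → Polynomial ℝ} (hg : ∀ i, (g i).coeff 0 = 0) {K : ℕ} {γ : ℝ → σ → ℝ}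
    (hγ : (fun t => γ t - fun i => (g i).eval t) =O[𝓝[>] 0] fun t : ℝ => t ^ K)
    (hh : (fun t => h (γ t)) =O[𝓝[>] 0] fun t : ℝ => t ^ K) :
    X () ^ K ∣ subst (fun i => ps (g i)) c := by
  rcases K with _ | K
  · simp
  have h0 : Tendsto (fun t : ℝ => t) (𝓝[>] 0) (𝓝 0) := tendsto_id.mono_left nhdsWithin_le_nhds
  have h1 := (isBigO_arc hg).mono (nhdsWithin_le_nhds (s := Set.Ioi 0))
  have h2 : (fun t : ℝ => t ^ (K + 1)) =O[𝓝[>] 0] fun t : ℝ => t := by
    have := (isBigO_refl (fun t : ℝ => t) (𝓝[>] 0)).mul ((h0.pow K).isBigO_one ℝ)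
    simpa [pow_succ'] using this
  have h3 : γ =O[𝓝[>] 0] fun t : ℝ => t :=
    ((hγ.trans h2).add h1).congr_left fun t => by simp
  set P := truncTotal (K + 1) c with hP
  have h4 := ((H (K + 1)).comp_tendsto (h3.trans_tendsto h0)).trans (h3.norm_left.pow (K + 1))
  have h5 := (((AnalyticOnNhd.eval_mvPolynomial P 0 (Set.mem_univ _)).hasStrictFDerivAt.isBigO_sub
    ).comp_tendsto ((h3.trans_tendsto h0).prodMk_nhds (h1.trans_tendsto h0))).trans hγ
  have h6 : (fun t => (MvPolynomial.aeval g P).eval t) =O[𝓝[>] 0] fun t : ℝ => t ^ (K + 1) := by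
    refine ((hh.sub h4).sub h5).congr_left fun t => ?_
    simp [eval_aeval, hP]
  rw [X_pow_dvd_unit]
  intro n hn
  rw [← coeff_aeval_trunc hg c hn]
  exact Polynomial.X_pow_dvd_iff.1 (poly_dvd_of_isBigO h6) n hn

theorem HasExp.eq_zero {c : MvPowerSeries σ ℝ} (H : HasExp (fun _ => 0) c) : c = 0 := by
  by_contra hc
  obtain ⟨v, -, hv⟩ := exists_line (o := none) (F := up c) (fun h => hc (by
    ext μ
    have := X_dvd_iff.1 h (μ.optionElim 0) (by simp)
    simpa [coeff_up] using this))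
  rw [subst_up (by simp)] at hv
  refine hv (MvPowerSeries.ext fun μ => ?_)
  have h1 := H.dvd (g := fun i => Polynomial.C (v (some i)) * Polynomial.X) (by simp)
    (K := μ () + 1) (γ := fun t i => (Polynomial.C (v (some i)) * Polynomial.X).eval t)
    (by simp only [sub_self]; exact isBigO_zero _ _) (isBigO_zero _ _)
  have h2 : (fun i => ps (Polynomial.C (v (some i)) * Polynomial.X)) =
      fun i => (C (v (some i)) * X () : MvPowerSeries Unit ℝ) := by
    funext i
    simp only [ps, Polynomial.coe_mul, Polynomial.coe_C, Polynomial.coe_X]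
    rfl
  rw [h2] at h1
  exact X_pow_dvd_iff.1 h1 μ (lt_add_one _)

/-- Real points. -/
def cx (x : σ → ℝ) : σ → ℂ := fun i => x i

theorem norm_cx (x : σ → ℝ) : ‖cx x‖ = ‖x‖ := by
  simp [cx, Pi.norm_def]

omit [Fintype σ] in
theorem tendsto_cx : Tendsto (cx : (σ → ℝ) → σ → ℂ) (𝓝 0) (𝓝 0) := by
  have : Continuous (cx : (σ → ℝ) → σ → ℂ) := by
    unfold cx
    fun_prop
  exact this.tendsto' 0 0 (by ext; simp [cx])

/-- Image of a complex series under a real linear functional. -/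
noncomputable def lin (L : ℂ →L[ℝ] ℝ) (c : MvPowerSeries σ ℂ) : MvPowerSeries σ ℝ :=
  fun μ => L (coeff μ c)

omit [Fintype σ] in
theorem coeff_lin (L : ℂ →L[ℝ] ℝ) (c : MvPowerSeries σ ℂ) (μ : σ →₀ ℕ) :
    coeff μ (lin L c) = L (coeff μ c) := rfl

theorem HasExp.lin {h : (σ → ℂ) → ℂ} {c : MvPowerSeries σ ℂ} (H : HasExp h c) (L : ℂ →L[ℝ] ℝ) :
    HasExp (fun x => L (h (cx x))) (lin L c) := by
  intro K
  have h1 := (L.isBigO_comp _ _).trans ((H K).comp_tendsto tendsto_cx)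
  refine h1.congr (fun x => ?_) fun x => by simp [norm_cx]
  simp only [Function.comp, map_sub, eval_truncTotal, map_sum, coeff_lin]
  congr 1
  refine Finset.sum_congr rfl fun μ _ => ?_
  have : coeff μ c * ∏ i, cx x i ^ μ i = (∏ i, x i ^ μ i : ℝ) • coeff μ c := by
    simp [cx, mul_comm]
  rw [this, map_smul, smul_eq_mul, mul_comm]

theorem HasExp.unique {h : (σ → ℂ) → ℂ} {c c' : MvPowerSeries σ ℂ} (H : HasExp h c)
    (H' : HasExp h c') : c = c' := by
  have h1 := H.sub H'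
  simp only [sub_self] at h1
  have h2 := (h1.lin Complex.reCLM)
  have h3 := (h1.lin Complex.imCLM)
  simp only [map_zero] at h2 h3
  ext μ
  rw [← sub_eq_zero, ← map_sub]
  exact Complex.ext (congrArg (coeff μ) h2.eq_zero) (congrArg (coeff μ) h3.eq_zero)

theorem HasExp.im_eq_zero {h : (σ → ℂ) → ℂ} {c : MvPowerSeries σ ℂ} (H : HasExp h c)
    (hr : ∀ᶠ x in 𝓝 (0 : σ → ℝ), (h (cx x)).im = 0) (μ : σ →₀ ℕ) : (coeff μ c).im = 0 :=
  congrArg (coeff μ) ((H.lin Complex.imCLM).congr (h' := fun _ => 0) hr).eq_zero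

end Vale.Agent.P218GV
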